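import Vale.Agent.P159.H239.Contr1
import Mathlib.Analysis.Convex.Deriv

/-!
P159 / second order flow, module CONTR (helper239), part 2: the slope comparison for two convex
functions (CVX), ray functions `τ ↦ E R(x + τ z)` and the trace form of the contraction
(NOTE 3 (4)).
-/

namespace Vale.Agent.P159.H239

open Real MeasureTheory Set

/-- **CVX**: two convex functions whose difference is `c0` up to `d` at the three points
`1 - h, 1, 1 + h` have slopes at `1` which differ by at most `(2 d + second difference) / h` -/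
theorem cvx_slope {φ ψ : ℝ → ℝ} (hφ : ConvexOn ℝ univ φ) (hψ : ConvexOn ℝ univ ψ)
    {p q h d c0 S : ℝ} (hh : 0 < h) (hp : HasDerivAt φ p 1) (hq : HasDerivAt ψ q 1)
    (h1 : |ψ 1 - φ 1 - c0| ≤ d) (h2 : |ψ (1 + h) - φ (1 + h) - c0| ≤ d)
    (h3 : |ψ (1 - h) - φ (1 - h) - c0| ≤ d) (hS : φ (1 + h) + φ (1 - h) - 2 * φ 1 ≤ S) :
    |q - p| ≤ (2 * d + S) / h := by
  have a1 := hφ.le_slope_of_hasDerivAt (mem_univ 1) (mem_univ (1 + h)) (by linarith) hp
  have a2 := hφ.slope_le_of_hasDerivAt (mem_univ (1 - h)) (mem_univ 1) (by linarith) hp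
  have b1 := hψ.le_slope_of_hasDerivAt (mem_univ 1) (mem_univ (1 + h)) (by linarith) hq
  have b2 := hψ.slope_le_of_hasDerivAt (mem_univ (1 - h)) (mem_univ 1) (by linarith) hq
  rw [slope_def_field] at a1 a2 b1 b2
  have e1 : (1 : ℝ) + h - 1 = h := by ring
  have e2 : (1 : ℝ) - (1 - h) = h := by ring
  rw [e1, le_div_iff₀ hh] at a1 b1
  rw [e2, div_le_iff₀ hh] at a2 b2
  have c1 := abs_le.1 h1
  have c2 := abs_le.1 h2
  have c3 := abs_le.1 h3
  have e3 : |q - p| * h = |(q - p) * h| := by rw [abs_mul, abs_of_pos hh]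
  rw [le_div_iff₀ hh, e3]
  refine abs_le.2 ⟨?_, ?_⟩
  · nlinarith
  · nlinarith

variable {E : Type*} [NormedAddCommGroup E] [NormedSpace ℝ E] [MeasurableSpace E] [BorelSpace E]
  [SecondCountableTopology E]
variable {Ω : Type*} [MeasurableSpace Ω] {P : Measure Ω} [IsProbabilityMeasure P]
variable {κ : Measure E} [IsProbabilityMeasure κ]
variable {R Q : E → ℝ} {x z : Ω → E}

/-- the ray function -/
noncomputable def ray (P : Measure Ω) (R : E → ℝ) (x z : Ω → E) (τ : ℝ) : ℝ :=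
  ∫ ω, R (x ω + τ • z ω) ∂P

/-- the ray function with an independent shift -/
noncomputable def rayk (P : Measure Ω) (κ : Measure E) (R : E → ℝ) (x z : Ω → E) (τ : ℝ) : ℝ :=
  ∫ ω, ∫ y, R (x ω + τ • z ω + y) ∂κ ∂P

/-- homogeneity of the dominating form -/
structure Dom2 (R Q : E → ℝ) : Prop extends Dom R Q where
  hom : ∀ (c : ℝ) (x : E), Q (c • x) = c ^ 2 * Q x

namespace Dom2

variable (h : Dom2 R Q)
include h

theorem le_ray (a b : E) (τ : ℝ) : Q (a + τ • b) ≤ 2 * Q a + 2 * (τ ^ 2 * Q b) := by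
  have h1 := h.par a (τ • b)
  rw [h.hom] at h1
  linarith [h.toDom.Q_nonneg (a - τ • b)]

theorem int_Q_ray (hx : Measurable x) (hz : Measurable z) (hxQ : Integrable (fun ω => Q (x ω)) P)
    (hzQ : Integrable (fun ω => Q (z ω)) P) (τ : ℝ) :
    Integrable (fun ω => Q (x ω + τ • z ω)) P := by
  refine Integrable.mono' ((hxQ.const_mul 2).add ((hzQ.const_mul (τ ^ 2)).const_mul 2))
    (h.mQ.comp (hx.add (hz.const_smul τ))).aestronglyMeasurable
    (Filter.Eventually.of_forall fun ω => ?_)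
  rw [Real.norm_eq_abs, abs_of_nonneg (h.toDom.Q_nonneg _)]
  exact h.le_ray _ _ _

theorem int_R_ray (hx : Measurable x) (hz : Measurable z) (hxQ : Integrable (fun ω => Q (x ω)) P)
    (hzQ : Integrable (fun ω => Q (z ω)) P) (τ : ℝ) :
    Integrable (fun ω => R (x ω + τ • z ω)) P :=
  Integrable.mono' (h.int_Q_ray hx hz hxQ hzQ τ)
    (h.mR.comp (hx.add (hz.const_smul τ))).aestronglyMeasurable
    (Filter.Eventually.of_forall fun ω => by
      rw [Real.norm_eq_abs, abs_of_nonneg (h.met.nn _)]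
      exact h.le _)

/-- **R2**: the ray function is convex -/
theorem ray_convex (hR : ConvexOn ℝ univ R) (hx : Measurable x) (hz : Measurable z)
    (hxQ : Integrable (fun ω => Q (x ω)) P) (hzQ : Integrable (fun ω => Q (z ω)) P) :
    ConvexOn ℝ univ (ray P R x z) := by
  refine ⟨convex_univ, fun s _ t _ a b ha hb hab => ?_⟩
  unfold ray
  simp only [smul_eq_mul]
  rw [← integral_const_mul, ← integral_const_mul,
    ← integral_add ((h.int_R_ray hx hz hxQ hzQ s).const_mul a)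
      ((h.int_R_ray hx hz hxQ hzQ t).const_mul b)]
  refine integral_mono (h.int_R_ray hx hz hxQ hzQ _)
    (((h.int_R_ray hx hz hxQ hzQ s).const_mul a).add
      ((h.int_R_ray hx hz hxQ hzQ t).const_mul b)) fun ω => ?_
  have h1 := hR.2 (mem_univ (x ω + s • z ω)) (mem_univ (x ω + t • z ω)) ha hb hab
  have h2 : a • (x ω + s • z ω) + b • (x ω + t • z ω) = x ω + (a * s + b * t) • z ω := by
    have h3 : x ω = (a + b) • x ω := by rw [hab, one_smul]
    rw [smul_add, smul_add, smul_smul, smul_smul, add_smul]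
    nth_rw 3 [h3]
    rw [add_smul]
    abel
  rw [h2] at h1
  simpa only [smul_eq_mul] using h1

/-- the shifted ray function -/
theorem rayk_eq (hκQ : Integrable Q κ) (hκ : κ.map (fun y => -y) = κ) (hx : Measurable x)
    (hz : Measurable z) (hxQ : Integrable (fun ω => Q (x ω)) P)
    (hzQ : Integrable (fun ω => Q (z ω)) P) (τ : ℝ) :
    rayk P κ R x z τ = ray P R x z τ + ∫ y, R y ∂κ +
      (1 / 2) * ∫ ω, 1 * ∫ y, dl R (x ω + τ • z ω) y ∂κ ∂P := by
  unfold rayk ray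
  have h1 : ∀ ω, ∫ y, R (x ω + τ • z ω + y) ∂κ = R (x ω + τ • z ω) + (∫ y, R y ∂κ +
      (1 / 2) * (1 * ∫ y, dl R (x ω + τ • z ω) y ∂κ)) := fun ω => by
    rw [h.toDom.mean_add hκQ hκ]
    ring
  have hi := int_W_dl (P := P) (W := fun _ => (1 : ℝ)) (a := fun ω => x ω + τ • z ω) h.toDom hκQ
    (hx.add (hz.const_smul τ)) (integrable_const _)
    (by simpa using h.int_Q_ray hx hz hxQ hzQ τ)
  have hj : Integrable (fun ω => ∫ y, R y ∂κ +
      (1 / 2) * (1 * ∫ y, dl R (x ω + τ • z ω) y ∂κ)) P :=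
    (integrable_const _).add (hi.const_mul (1 / 2))
  rw [integral_congr_ae (Filter.Eventually.of_forall h1),
    integral_add (h.int_R_ray hx hz hxQ hzQ τ) hj,
    integral_add (integrable_const _) (hi.const_mul (1 / 2)), integral_const_mul, integral_const]
  simp
  ring

theorem rayk_convex (hR : ConvexOn ℝ univ R) (hκQ : Integrable Q κ) (hx : Measurable x)
    (hz : Measurable z)
    (hxQ : Integrable (fun ω => Q (x ω)) P) (hzQ : Integrable (fun ω => Q (z ω)) P) :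
    ConvexOn ℝ univ (rayk P κ R x z) := by
  have hxy : Measurable fun p : Ω × E => x p.1 + p.2 := (hx.comp measurable_fst).add measurable_snd
  have hzy : Measurable fun p : Ω × E => z p.1 := hz.comp measurable_fst
  have i1 : Integrable (fun p : Ω × E => Q (x p.1 + p.2)) (P.prod κ) := by
    have i2 : Integrable (fun p : Ω × E => Q (x p.1)) (P.prod κ) := hxQ.comp_fst κ
    have i3 : Integrable (fun p : Ω × E => Q p.2) (P.prod κ) := hκQ.comp_snd P
    refine Integrable.mono' ((i2.const_mul 2).add (i3.const_mul 2))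
      (h.mQ.comp hxy).aestronglyMeasurable (Filter.Eventually.of_forall fun p => ?_)
    rw [Real.norm_eq_abs, abs_of_nonneg (h.toDom.Q_nonneg _)]
    have := h.par (x p.1) p.2
    simp only [Pi.add_apply]
    linarith [h.toDom.Q_nonneg (x p.1 - p.2)]
  have i4 : Integrable (fun p : Ω × E => Q (z p.1)) (P.prod κ) := hzQ.comp_fst κ
  have h1 := h.ray_convex (P := P.prod κ) (x := fun p : Ω × E => x p.1 + p.2)
    (z := fun p : Ω × E => z p.1) hR hxy hzy i1 i4
  have h2 : ray (P.prod κ) R (fun p : Ω × E => x p.1 + p.2) (fun p : Ω × E => z p.1) =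
      rayk P κ R x z := by
    funext τ
    unfold ray rayk
    rw [integral_prod _ (h.int_R_ray hxy hzy i1 i4 τ)]
    refine integral_congr_ae (Filter.Eventually.of_forall fun ω => ?_)
    refine integral_congr_ae (Filter.Eventually.of_forall fun y => ?_)
    simp only
    congr 1
    abel
  rw [← h2]
  exact h1

/-- the second difference of the ray function with step `e`, via (MET) again -/
theorem ray_second (hx : Measurable x) (hz : Measurable z)
    (hxQ : Integrable (fun ω => Q (x ω)) P) (hzQ : Integrable (fun ω => Q (z ω)) P) {e : ℝ}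
    {A : Set Ω} (hA : MeasurableSet A) {ra rh : ℝ} (hra0 : 0 ≤ ra) (hra : ra ≤ 1)
    (hrh0 : 0 ≤ rh) (hrh : rh ≤ 1)
    (hAR : ∀ ω ∈ A, R (x ω + (1 : ℝ) • z ω) ≤ 1 ∧ TR R (x ω + (1 : ℝ) • z ω) ≤ ra)
    (hAh : ∀ ω ∈ A, R (e • z ω) ≤ rh ∧ TR R (e • z ω) ≤ rh) :
    ray P R x z (1 + e) + ray P R x z (1 - e) - 2 * ray P R x z 1 ≤
      20 * (Real.sqrt ra * Real.sqrt rh) + 2 * rh +
        (2 * ∫ ω in Aᶜ, Q (x ω + (1 : ℝ) • z ω) ∂P + 4 * ∫ ω in Aᶜ, Q (e • z ω) ∂P) := by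
  have i0 := h.int_R_ray hx hz hxQ hzQ 1
  have i1 := h.int_R_ray hx hz hxQ hzQ (1 + e)
  have i2 := h.int_R_ray hx hz hxQ hzQ (1 - e)
  have j0 := h.int_Q_ray hx hz hxQ hzQ 1
  have jz : Integrable (fun ω => Q (e • z ω)) P := by
    simp only [h.hom]
    exact hzQ.const_mul _
  have iz : Integrable (fun ω => R (e • z ω)) P :=
    Integrable.mono' jz (h.mR.comp (hz.const_smul e)).aestronglyMeasurable
      (Filter.Eventually.of_forall fun ω => by
        rw [Real.norm_eq_abs, abs_of_nonneg (h.met.nn _)]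
        exact h.le _)
  have e1 : ∀ ω, x ω + (1 + e) • z ω = (x ω + (1 : ℝ) • z ω) + e • z ω := fun ω => by
    rw [add_smul, add_assoc]
  have e2 : ∀ ω, x ω + (1 - e) • z ω = (x ω + (1 : ℝ) • z ω) - e • z ω := fun ω => by
    rw [sub_smul, add_sub_assoc]
  have hd : ∀ ω, R (x ω + (1 + e) • z ω) + R (x ω + (1 - e) • z ω) -
      2 * R (x ω + (1 : ℝ) • z ω) =
      dl R (x ω + (1 : ℝ) • z ω) (e • z ω) + 2 * R (e • z ω) := fun ω => by
    unfold dl
    rw [e1, e2]
    ring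
  set D : Ω → ℝ := fun ω => R (x ω + (1 + e) • z ω) + R (x ω + (1 - e) • z ω) -
      2 * R (x ω + (1 : ℝ) • z ω) with hD
  have iD : Integrable D P := (i1.add i2).sub (i0.const_mul 2)
  have h1 : ray P R x z (1 + e) + ray P R x z (1 - e) - 2 * ray P R x z 1 = ∫ ω, D ω ∂P := by
    have i12 : Integrable (fun ω => R (x ω + (1 + e) • z ω) + R (x ω + (1 - e) • z ω)) P :=
      i1.add i2
    rw [hD]
    unfold ray
    rw [integral_sub i12 (i0.const_mul 2), integral_add i1 i2, integral_const_mul]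
  have hgood : ∀ ω ∈ A, D ω ≤ 20 * (Real.sqrt ra * Real.sqrt rh) + 2 * rh := fun ω hω => by
    obtain ⟨a1, a2⟩ := hAR ω hω
    obtain ⟨b1, b2⟩ := hAh ω hω
    have c1 := (le_abs_self _).trans (h.met.abs_dl_le' a1 (b1.trans hrh))
    have hta : tn R (x ω + (1 : ℝ) • z ω) ≤ Real.sqrt 2 * Real.sqrt ra := by
      rw [← Real.sqrt_mul (by norm_num)]
      exact Real.le_sqrt_of_sq_le (tn_sq_le hra0 hra a2)
    have htc : tn R (e • z ω) ≤ Real.sqrt 2 * Real.sqrt rh := by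
      rw [← Real.sqrt_mul (by norm_num)]
      exact Real.le_sqrt_of_sq_le (tn_sq_le hrh0 hrh b2)
    have h3 : tn R (x ω + (1 : ℝ) • z ω) * tn R (e • z ω) ≤
        (Real.sqrt 2 * Real.sqrt ra) * (Real.sqrt 2 * Real.sqrt rh) :=
      mul_le_mul hta htc (tn_nonneg _ _) (by positivity)
    have h4 : (Real.sqrt 2 * Real.sqrt ra) * (Real.sqrt 2 * Real.sqrt rh) =
        2 * (Real.sqrt ra * Real.sqrt rh) := by
      have : Real.sqrt 2 * Real.sqrt 2 = 2 := Real.mul_self_sqrt (by norm_num)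
      linear_combination (Real.sqrt ra * Real.sqrt rh) * this
    have h5 : D ω = dl R (x ω + (1 : ℝ) • z ω) (e • z ω) + 2 * R (e • z ω) := hd ω
    rw [h5]
    linarith
  have hbad : ∀ ω, D ω ≤ 2 * Q (x ω + (1 : ℝ) • z ω) + 4 * Q (e • z ω) := fun ω => by
    have h5 : D ω = dl R (x ω + (1 : ℝ) • z ω) (e • z ω) + 2 * R (e • z ω) := hd ω
    have c1 := (le_abs_self _).trans
      (h.met.abs_dl_crude h.le h.par (x ω + (1 : ℝ) • z ω) (e • z ω))
    have c2 := h.le (e • z ω)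
    rw [h5]
    linarith
  rw [h1, ← integral_add_compl hA iD]
  refine add_le_add ?_ ?_
  · refine (setIntegral_mono_on iD.integrableOn (integrable_const _).integrableOn hA
      hgood).trans ?_
    rw [setIntegral_const, smul_eq_mul]
    have h5 : P.real A ≤ 1 := measureReal_le_one
    have h6 : 0 ≤ 20 * (Real.sqrt ra * Real.sqrt rh) + 2 * rh := by positivity
    nlinarith
  · refine (setIntegral_mono iD.integrableOn
      ((j0.const_mul 2).add (jz.const_mul 4)).integrableOn hbad).trans (le_of_eq ?_)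
    rw [← integral_const_mul 2 (fun ω => Q (x ω + (1 : ℝ) • z ω)),
      ← integral_const_mul 4 (fun ω => Q (e • z ω)),
      ← integral_add (j0.const_mul 2).integrableOn (jz.const_mul 4).integrableOn]
    rfl

/-- the difference of the two ray functions is constant up to the estimate of part 1 -/
theorem rayk_sub (hκQ : Integrable Q κ) (hκ : κ.map (fun y => -y) = κ) (hx : Measurable x)
    (hz : Measurable z) (hxQ : Integrable (fun ω => Q (x ω)) P)
    (hzQ : Integrable (fun ω => Q (z ω)) P) (τ : ℝ)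
    {A : Set Ω} (hA : MeasurableSet A) {C : Set E} (hC : MeasurableSet C) {ra rc : ℝ}
    (hra0 : 0 ≤ ra) (hra : ra ≤ 1) (hrc0 : 0 ≤ rc) (hrc : rc ≤ 1)
    (hAR : ∀ ω ∈ A, R (x ω + τ • z ω) ≤ 1 ∧ TR R (x ω + τ • z ω) ≤ ra)
    (hCR : ∀ y ∈ C, R y ≤ 1 ∧ TR R y ≤ rc) :
    |rayk P κ R x z τ - ray P R x z τ - ∫ y, R y ∂κ| ≤
      rhs P κ Q (fun ω => x ω + τ • z ω) (fun _ => 1) A C ra rc := by
  have hWQ : Integrable (fun ω => |(1 : ℝ)| * Q (x ω + τ • z ω)) P := by
    simpa using h.int_Q_ray hx hz hxQ hzQ τ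
  have hi := int_W_dl (P := P) (W := fun _ => (1 : ℝ)) (a := fun ω => x ω + τ • z ω) h.toDom hκQ
    (hx.add (hz.const_smul τ)) (integrable_const _) hWQ
  have h1 := est_le (P := P) (W := fun _ => (1 : ℝ)) (a := fun ω => x ω + τ • z ω) h.toDom hκQ
    (integrable_const _) hWQ hi hA hC hra0 hra hrc0 hrc hAR hCR
  rw [h.rayk_eq hκQ hκ hx hz hxQ hzQ τ]
  have h2 : ray P R x z τ + ∫ y, R y ∂κ + (1 / 2) * ∫ ω, 1 * ∫ y, dl R (x ω + τ • z ω) y ∂κ ∂P -
      ray P R x z τ - ∫ y, R y ∂κ = (1 / 2) * ∫ ω, 1 * ∫ y, dl R (x ω + τ • z ω) y ∂κ ∂P := by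
    ring
  rw [h2, abs_mul, abs_of_pos (by norm_num : (0 : ℝ) < 1 / 2)]
  exact h1

/-- **TRACE FORM of the contraction** (NOTE 3 (4)): the ray derivatives at `1` (for a Gaussian `z`
independent of `x` these are the traces `tr (Γ_z E R'')`) with and without the independent
symmetric shift `y ~ κ`. -/
theorem trace_le (hR : ConvexOn ℝ univ R) (hκQ : Integrable Q κ)
    (hκ : κ.map (fun y => -y) = κ) (hx : Measurable x)
    (hz : Measurable z) (hxQ : Integrable (fun ω => Q (x ω)) P)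
    (hzQ : Integrable (fun ω => Q (z ω)) P) {e p q d : ℝ} (he : 0 < e)
    (hp : HasDerivAt (ray P R x z) p 1) (hq : HasDerivAt (rayk P κ R x z) q 1)
    {A : Set Ω} (hA : MeasurableSet A) {C : Set E} (hC : MeasurableSet C) {ra rc rh : ℝ}
    (hra0 : 0 ≤ ra) (hra : ra ≤ 1) (hrc0 : 0 ≤ rc) (hrc : rc ≤ 1) (hrh0 : 0 ≤ rh) (hrh : rh ≤ 1)
    (hAR : ∀ τ : ℝ, τ = 1 ∨ τ = 1 + e ∨ τ = 1 - e → ∀ ω ∈ A,
      R (x ω + τ • z ω) ≤ 1 ∧ TR R (x ω + τ • z ω) ≤ ra)
    (hAh : ∀ ω ∈ A, R (e • z ω) ≤ rh ∧ TR R (e • z ω) ≤ rh)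
    (hCR : ∀ y ∈ C, R y ≤ 1 ∧ TR R y ≤ rc)
    (hd : ∀ τ : ℝ, τ = 1 ∨ τ = 1 + e ∨ τ = 1 - e →
      rhs P κ Q (fun ω => x ω + τ • z ω) (fun _ => 1) A C ra rc ≤ d) :
    |q - p| ≤ (2 * d + (20 * (Real.sqrt ra * Real.sqrt rh) + 2 * rh +
        (2 * ∫ ω in Aᶜ, Q (x ω + (1 : ℝ) • z ω) ∂P + 4 * ∫ ω in Aᶜ, Q (e • z ω) ∂P))) / e := by
  have H : ∀ τ : ℝ, τ = 1 ∨ τ = 1 + e ∨ τ = 1 - e →
      |rayk P κ R x z τ - ray P R x z τ - ∫ y, R y ∂κ| ≤ d := fun τ hτ =>
    (h.rayk_sub hκQ hκ hx hz hxQ hzQ τ hA hC hra0 hra hrc0 hrc (hAR τ hτ) hCR).trans (hd τ hτ)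
  exact cvx_slope (h.ray_convex hR hx hz hxQ hzQ) (h.rayk_convex hR hκQ hx hz hxQ hzQ) he hp hq
    (H 1 (Or.inl rfl)) (H (1 + e) (Or.inr (Or.inl rfl))) (H (1 - e) (Or.inr (Or.inr rfl)))
    (h.ray_second hx hz hxQ hzQ hA hra0 hra hrh0 hrh (hAR 1 (Or.inl rfl)) hAh)

end Dom2

end Vale.Agent.P159.H239
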