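import Vale.Agent.P159.H37.Gau
import Mathlib.Probability.Distributions.Gaussian.Multivariate
import Mathlib.Analysis.Matrix.Order

/-!
P159 / second order flow, module RAY (helper239), R1: laws of `A g`, `g` standard Gaussian, and
monotonicity of `E R(x + A g)` in the covariance `A Aᵀ` for convex `R`.
-/

namespace Vale.Agent.P159.H239

open Real MeasureTheory ProbabilityTheory Matrix
open scoped MatrixOrder
open Vale.Agent.P159.H37 (gau)

variable {V I J K : Type*} [Fintype V] [Fintype I] [Fintype J] [Fintype K]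

/-- the linear map `g ↦ A g` as a continuous linear map on Euclidean space -/
noncomputable def mulL (A : Matrix V I ℝ) : EuclideanSpace ℝ I →L[ℝ] (V → ℝ) :=
  LinearMap.toContinuousLinearMap (A.mulVecLin ∘ₗ (WithLp.linearEquiv 2 ℝ (I → ℝ)).toLinearMap)

omit [Fintype V] in
theorem mulL_apply (A : Matrix V I ℝ) (x : EuclideanSpace ℝ I) : mulL A x = A *ᵥ x.ofLp := rfl

theorem gau_map_eq (A : Matrix V I ℝ) :
    (gau I).map (fun g => A *ᵥ g) = (stdGaussian (EuclideanSpace ℝ I)).map (mulL A) := by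
  rw [← map_pi_eq_stdGaussian, Measure.map_map (by fun_prop) (by fun_prop)]
  rfl

theorem charFunDual_gau_map [DecidableEq I] (A : Matrix V I ℝ) (L : StrongDual ℝ (V → ℝ)) :
    charFunDual ((gau I).map fun g => A *ᵥ g) L =
      Complex.exp (-(∑ i, (L (A *ᵥ Pi.single i 1)) ^ 2 : ℝ) / 2) := by
  rw [gau_map_eq, charFunDual_map, charFunDual_stdGaussian]
  have h1 := (EuclideanSpace.basisFun I ℝ).norm_dual (L.comp (mulL A))
  have h2 : ‖L.comp (mulL A)‖ ^ 2 = ∑ i, (L (A *ᵥ Pi.single i 1)) ^ 2 := by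
    rw [h1]
    refine Finset.sum_congr rfl fun i _ => ?_
    simp [mulL_apply]
  rw [← h2]
  push_cast
  rfl

omit [Fintype J] [Fintype K] in
/-- the variance of a functional in terms of the covariance matrix -/
theorem sum_sq_dual [DecidableEq I] [DecidableEq V] (A : Matrix V I ℝ)
    (L : StrongDual ℝ (V → ℝ)) :
    ∑ i, (L (A *ᵥ Pi.single i 1)) ^ 2 =
      ∑ v, ∑ w, L (Pi.single v 1) * (A * Aᵀ) v w * L (Pi.single w 1) := by
  have h1 : ∀ i, L (A *ᵥ Pi.single i 1) = ∑ v, A v i * L (Pi.single v 1) := fun i => by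
    have h2 : A *ᵥ Pi.single i 1 = ∑ v, A v i • (Pi.single v 1 : V → ℝ) := by
      funext v
      simp [Finset.sum_apply, Pi.single_apply]
    rw [h2, map_sum]
    exact Finset.sum_congr rfl fun v _ => by rw [map_smul, smul_eq_mul]
  simp only [h1, pow_two, Finset.sum_mul_sum, Matrix.mul_apply, Matrix.transpose_apply]
  rw [Finset.sum_comm]
  refine Finset.sum_congr rfl fun v _ => ?_
  rw [Finset.sum_comm]
  refine Finset.sum_congr rfl fun w _ => ?_
  rw [Finset.mul_sum, Finset.sum_mul]
  exact Finset.sum_congr rfl fun i _ => by ring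

/-- **the law of `A g` depends only on `A Aᵀ`** -/
theorem gau_map_congr {A : Matrix V I ℝ} {B : Matrix V J ℝ} (h : A * Aᵀ = B * Bᵀ) :
    (gau I).map (fun g => A *ᵥ g) = (gau J).map fun g => B *ᵥ g := by
  classical
  have m1 : Measurable fun g : I → ℝ => A *ᵥ g := by fun_prop
  have m2 : Measurable fun g : J → ℝ => B *ᵥ g := by fun_prop
  have := Measure.isProbabilityMeasure_map (μ := gau I) m1.aemeasurable
  have := Measure.isProbabilityMeasure_map (μ := gau J) m2.aemeasurable
  apply Measure.ext_of_charFunDual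
  ext L
  rw [charFunDual_gau_map, charFunDual_gau_map, sum_sq_dual, sum_sq_dual, h]

/-- two independent Gaussian fields -/
theorem gau_prod_map {A : Matrix V I ℝ} {C : Matrix V K ℝ} {B : Matrix V J ℝ}
    (h : B * Bᵀ = A * Aᵀ + C * Cᵀ) :
    ((gau I).prod (gau K)).map (fun p => A *ᵥ p.1 + C *ᵥ p.2) = (gau J).map fun g => B *ᵥ g := by
  have h1 : (Matrix.fromCols A C) * (Matrix.fromCols A C)ᵀ = B * Bᵀ := by
    rw [h, Matrix.transpose_fromCols, Matrix.fromCols_mul_fromRows]
  rw [← gau_map_congr h1, ← (H37.gau_sum (I₁ := I) (I₂ := K)).map_eq,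
    Measure.map_map (by fun_prop) (MeasurableEquiv.measurable _)]
  congr 1
  funext g
  simp only [Function.comp]
  funext v
  simp only [Matrix.mulVec, dotProduct, Matrix.fromCols, Matrix.of_apply, Fintype.sum_sum_type,
    Pi.add_apply, Sum.elim_inl, Sum.elim_inr]
  rfl

/-- Jensen for a symmetric shift -/
theorem convex_le_shift {E : Type*} [AddCommGroup E] [Module ℝ E] [MeasurableSpace E]
    [MeasurableAdd E] [MeasurableNeg E] {κ : Measure E} [IsProbabilityMeasure κ] {f : E → ℝ}
    (hf : ConvexOn ℝ Set.univ f) (hm : Measurable f) (hκ : κ.map (fun y => -y) = κ) (x : E)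
    (hi : Integrable (fun y => f (x + y)) κ) : f x ≤ ∫ y, f (x + y) ∂κ := by
  have hi' : Integrable (fun y => f (x + -y)) κ := by
    have h1 : Integrable (fun y => f (x + y)) (κ.map fun y => -y) := by rw [hκ]; exact hi
    exact h1.comp_measurable measurable_neg
  have h2 : ∫ y, f (x + -y) ∂κ = ∫ y, f (x + y) ∂κ := by
    have h3 : ∫ y, f (x + y) ∂(κ.map fun y => -y) = ∫ y, f (x + -y) ∂κ :=
      integral_map measurable_neg.aemeasurable
        (hm.comp (measurable_const_add x)).aestronglyMeasurable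
    rw [hκ] at h3
    exact h3.symm
  have h4 : ∀ y, f x ≤ (1 / 2) * f (x + y) + (1 / 2) * f (x + -y) := fun y => by
    have h5 := hf.2 (Set.mem_univ (x + y)) (Set.mem_univ (x + -y))
      (by norm_num : (0 : ℝ) ≤ 1 / 2) (by norm_num : (0 : ℝ) ≤ 1 / 2) (by norm_num)
    have h6 : (1 / 2 : ℝ) • (x + y) + (1 / 2 : ℝ) • (x + -y) = x := by
      rw [← smul_add]
      have h7 : x + y + (x + -y) = (2 : ℝ) • x := by
        rw [two_smul]
        abel
      rw [h7, smul_smul]
      norm_num
    rw [h6] at h5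
    simpa only [smul_eq_mul] using h5
  have h8 : ∫ _, f x ∂κ ≤ ∫ y, ((1 / 2) * f (x + y) + (1 / 2) * f (x + -y)) ∂κ :=
    integral_mono (integrable_const _) ((hi.const_mul _).add (hi'.const_mul _)) h4
  rw [integral_add (hi.const_mul _) (hi'.const_mul _), integral_const_mul, integral_const_mul,
    h2, integral_const] at h8
  simp only [probReal_univ, smul_eq_mul, one_mul] at h8
  linarith

/-- the law of `C g` is symmetric -/
theorem gau_map_neg (C : Matrix V K ℝ) :
    ((gau K).map fun g => C *ᵥ g).map (fun y => -y) = (gau K).map fun g => C *ᵥ g := by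
  rw [Measure.map_map (by fun_prop) (by fun_prop)]
  have h1 : ((fun y : V → ℝ => -y) ∘ fun g : K → ℝ => C *ᵥ g) =
      (fun g : K → ℝ => C *ᵥ g) ∘ fun g : K → ℝ => -g := by
    funext g
    simp [Matrix.mulVec_neg]
  rw [h1, ← Measure.map_map (by fun_prop) (by fun_prop), H37.gau_neg.map_eq]

/-- **R1** with an explicit increment `B Bᵀ = A Aᵀ + C Cᵀ` -/
theorem gau_convex_mono' {A : Matrix V I ℝ} {C : Matrix V K ℝ} {B : Matrix V J ℝ}
    (h : B * Bᵀ = A * Aᵀ + C * Cᵀ) {f : (V → ℝ) → ℝ} (hf : ConvexOn ℝ Set.univ f)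
    (hm : Measurable f) (x : V → ℝ) (hi : Integrable (fun g => f (x + B *ᵥ g)) (gau J)) :
    Integrable (fun p : (I → ℝ) × (K → ℝ) => f (x + (A *ᵥ p.1 + C *ᵥ p.2)))
      ((gau I).prod (gau K)) ∧
    (Integrable (fun g => f (x + A *ᵥ g)) (gau I) →
      ∫ g, f (x + A *ᵥ g) ∂(gau I) ≤ ∫ g, f (x + B *ᵥ g) ∂(gau J)) := by
  have hl := gau_prod_map h
  have mB : Measurable fun g : J → ℝ => B *ᵥ g := by fun_prop
  have mP : Measurable fun p : (I → ℝ) × (K → ℝ) => A *ᵥ p.1 + C *ᵥ p.2 := by fun_prop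
  have mf : Measurable fun y : V → ℝ => f (x + y) := hm.comp (measurable_const_add x)
  have i1 : Integrable (fun y => f (x + y)) ((gau J).map fun g => B *ᵥ g) :=
    (integrable_map_measure mf.aestronglyMeasurable mB.aemeasurable).2 hi
  have i2 : Integrable (fun p : (I → ℝ) × (K → ℝ) => f (x + (A *ᵥ p.1 + C *ᵥ p.2)))
      ((gau I).prod (gau K)) := by
    rw [← hl] at i1
    exact (integrable_map_measure mf.aestronglyMeasurable mP.aemeasurable).1 i1
  refine ⟨i2, fun hA => ?_⟩
  have e1 : ∫ g, f (x + B *ᵥ g) ∂(gau J) =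
      ∫ p : (I → ℝ) × (K → ℝ), f (x + (A *ᵥ p.1 + C *ᵥ p.2)) ∂((gau I).prod (gau K)) := by
    rw [← integral_map (f := fun y => f (x + y)) mB.aemeasurable mf.aestronglyMeasurable, ← hl,
      integral_map (f := fun y => f (x + y)) mP.aemeasurable mf.aestronglyMeasurable]
  rw [e1, integral_prod _ i2]
  refine integral_mono_ae hA i2.integral_prod_left ?_
  filter_upwards [i2.prod_right_ae] with g hg
  have mC : Measurable fun g : K → ℝ => C *ᵥ g := by fun_prop
  have := Measure.isProbabilityMeasure_map (μ := gau K) mC.aemeasurable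
  have h5 : Integrable (fun y => f (x + A *ᵥ g + y)) ((gau K).map fun g => C *ᵥ g) := by
    refine (integrable_map_measure (hm.comp (measurable_const_add _)).aestronglyMeasurable
      mC.aemeasurable).2 ?_
    refine hg.congr (Filter.Eventually.of_forall fun k => ?_)
    simp only [Function.comp]
    rw [add_assoc]
  have h6 := convex_le_shift hf hm (gau_map_neg C) (x + A *ᵥ g) h5
  rw [integral_map (f := fun y => f (x + A *ᵥ g + y)) mC.aemeasurable
    (hm.comp (measurable_const_add _)).aestronglyMeasurable] at h6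
  refine h6.trans (le_of_eq ?_)
  refine integral_congr_ae (Filter.Eventually.of_forall fun k => ?_)
  simp only
  rw [add_assoc]

omit [Fintype I] [Fintype J] in
/-- Loewner order as an explicit increment -/
theorem exists_increment [DecidableEq V] {S : Matrix V V ℝ} (h : S.PosSemidef) :
    ∃ C : Matrix V V ℝ, S = C * Cᵀ := by
  obtain ⟨B, hB⟩ := CStarAlgebra.nonneg_iff_eq_star_mul_self.mp h.nonneg
  exact ⟨Bᵀ, by rw [hB, Matrix.transpose_transpose, Matrix.star_eq_conjTranspose,
    Matrix.conjTranspose_eq_transpose_of_trivial]⟩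

/-- **R1**: `A Aᵀ ≤ B Bᵀ` and `R` convex: `E R(x + A g) ≤ E R(x + B g)` -/
theorem gau_convex_mono {A : Matrix V I ℝ} {B : Matrix V J ℝ}
    (h : (B * Bᵀ - A * Aᵀ).PosSemidef) {f : (V → ℝ) → ℝ} (hf : ConvexOn ℝ Set.univ f)
    (hm : Measurable f) (x : V → ℝ) (hiA : Integrable (fun g => f (x + A *ᵥ g)) (gau I))
    (hi : Integrable (fun g => f (x + B *ᵥ g)) (gau J)) :
    ∫ g, f (x + A *ᵥ g) ∂(gau I) ≤ ∫ g, f (x + B *ᵥ g) ∂(gau J) := by
  classical
  obtain ⟨C, hC⟩ := exists_increment h
  exact (gau_convex_mono' (C := C) (by rw [← hC]; abel) hf hm x hi).2 hiA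

/-- for a nonnegative `R` the integrability for the larger law is enough -/
theorem gau_convex_mono_nonneg {A : Matrix V I ℝ} {B : Matrix V J ℝ}
    (h : (B * Bᵀ - A * Aᵀ).PosSemidef) {f : (V → ℝ) → ℝ} (hf : ConvexOn ℝ Set.univ f)
    (hm : Measurable f) (h0 : ∀ x, 0 ≤ f x) (x : V → ℝ)
    (hi : Integrable (fun g => f (x + B *ᵥ g)) (gau J)) :
    Integrable (fun g => f (x + A *ᵥ g)) (gau I) ∧
      ∫ g, f (x + A *ᵥ g) ∂(gau I) ≤ ∫ g, f (x + B *ᵥ g) ∂(gau J) := by
  classical
  obtain ⟨C, hC⟩ := exists_increment h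
  have hBC : B * Bᵀ = A * Aᵀ + C * Cᵀ := by rw [← hC]; abel
  have i2 := (gau_convex_mono' hBC hf hm x hi).1
  have mC : Measurable fun g : V → ℝ => C *ᵥ g := by fun_prop
  have := Measure.isProbabilityMeasure_map (μ := gau V) mC.aemeasurable
  have hiA : Integrable (fun g => f (x + A *ᵥ g)) (gau I) := by
    refine Integrable.mono' i2.integral_prod_left
      (hm.comp (by fun_prop : Measurable fun g : I → ℝ => x + A *ᵥ g)).aestronglyMeasurable ?_
    filter_upwards [i2.prod_right_ae] with g hg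
    rw [Real.norm_eq_abs, abs_of_nonneg (h0 _)]
    have h5 : Integrable (fun y => f (x + A *ᵥ g + y)) ((gau V).map fun g => C *ᵥ g) := by
      refine (integrable_map_measure (hm.comp (measurable_const_add _)).aestronglyMeasurable
        mC.aemeasurable).2 ?_
      refine hg.congr (Filter.Eventually.of_forall fun k => ?_)
      simp only [Function.comp]
      rw [add_assoc]
    have h6 := convex_le_shift hf hm (gau_map_neg C) (x + A *ᵥ g) h5
    rw [integral_map (f := fun y => f (x + A *ᵥ g + y)) mC.aemeasurable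
      (hm.comp (measurable_const_add _)).aestronglyMeasurable] at h6
    refine h6.trans (le_of_eq ?_)
    refine integral_congr_ae (Filter.Eventually.of_forall fun k => ?_)
    simp only
    rw [add_assoc]
  exact ⟨hiA, (gau_convex_mono' hBC hf hm x hi).2 hiA⟩

theorem convexOn_exp_aux (u v : ℝ) {a b : ℝ} (ha : 0 ≤ a) (hb : 0 ≤ b) (hab : a + b = 1) :
    Real.exp (a • u + b • v) ≤ a • Real.exp u + b • Real.exp v :=
  _root_.convexOn_exp.2 (Set.mem_univ u) (Set.mem_univ v) ha hb hab

/-- `exp R` is convex if `R` is -/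
theorem convexOn_exp_comp {E : Type*} [AddCommGroup E] [Module ℝ E] {f : E → ℝ}
    (hf : ConvexOn ℝ Set.univ f) : ConvexOn ℝ Set.univ fun x => Real.exp (f x) := by
  refine ⟨convex_univ, fun x _ y _ a b ha hb hab => ?_⟩
  have h1 := hf.2 (Set.mem_univ x) (Set.mem_univ y) ha hb hab
  have h2 := convexOn_exp_aux (f x) (f y) ha hb hab
  exact (Real.exp_le_exp.2 h1).trans h2

end Vale.Agent.P159.H239
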