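import Mathlib

/-!
P159 / second order flow, module CONTR (helper239), part 0: pointwise consequences of the metric
inequality (MET).  `R : E → ℝ` is the non-quadratic part of the free energy, `T(x) = R(2x) - 4R(x)`,
`tn x = tan θ_x = (e^{T(x)} - 1)^(1/2)`, `dl a c = R(a+c) + R(a-c) - 2R(a) - 2R(c)`.
For a positive semidefinite duplication kernel `e^{dl a c} = cos ∠(a,c) / (cos θ_a cos θ_c)`, hence
`|e^{dl a c} - 1| ≤ tan θ_a tan θ_c`.
-/

namespace Vale.Agent.P159.H239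

open Real

variable {E : Type*} [AddCommGroup E] [Module ℝ E]

/-- `T(x) = R(2x) - 4 R(x)` -/
def TR (R : E → ℝ) (x : E) : ℝ := R ((2 : ℝ) • x) - 4 * R x

/-- `tan θ_x` -/
noncomputable def tn (R : E → ℝ) (x : E) : ℝ := Real.sqrt (Real.exp (TR R x) - 1)

/-- `R(a+c) + R(a-c) - 2R(a) - 2R(c)` -/
def dl (R : E → ℝ) (a c : E) : ℝ := R (a + c) + R (a - c) - 2 * R a - 2 * R c

/-- the metric inequality, two-sided -/
structure Met (R : E → ℝ) : Prop where
  even : ∀ x, R (-x) = R x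
  nn : ∀ x, 0 ≤ R x
  met : ∀ a c, |Real.exp (dl R a c) - 1| ≤ tn R a * tn R c

theorem tn_nonneg (R : E → ℝ) (x : E) : 0 ≤ tn R x := Real.sqrt_nonneg _

theorem tn_sq_le {R : E → ℝ} {x : E} {r : ℝ} (h0 : 0 ≤ r) (h1 : r ≤ 1) (hT : TR R x ≤ r) :
    tn R x ^ 2 ≤ 2 * r := by
  unfold tn
  rcases le_or_gt 0 (Real.exp (TR R x) - 1) with h | h
  · rw [Real.sq_sqrt h]
    have h2 : Real.exp (TR R x) ≤ Real.exp r := Real.exp_le_exp.2 hT
    have h4 := Real.abs_exp_sub_one_le (x := r) (by rw [abs_of_nonneg h0]; exact h1)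
    rw [abs_of_nonneg h0] at h4
    have h5 := le_abs_self (Real.exp r - 1)
    linarith
  · rw [Real.sqrt_eq_zero_of_nonpos h.le]
    nlinarith

/-- `|e^δ - 1| ≤ t` gives `δ ≤ t` -/
theorem le_of_met {d t : ℝ} (h : |Real.exp d - 1| ≤ t) : d ≤ t := by
  have h1 := le_abs_self (Real.exp d - 1)
  have h2 := Real.add_one_le_exp d
  linarith

/-- `|e^δ - 1| ≤ t ≤ 1/2` gives `- 2 t ≤ δ` -/
theorem ge_of_met {d t : ℝ} (h : |Real.exp d - 1| ≤ t) (ht : t ≤ 1 / 2) : -(2 * t) ≤ d := by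
  have h1 := neg_abs_le (Real.exp d - 1)
  have h0 : 0 ≤ t := (abs_nonneg _).trans h
  by_contra hd
  rw [not_le] at hd
  have h2 : Real.exp d < Real.exp (-(2 * t)) := Real.exp_lt_exp.2 hd
  have h3 : Real.exp (-(2 * t)) ≤ 1 - t := by
    rw [Real.exp_neg]
    have h4 : 1 + 2 * t ≤ Real.exp (2 * t) := by linarith [Real.add_one_le_exp (2 * t)]
    have h5 : (Real.exp (2 * t))⁻¹ ≤ (1 + 2 * t)⁻¹ := by
      apply inv_anti₀ (by linarith) h4
    refine h5.trans ?_
    rw [inv_le_iff_one_le_mul₀ (by linarith)]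
    nlinarith
  linarith

variable {R : E → ℝ}

theorem Met.dl_le (h : Met R) (a c : E) : dl R a c ≤ tn R a * tn R c := le_of_met (h.met a c)

/-- **the basic estimate**, no smallness required -/
theorem Met.abs_dl_le (h : Met R) (a c : E) :
    |dl R a c| ≤ (2 + 4 * R a + 4 * R c) * (tn R a * tn R c) := by
  have h0 : 0 ≤ tn R a * tn R c := mul_nonneg (tn_nonneg _ _) (tn_nonneg _ _)
  have h1 := h.nn a
  have h2 := h.nn c
  have h3 : tn R a * tn R c ≤ (2 + 4 * R a + 4 * R c) * (tn R a * tn R c) := by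
    have : 1 ≤ 2 + 4 * R a + 4 * R c := by linarith
    nlinarith
  refine abs_le.2 ⟨?_, (h.dl_le a c).trans h3⟩
  rcases le_or_gt (tn R a * tn R c) (1 / 2) with ht | ht
  · have h4 := ge_of_met (h.met a c) ht
    nlinarith [mul_nonneg h1 h0, mul_nonneg h2 h0]
  · have h5 : -(2 * R a + 2 * R c) ≤ dl R a c := by
      unfold dl
      linarith [h.nn (a + c), h.nn (a - c)]
    nlinarith [mul_nonneg h1 h0, mul_nonneg h2 h0]

/-- on the good set -/
theorem Met.abs_dl_le' (h : Met R) {a c : E} (ha : R a ≤ 1) (hc : R c ≤ 1) :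
    |dl R a c| ≤ 10 * (tn R a * tn R c) := by
  refine (h.abs_dl_le a c).trans ?_
  have h0 : 0 ≤ tn R a * tn R c := mul_nonneg (tn_nonneg _ _) (tn_nonneg _ _)
  nlinarith [h.nn a, h.nn c]

/-- crude bound by a function with the parallelogram identity -/
theorem Met.abs_dl_crude (h : Met R) {Q : E → ℝ} (hQ : ∀ x, R x ≤ Q x)
    (hp : ∀ a c, Q (a + c) + Q (a - c) = 2 * Q a + 2 * Q c) (a c : E) :
    |dl R a c| ≤ 2 * Q a + 2 * Q c := by
  have h1 := hp a c
  unfold dl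
  refine abs_le.2 ⟨?_, ?_⟩
  · linarith [h.nn (a + c), h.nn (a - c), hQ a, hQ c]
  · linarith [h.nn a, h.nn c, hQ (a + c), hQ (a - c)]

theorem Met.zero (h : Met R) : R 0 = 0 := by
  have h1 := h.met 0 0
  have h2 : TR R (0 : E) = -3 * R 0 := by
    unfold TR
    rw [smul_zero]
    ring
  have h3 : tn R (0 : E) = 0 := by
    unfold tn
    rw [Real.sqrt_eq_zero_of_nonpos]
    have : Real.exp (TR R (0 : E)) ≤ 1 := Real.exp_le_one_iff.2 (by rw [h2]; linarith [h.nn 0])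
    linarith
  rw [h3, mul_zero] at h1
  have h4 : Real.exp (dl R (0 : E) 0) = 1 := by
    have := abs_nonpos_iff.1 h1
    linarith
  have h5 : dl R (0 : E) 0 = 0 := by rwa [Real.exp_eq_one_iff] at h4
  unfold dl at h5
  rw [add_zero, sub_zero] at h5
  linarith

theorem dl_comm (h : ∀ x, R (-x) = R x) (a c : E) : dl R a c = dl R c a := by
  unfold dl
  rw [add_comm a c, ← neg_sub c a, h]
  ring

theorem dl_neg (a c : E) : dl R a (-c) = dl R a c + (2 * R c - 2 * R (-c)) := by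
  unfold dl
  rw [sub_neg_eq_add, ← sub_eq_add_neg]
  ring

end Vale.Agent.P159.H239
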