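import Vale.Agent.P159.H447.Cg9

/-!
P159 / P_up (helper239): **TYP**, the only probabilistic input of the D-step.  Zero source, exact law
of the cell channel on the whole torus, posterior mass `T`, prior mass `s`.

* `TypE`        : `P_exact(Rs μ (Y J) > ρ) ≤ p`;
* `TypE.gauss`  : the Gaussian reference law;
* `TypE.win`    : windows with a cut (field `ap` of `WinH`);
* `TypE.bad`, `TypE.exact` : smallness of `Rs` and `T` off a small set, both laws;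
* `TypE.law`    : (LAW) with these sets.
-/

set_option linter.unusedSectionVars false

namespace Vale.Agent.P159.H239

open Finset Matrix MeasureTheory
open Vale.Agent.P159.TM.H104 (EM Ex Cv K3 Lg li nh Gr)
open Vale.Agent.P159.H37
open Vale.Agent.P159.H159 (Ct)
open Vale.Agent.P159.TM.Spec (V)
open Vale.Agent.P159.TM.SpecC (wT)
open Vale.Agent.P159.H963 (GrI Neu pin Pn nwt nMC obsN Gnc gw_wT mf_smul)
open Vale.Agent.P159.H859 (Sgn wc dB dB_tr psd_of)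
open Vale.Agent.P159.H730 (wN RL)
open Vale.Agent.P159.H447

noncomputable section

/-- **typical sources**: zero source, exact law, whole torus, amplitude `Y`, bound `ρ` -/
def TypE (N l : ℕ) [NeZero N] [NeZero (N / l)] (b T s Y ρ p : ℝ) : Prop :=
  Ech (wN N l b T s) 0 (obsN N l (T - s))
    ({J : V N → ℝ | Rs (nwt N b T 0) (Y • J) ≤ ρ}ᶜ.indicator fun _ => (1 : ℝ)) ≤ p

variable {N l : ℕ} [NeZero N] [NeZero (N / l)] {b T s Y ρ p : ℝ}
variable {I : Type*} [Fintype I] {A : Matrix (V (N / l)) I ℝ}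

section basic

variable (hb : 0 ≤ b) (hT : 0 < T)
include hb hT

lemma rs_ray (J : V N → ℝ) {x y : ℝ} (hx : 0 ≤ x) (hxy : x ≤ y) :
    Rs (nwt N b T 0) (x • J) ≤ Rs (nwt N b T 0) (y • J) := by
  have hM := maj_nwt (N := N) hb hT 0
  exact H789.Rs_ray_mono hM.em hM.ev hM.pk J hx hxy

lemma rs_meas : Measurable fun J : V N → ℝ => Rs (nwt N b T 0) J := (maj_nwt (N := N) hb hT 0).mR

lemma typ_meas (Y ρ : ℝ) : MeasurableSet {J : V N → ℝ | Rs (nwt N b T 0) (Y • J) ≤ ρ} :=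
  measurableSet_le ((rs_meas hb hT).comp (measurable_const_smul Y)) measurable_const

end basic

/-- bounded indicator functions are integrable in the channel -/
lemma chi_set {V' : Type*} [Fintype V'] {J' : Type*} [Fintype J'] {μ : (V' → ℤ) → ℝ}
    (hμ : EM μ) (J₁ : V' → ℝ) (P : Matrix J' V' ℝ) {S : Set (V' → ℝ)} (hS : MeasurableSet S) :
    H663.ChI μ J₁ P (S.indicator fun _ => (1 : ℝ)) := by
  have h1 := H663.ChI.of_EGr hμ J₁ P (EGr.const (V := V') 1)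
  refine H663.ChI.mono hμ (measurable_const.indicator hS) h1 fun J => ?_
  by_cases hJ : J ∈ S
  · rw [Set.indicator_of_mem hJ, abs_one]
  · rw [Set.indicator_of_notMem hJ]
    simp

/-- smaller sets have smaller probability -/
lemma Ech_set_mono {V' : Type*} [Fintype V'] {J' : Type*} [Fintype J'] {μ : (V' → ℤ) → ℝ}
    (hμ : EM μ) (J₁ : V' → ℝ) (P : Matrix J' V' ℝ) {S S' : Set (V' → ℝ)} (hS : MeasurableSet S)
    (hS' : MeasurableSet S') (h : S ⊆ S') :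
    Ech μ J₁ P (S.indicator fun _ => (1 : ℝ)) ≤ Ech μ J₁ P (S'.indicator fun _ => (1 : ℝ)) := by
  refine H663.Ech_mono' hμ (chi_set hμ J₁ P hS) (chi_set hμ J₁ P hS') fun J => ?_
  exact Set.indicator_le_indicator_of_subset h (fun _ => zero_le_one) J

/-- smaller amplitude, larger bound -/
lemma TypE.mono (hb : 0 ≤ b) (hl : l ∣ N) (hs : 0 < s) (hsT : s ≤ T) {Y' ρ' p' : ℝ}
    (h : TypE N l b T s Y ρ p) (hY0 : 0 ≤ Y') (hY : Y' ≤ Y) (hρ : ρ ≤ ρ') (hp : p ≤ p') :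
    TypE N l b T s Y' ρ' p' := by
  have hT : 0 < T := hs.trans_le hsT
  have hE : EM (wN N l b T s) := H963.em_nMC hb hl hs hsT 0
  unfold TypE at h ⊢
  refine (Ech_set_mono hE 0 _ (typ_meas hb hT Y' ρ').compl (typ_meas hb hT Y ρ).compl
    fun J hJ h2 => ?_).trans (h.trans hp)
  exact hJ ((rs_ray hb hT J hY0 hY).trans (h2.trans hρ))

lemma TypE.nonneg (hb : 0 ≤ b) (hl : l ∣ N) (hs : 0 < s) (hsT : s ≤ T)
    (h : TypE N l b T s Y ρ p) : 0 ≤ p :=
  (Ech_nonneg (H963.em_nMC hb hl hs hsT 0) _ _ fun _ =>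
    Set.indicator_nonneg (fun _ _ => zero_le_one) _).trans h

/-! ### the Gaussian reference law -/

/-- **(T1)** -/
theorem TypE.gauss (h : TypE N l b T s Y ρ p) (hb : 0 ≤ b) (hl : l ∣ N) (hs : 0 < s) (hsT : s < T)
    (hA : A * Aᵀ = Sgn N l b T s) (hY : 1 ≤ Y) (hρ : ρ ≤ 1) (hp : p ≤ 1 / 2) :
    (gau I).real {g | ρ < Rs (nwt N b T 0) (Y • (((CN N l)ᵀ * A) *ᵥ g))} ≤ 6 * p := by
  have hT : 0 < T := hs.trans hsT
  have hE : EM (wN N l b T s) := H963.em_nMC hb hl hs hsT.le 0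
  have hX := rl_tor hb hl hs hsT hA
  have hq := post_wN (N := N) (l := l) (b := b) hl hsT.le
  have hp0 := h.nonneg hb hl hs hsT.le
  set Gd : Set (V N → ℝ) := {J | Rs (nwt N b T 0) (Y • J) ≤ ρ} with hGd
  have hG : MeasurableSet Gd := typ_meas hb hT Y ρ
  have hR : ∀ J ∈ Gd, Rs (post (wN N l b T s) (obsN N l (T - s))) J ≤ ρ := by
    intro J hJ
    rw [hq]
    have h1 := rs_ray hb hT J zero_le_one hY
    rw [one_smul] at h1
    exact h1.trans hJ
  have hsp := H730.split_good hX measurable_const (H730.chi_one hX) hG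
  rw [Ech_const hE] at hsp
  have h1 := hX.norm_le (p := p) hG hR (by
    have : Ech (wN N l b T s) 0 (obsN N l (T - s)) (Gdᶜ.indicator fun _ => (1 : ℝ)) ≤ p := h
    linarith)
  have h2 := hX.G_le (Φ := Gdᶜ.indicator fun _ => (1 : ℝ)) (measurable_const.indicator hG.compl)
    (fun J => Set.indicator_nonneg (fun _ _ => zero_le_one) J) (chi_set hE 0 _ hG.compl)
  have h3 : ∫ g, Gdᶜ.indicator (fun _ => (1 : ℝ)) (((CN N l)ᵀ * A) *ᵥ g) ∂(gau I) =
      (gau I).real {g | ρ < Rs (nwt N b T 0) (Y • (((CN N l)ᵀ * A) *ᵥ g))} := by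
    have e1 : {g : I → ℝ | ρ < Rs (nwt N b T 0) (Y • (((CN N l)ᵀ * A) *ᵥ g))} =
        (fun g : I → ℝ => ((CN N l)ᵀ * A) *ᵥ g) ⁻¹' Gdᶜ := by
      ext g
      simp only [hGd, Set.mem_ofPred_eq, Set.mem_preimage, Set.mem_compl_iff, not_le]
    have e2 : (fun g : I → ℝ => Gdᶜ.indicator (fun _ => (1 : ℝ)) (((CN N l)ᵀ * A) *ᵥ g)) =
        ((fun g : I → ℝ => ((CN N l)ᵀ * A) *ᵥ g) ⁻¹' Gdᶜ).indicator fun _ => (1 : ℝ) := by
      funext g
      rfl
    rw [e1, e2, integral_indicator (H552.meas_mulVec _ hG.compl), setIntegral_const, smul_eq_mul,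
      mul_one]
  rw [h3] at h2
  set Z := ∫ g, Real.exp (Rs (post (wN N l b T s) (obsN N l (T - s))) (((CN N l)ᵀ * A) *ᵥ g))
    ∂(gau I) with hZ
  have hZ0 : 0 ≤ Z := hX.pos.le
  have h4 : Real.exp ρ ≤ 2.7182818286 := (Real.exp_le_exp.2 hρ).trans Real.exp_one_lt_d9.le
  have h5 : Z ≤ 6 := by nlinarith
  refine h2.trans (mul_le_mul h5 h ?_ (by norm_num))
  exact Ech_nonneg hE _ _ fun _ => Set.indicator_nonneg (fun _ _ => zero_le_one) _

/-- smaller amplitude in the Gaussian bound -/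
lemma gauss_amp (hb : 0 ≤ b) (hT : 0 < T) (X : Matrix (V N) I ℝ) {x : ℝ} (hx : 0 ≤ x)
    (hxY : x ≤ Y) (hρ : ρ ≤ 1) :
    (gau I).real {g | 1 < Rs (nwt N b T 0) (x • (X *ᵥ g))} ≤
      (gau I).real {g | ρ < Rs (nwt N b T 0) (Y • (X *ᵥ g))} := by
  refine measureReal_mono fun g hg => ?_
  simp only [Set.mem_ofPred_eq] at hg ⊢
  exact hρ.trans_lt (hg.trans_le (rs_ray hb hT _ hx hxY))

/-! ### windows -/

/-- lower bound of the whole covariance -/
lemma low_all (hb : 0 < b) (hl : l ∣ N) (hs : 0 < s) (hsT : s ≤ T / 2)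
    (hA : A * Aᵀ = Sgn N l b T s) :
    (((CN N l)ᵀ * A) * ((CN N l)ᵀ * A)ᵀ - (T / 2) • ((CN N l)ᵀ * CN N l)).PosSemidef := by
  have hT : 0 < T := by linarith
  have h1 : (A * Aᵀ - (T / 2) • (1 : Matrix (V (N / l)) (V (N / l)) ℝ)).PosSemidef := by
    have hsy : (A * Aᵀ)ᵀ = A * Aᵀ := by rw [H859.gram_symm]
    refine psd_of ?_ fun u => ?_
    · rw [Matrix.transpose_sub, Matrix.transpose_smul, Matrix.transpose_one, hsy]
    · rw [H859.qf_sub_m, H864.qf_smul_mat, hA]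
      have h2 := H859.Sgn_low (N := N) hb hl hT hs (by linarith : s < T) u
      have h3 : qf (1 : Matrix (V (N / l)) (V (N / l)) ℝ) u = ∑ x, u x ^ 2 := by
        rw [H37.qf_eq, Matrix.one_mulVec]
        unfold dotProduct
        exact Finset.sum_congr rfl fun x _ => by ring
      rw [h3]
      have h4 : 0 ≤ ∑ x, u x ^ 2 := Finset.sum_nonneg fun _ _ => sq_nonneg _
      nlinarith
  have h4 := psd_conj_sub h1 (CN N l)ᵀ
  rw [Matrix.transpose_transpose, Matrix.mul_smul, Matrix.smul_mul, Matrix.mul_one] at h4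
  have e : (CN N l)ᵀ * (A * Aᵀ) * CN N l = ((CN N l)ᵀ * A) * ((CN N l)ᵀ * A)ᵀ := by
    rw [Matrix.transpose_mul, Matrix.transpose_transpose]
    simp only [Matrix.mul_assoc]
  rw [e] at h4
  exact h4

/-- the window law is dominated by the law on the torus -/
lemma win_dom {w w₀ : Finset (V (N / l))} {c : V (N / l)} {r : ℕ}
    (hw : Wg N l b T w w₀ c r) (hs : 0 < s) (hsT : s ≤ T / 2) (hA : A * Aᵀ = Sgn N l b T s) :
    ((√(2 * kw N l r b T s w w₀) ^ 2) • (((CN N l)ᵀ * A) * ((CN N l)ᵀ * A)ᵀ) -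
      WA N l w w₀ A * (WA N l w w₀ A)ᵀ).PosSemidef := by
  have hT := hw.T0
  have hsT' : s < T := by linarith
  have hk := kw_pos (T := T) (w := w) (w₀ := w₀) (ρ := r) hw.b0 hw.dl hs
  have h1 := (low_all hw.b0 hw.dl hs hsT hA).smul (by positivity : 0 ≤ 2 * kw N l r b T s w w₀)
  have h2 := hw.up hs hsT' hA
  have h3 : ((1 : Matrix (V (N / l)) (V (N / l)) ℝ) - dB w).PosSemidef := by
    refine psd_of ?_ fun u => ?_
    · rw [Matrix.transpose_sub, Matrix.transpose_one, dB_tr]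
    · rw [H859.qf_sub_m, H859.qf_dB]
      have h3 : qf (1 : Matrix (V (N / l)) (V (N / l)) ℝ) u = ∑ x, u x ^ 2 := by
        rw [H37.qf_eq, Matrix.one_mulVec]
        unfold dotProduct
        exact Finset.sum_congr rfl fun x _ => by ring
      rw [h3]
      have := Finset.sum_le_univ_sum_of_nonneg (s := w) (f := fun x => u x ^ 2)
        fun _ => sq_nonneg _
      linarith
  have h4 := psd_conj_sub h3 (CN N l)ᵀ
  rw [Matrix.transpose_transpose, Matrix.mul_one] at h4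
  have h5 := (h1.add (h4.smul (by positivity : 0 ≤ T * kw N l r b T s w w₀))).add h2
  rw [Real.sq_sqrt (by positivity)]
  have e : (2 * kw N l r b T s w w₀) • (((CN N l)ᵀ * A) * ((CN N l)ᵀ * A)ᵀ) -
      WA N l w w₀ A * (WA N l w w₀ A)ᵀ =
      (2 * kw N l r b T s w w₀) • (((CN N l)ᵀ * A) * ((CN N l)ᵀ * A)ᵀ -
        (T / 2) • ((CN N l)ᵀ * CN N l)) +
      (T * kw N l r b T s w w₀) • ((CN N l)ᵀ * CN N l - (CN N l)ᵀ * dB w * CN N l) +
      ((T * kw N l r b T s w w₀) • ((CN N l)ᵀ * dB w * CN N l) -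
        WA N l w w₀ A * (WA N l w w₀ A)ᵀ) := by
    rw [smul_sub, smul_sub, smul_smul]
    have e1 : 2 * kw N l r b T s w w₀ * (T / 2) = T * kw N l r b T s w w₀ := by ring
    rw [e1]
    abel
  rw [e]
  exact h5

/-- **(T2)** the a-priori bound of a window law -/
theorem TypE.win (h : TypE N l b T s Y ρ p) {w w₀ : Finset (V (N / l))} {c : V (N / l)} {r n : ℕ}
    (hw : Wg N l b T w w₀ c r) (hs : 0 < s) (hsT : s ≤ T / 2) (hA : A * Aᵀ = Sgn N l b T s)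
    (hY : (2 : ℝ) ^ n * √(2 * kw N l r b T s w w₀) ≤ Y) (hY1 : 1 ≤ Y) (hρ : ρ ≤ 1)
    (hp : p ≤ 1 / 2) :
    (gau I).real {g | 1 < Rs (nwt N b T 0) ((2 : ℝ) ^ n • (WA N l w w₀ A *ᵥ g))} ≤ 12 * p := by
  have hT := hw.T0
  have hsT' : s < T := by linarith
  have hM := maj_nwt (N := N) hw.b0.le hT 0
  have h1 := hM.prob_psd ((2 : ℝ) ^ n) (√(2 * kw N l r b T s w w₀)) (win_dom hw hs hsT hA) 1
  have h2 := gauss_amp (Y := Y) (ρ := ρ) hw.b0.le hT ((CN N l)ᵀ * A)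
    (by positivity : 0 ≤ (2 : ℝ) ^ n * √(2 * kw N l r b T s w w₀)) hY hρ
  have h3 := h.gauss hw.b0.le hw.dl hs hsT' hA hY1 hρ hp
  linarith

/-! ### smallness off a small set -/

/-- **(T3)**, Gaussian law -/
theorem TypE.bad (h : TypE N l b T s Y ρ p) (hb : 0 < b) (hl : l ∣ N) (hs : 0 < s) (hsT : s < T)
    (hA : A * Aᵀ = Sgn N l b T s) {κ D lam : ℝ} {n : ℕ} (hκ : 0 ≤ κ)
    (hY : (2 : ℝ) ^ (n + 1) * κ ≤ Y) (hY1 : 1 ≤ Y) (hρ : ρ ≤ 1) (hp : p ≤ 1 / 2) (hD : 0 < D)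
    (hK : κ ^ 4 * ((T ^ 2 / s) ^ 2 * K4S (nwt N b T 0) (SN N l) (SN N l)) ≤ D) (hlam : 0 ≤ lam) :
    (gau I).real {g | ¬(Rs (nwt N b T 0) (κ • (((CN N l)ᵀ * A) *ᵥ g)) ≤ cl n (8 * (lam * D)) ∧
      Tq (nwt N b T 0) (κ • (((CN N l)ᵀ * A) *ᵥ g)) ≤ cl n (8 * (lam * D)))} ≤
      6 * p + 6 * Real.exp (-(√lam / 10)) := by
  have hT : 0 < T := hs.trans hsT
  have hF : Ful N l b T s A := ⟨hb, hl, hs, hsT, hA⟩
  refine hF.bad hD hK hlam ((gauss_amp (Y := Y) (ρ := ρ) hb.le hT ((CN N l)ᵀ * A)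
    (by positivity) hY hρ).trans (h.gauss hb.le hl hs hsT hA hY1 hρ hp))

/-- **(T3)**, exact law -/
theorem TypE.exact (h : TypE N l b T s Y ρ p) (hb : 0 < b) (hl : l ∣ N) (hs : 0 < s)
    (hsT : s < T) {κ D lam : ℝ} {n : ℕ} (hκ : 0 ≤ κ)
    (hY : (2 : ℝ) ^ (n + 1) * κ ≤ Y) (hY1 : 1 ≤ Y) (hρ : ρ ≤ 1) (hp : p ≤ 1 / 2) (hD : 0 < D)
    (hK : κ ^ 4 * ((T ^ 2 / s) ^ 2 * K4S (nwt N b T 0) (SN N l) (SN N l)) ≤ D) (hlam : 0 ≤ lam) :
    TypE N l b T s κ (cl n (8 * (lam * D))) (18 * p + 17 * Real.exp (-(√lam / 10))) := by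
  have hT : 0 < T := hs.trans hsT
  have hd := H859.dat_neu' (N := N) (l := l) (t := T) hb hl hT
  obtain ⟨A, hA⟩ := exists_increment (hd.pd hs hsT).posSemidef
  have hA' : A * Aᵀ = Sgn N l b T s := hA.symm
  have hF : Ful N l b T s A := ⟨hb, hl, hs, hsT, hA'⟩
  have h1 := h.bad hb hl hs hsT hA' hκ hY hY1 hρ hp hD hK hlam
  have h0 : Ech (wN N l b T s) 0 (obsN N l (T - s))
      ({J : V N → ℝ | Rs (nwt N b T 0) J ≤ 1}ᶜ.indicator fun _ => (1 : ℝ)) ≤ p := by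
    have h2 := h.mono hb.le hl hs hsT.le zero_le_one hY1 hρ le_rfl
    unfold TypE at h2
    simpa only [one_smul] using h2
  have h3 : (gau (V (N / l))).real {g | ¬Rs (nwt N b T 0) (κ • (((CN N l)ᵀ * A) *ᵥ g)) ≤
      cl n (8 * (lam * D))} ≤ 6 * p + 6 * Real.exp (-(√lam / 10)) := by
    refine (measureReal_mono fun g hg => ?_).trans h1
    simp only [Set.mem_ofPred_eq] at hg ⊢
    exact fun hc => hg hc.1
  have h2 := hF.exact (κ := κ) (ρ := cl n (8 * (lam * D))) (η := 1) h0 h3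
  unfold TypE
  refine h2.trans ?_
  have h4 : Real.exp 1 ≤ 2.7182818286 := Real.exp_one_lt_d9.le
  have h5 := Real.exp_pos (-(√lam / 10))
  have h6 := h.nonneg hb.le hl hs hsT.le
  nlinarith

/-- **(LAW)** with typical sources -/
theorem TypE.law (h : TypE N l b T s Y ρ p) (hb : 0 ≤ b) (hl : l ∣ N) (hs : 0 < s) (hsT : s < T)
    (hA : A * Aᵀ = Sgn N l b T s) (hY : 1 ≤ Y) (hρ0 : 0 ≤ ρ) (hρ : ρ ≤ 1) (hp : p ≤ 1)
    (W : Matrix (V (N / l)) (V (N / l)) ℝ) :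
    |H159.pr W (cbM N l b T s - Gnc N l b T T) -
        ∫ g, Tst N l b T W (((CN N l)ᵀ * A) *ᵥ g) ∂(gau I)| ≤
      (2 * ρ + p) * (∫ g, |Tst N l b T W (((CN N l)ᵀ * A) *ᵥ g)| ∂(gau I)) +
        39 * (Real.sqrt (∑ i, ∑ j, W i j ^ 2) * (((N / l : ℕ) : ℝ) ^ 2 / s) * Real.sqrt p) := by
  have hT : 0 < T := hs.trans hsT
  have h1 := law_tor hb hl hs hsT hA (typ_meas hb hT Y ρ) (fun J hJ => by
    have h2 := rs_ray hb hT J zero_le_one hY
    rw [one_smul] at h2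
    exact h2.trans hJ) hρ0 (h.nonneg hb hl hs hsT.le) hp h W
  refine h1.trans (add_le_add_left (mul_le_mul_of_nonneg_right ?_
    (integral_nonneg fun _ => abs_nonneg _)) _)
  have h3 : Real.exp ρ - 1 ≤ 2 * ρ := by
    have h4 := Real.abs_exp_sub_one_le (x := ρ) (by rw [abs_of_nonneg hρ0]; exact hρ)
    rw [abs_of_nonneg hρ0] at h4
    exact (le_abs_self _).trans h4
  linarith

end

end Vale.Agent.P159.H239
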