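import Vale.Agent.P159.H239.Fam
import Vale.Agent.P159.H37.Rxg

/-!
P159 / P_up (helper239): `RngStep` as a family, from `Drop'` (the stiffness of late states is close
to `pi / 2`) and helper37's `rng_step'`.
-/

set_option linter.unusedSectionVars false

namespace Vale.Agent.P159.H239

open Filter Topology
open Vale.Agent.P159.H972
open Vale.Agent.P159.H864 (yt)

noncomputable section

variable {b b1 b2 pf sg : ℝ}

/-- the common stiffness of the late states -/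
theorem fam_stiff (hb : 0 < b) (hY : helicity b = 2 / Real.pi) (h1 : b1 ≤ b) (h2 : b ≤ b2)
    {p1 p2 : ℝ} (hp1 : 0 < p1) (hpf2 : p1 < (1 - sg) * pf) (hsg : 0 ≤ sg) (hp2 : p1 < p2)
    (hD : Fam b1 b2 pf fun P N0 => Drop' P b p2 N0) :
    Fam b1 b2 pf fun P N1 => ∃ a : ℕ → ℝ, Tendsto a atTop (𝓝 (Real.pi / 2)) ∧
      (∀ n ε, 0 < ε → ε ≤ P.es → Good P b n ε → ∀ e, ε ≤ e → e ≤ P.es →
        ∀ r, P.TT n e r → FL b (tn n) (a n) (17 * e ^ P.pf) (2 ^ r)) ∧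
      (∀ n, N1 ≤ n → 11 / 10 ≤ a n ∧ a n ≤ 19 / 10) ∧
      ∀ n m e e' Y, N1 ≤ n → SI P b N1 n m e Y → Good P b m e' → e / 2 ≤ e' →
        e' ≤ e ^ (1 - sg) → e' ≤ P.es →
        |((a m)⁻¹ - 2 / Real.pi) - ((a n)⁻¹ - 2 / Real.pi)| ≤ e ^ p1 := by
  refine ((fam_start hb hY.ge h1 h2).and hD).bind fun P hA p1' p2' p3' ⟨N00, hS⟩ => ?_
  obtain ⟨hSt, hDr⟩ := hS N00 le_rfl
  obtain ⟨a, ha, hfl, -, N1, hN1, -, hx⟩ := xs' P b hY hA hSt hp1 (by rw [p3']; exact hpf2) hsg hp2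
    hDr
  have hpi := Real.pi_gt_d2
  have hpi2 := Real.pi_lt_d2
  have hev : ∀ᶠ n in atTop, 11 / 10 ≤ a n ∧ a n ≤ 19 / 10 := by
    have h3 := ha.eventually (Icc_mem_nhds (show 11 / 10 < Real.pi / 2 by linarith)
      (show Real.pi / 2 < 19 / 10 by linarith))
    exact h3.mono fun n hn => hn
  obtain ⟨N2, hN2⟩ := eventually_atTop.1 hev
  refine ⟨max N1 N2, fun N0 hN0 => ⟨a, ha, hfl, fun n hn => hN2 n
    ((le_max_right _ _).trans (hN0.trans hn)), ?_⟩⟩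
  intro n m e e' Y hn hSI hG h3 h4 h5
  have hn1 : N1 ≤ n := (le_max_left _ _).trans (hN0.trans hn)
  exact hx n m e e' Y hn1 ⟨hN1.trans hn1, hSI.good, hSI.yb, hSI.yε, hSI.εes, hSI.lo, hSI.up⟩ hG h3
    h4 h5

/-- **RngStep** -/
theorem fam_rng (hb1 : 0 < b1) (hY : helicity b = 2 / Real.pi) (h1 : b1 ≤ b) (h2 : b ≤ b2)
    {p1 p2 : ℝ} (hp1 : 0 < p1) (hpf2 : p1 < (1 - sg) * pf) (hsg : 0 ≤ sg) (hp2 : p1 < p2)
    (hpf : 1 / 4 < pf) (hD : Fam b1 b2 pf fun P N0 => Drop' P b p2 N0) :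
    Fam b1 b2 pf fun P N0 => RngStep P b sg N0 := by
  have hb : 0 < b := hb1.trans_le h1
  have hst := fam_stiff hb hY h1 h2 hp1 hpf2 hsg hp2 hD
  have hr : Fam b1 b2 pf fun P N0 => ∀ (n m : ℕ) (ε a Y : ℝ), 0 < ε → ε ≤ P.es → N0 ≤ n →
      n + P.w ε ≤ m → m ≤ n + 4 * P.w ε → 11 / 10 ≤ a → a ≤ 19 / 10 →
      (∀ r, P.TT n ε r → FL b (tn n) a (17 * ε ^ P.pf) (2 ^ r)) →
      (∀ r, n + P.kE ε ≤ r → yt (2 ^ r) b (tn n) ≤ max Y ε) → Y ^ 2 ≤ ε →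
      ∀ e' : ℝ, ε / 2 ≤ e' → e' ≤ P.es → ∀ r, P.TT m e' r ∨ r = m + 3 * P.xE e' →
        RNG P b m r e' ∧ RNG P b (m - 1) r e' := by
    obtain ⟨W0, h⟩ := H37.rng_step' hb1 b2
    refine ⟨W0, fun W hW => ⟨1, one_pos, fun ys hy _ => ⟨0, fun X0 _ => ?_⟩⟩⟩
    refine ⟨1, one_pos, fun x1 hx1 _ => ⟨2, fun Q hQ => ?_⟩⟩
    refine ⟨1 / 384, by norm_num, fun thp ht1 ht2 => ?_⟩
    refine ⟨min (1 / 32) (3 * x1), by positivity, fun th ht3 ht4 => ⟨0, fun C0 hC _ => ?_⟩⟩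
    have e1 : th ≤ 1 / 32 := ht4.trans (min_le_left _ _)
    have e2 : th ≤ 3 * x1 := ht4.trans (min_le_right _ _)
    obtain ⟨es, M0, hes, h⟩ := h W hW th thp x1 ys pf 17 ht3 ht1 (by linarith) e2 hy hpf
      (by norm_num) X0
    refine ⟨es, hes, fun P hP hPe => ⟨M0, fun N0 hN0 => ?_⟩⟩
    intro n m ε a Y hε hεe hn h3 h4 h5 h6 h7 h8 h9
    exact h P hP.hb1 hP.hb2 hP.hW hP.hys hP.hX0 hP.hth hP.hthp hP.hx1 hP.hpf
      (hQ.trans hP.hQ) hPe b n m ε a Y h1 h2 hε hεe (hN0.trans hn) h3 h4 h5 h6 h7 h8 h9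
  refine (hst.and hr).imp fun P N0 hA p1' p2' p3' h => ?_
  obtain ⟨⟨a, -, hfl, ha, -⟩, hr⟩ := h
  intro n m ε Y a' hS hF
  have hε := hS.εpos
  have ha' := ha n hS.n0
  have h3 := hr n m ε (a n) Y hε hS.εes hS.n0 hS.lo hS.up ha'.1 ha'.2
    (fun r hr' => hfl n ε hε hS.εes hS.good ε le_rfl hS.εes r hr')
    (fun r hr' => hS.yb.2.1 ε le_rfl hS.εes r hr') hS.yε
  exact fun e he hes r hr' => h3 e (hS.half he) hes r hr'

end

end Vale.Agent.P159.H239
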