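import Vale.Agent.P159.H972.Xs2
import Vale.Agent.P159.H280.StP

/-!
P159 / P_up (helper239): **order of the parameters**.  `Fam b1 b2 pf S` says that `S P N0` holds for
all admissible `P : Par` with exponents chosen in the order
`W, ys, X0, x1, Q, thp, th, C0, (q0), es` and all late `N0`.  Families are closed under conjunction.
-/

set_option linter.unusedSectionVars false

namespace Vale.Agent.P159.H239

open Vale.Agent.P159.H972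

noncomputable section

/-- the parameters of `P` are the given numbers -/
structure Sel (P : Par) (b1 b2 pf W ys : ℝ) (X0 : ℕ) (x1 : ℝ) (Q : ℕ) (thp th C0 : ℝ) : Prop where
  adm : P.Adm
  hb1 : P.b1 = b1
  hb2 : P.b2 = b2
  hpf : P.pf = pf
  hW : P.W = W
  hys : P.ys = ys
  hX0 : P.X0 = X0
  hx1 : P.x1 = x1
  hthp : P.thp = thp
  hth : P.th = th
  hC0 : P.C0 = C0
  hQ : Q ≤ P.q0
  hq : (P.q0 : ℝ) * P.thp ≤ x1 + (Q + 3) * thp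

/-- `S P N0` for all admissible parameters -/
def Fam (b1 b2 pf : ℝ) (S : Par → ℕ → Prop) : Prop :=
  ∃ W0 : ℝ, ∀ W, W0 ≤ W → ∃ ys0 : ℝ, 0 < ys0 ∧ ∀ ys, 0 < ys → ys ≤ ys0 → ∃ X00 : ℕ, ∀ X0, X00 ≤ X0 →
  ∃ r1 : ℝ, 0 < r1 ∧ ∀ x1, 0 < x1 → x1 ≤ r1 → ∃ Q0 : ℕ, ∀ Q, Q0 ≤ Q →
  ∃ r2 : ℝ, 0 < r2 ∧ ∀ thp, 0 < thp → thp ≤ r2 → ∃ r3 : ℝ, 0 < r3 ∧ ∀ th, 0 < th → th ≤ r3 →
  ∃ C00 : ℝ, ∀ C0, 0 < C0 → C00 ≤ C0 → ∃ E0 : ℝ, 0 < E0 ∧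
  ∀ P : Par, Sel P b1 b2 pf W ys X0 x1 Q thp th C0 → P.es ≤ E0 → ∃ N00 : ℕ, ∀ N0, N00 ≤ N0 → S P N0

variable {b1 b2 pf : ℝ} {S S' : Par → ℕ → Prop}

theorem Fam.bind (h : Fam b1 b2 pf S)
    (H : ∀ P : Par, P.Adm → P.b1 = b1 → P.b2 = b2 → P.pf = pf →
      (∃ N00 : ℕ, ∀ N0, N00 ≤ N0 → S P N0) → ∃ N00 : ℕ, ∀ N0, N00 ≤ N0 → S' P N0) :
    Fam b1 b2 pf S' := by
  obtain ⟨W0, h⟩ := h
  refine ⟨W0, fun W hW => ?_⟩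
  obtain ⟨ys0, hys0, h⟩ := h W hW
  refine ⟨ys0, hys0, fun ys hy1 hy2 => ?_⟩
  obtain ⟨X00, h⟩ := h ys hy1 hy2
  refine ⟨X00, fun X0 hX0 => ?_⟩
  obtain ⟨r1, hr1, h⟩ := h X0 hX0
  refine ⟨r1, hr1, fun x1 hx1 hx1' => ?_⟩
  obtain ⟨Q0, h⟩ := h x1 hx1 hx1'
  refine ⟨Q0, fun Q hQ => ?_⟩
  obtain ⟨r2, hr2, h⟩ := h Q hQ
  refine ⟨r2, hr2, fun thp ht1 ht2 => ?_⟩
  obtain ⟨r3, hr3, h⟩ := h thp ht1 ht2
  refine ⟨r3, hr3, fun th ht3 ht4 => ?_⟩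
  obtain ⟨C00, h⟩ := h th ht3 ht4
  refine ⟨C00, fun C0 hC hC' => ?_⟩
  obtain ⟨E0, hE0, h⟩ := h C0 hC hC'
  exact ⟨E0, hE0, fun P hP hes => H P hP.adm hP.hb1 hP.hb2 hP.hpf (h P hP hes)⟩

theorem Fam.imp (h : Fam b1 b2 pf S)
    (H : ∀ (P : Par) (N0 : ℕ), P.Adm → P.b1 = b1 → P.b2 = b2 → P.pf = pf → S P N0 → S' P N0) :
    Fam b1 b2 pf S' :=
  h.bind fun P h1 h2 h3 h4 ⟨N00, h5⟩ => ⟨N00, fun N0 hN => H P N0 h1 h2 h3 h4 (h5 N0 hN)⟩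

theorem Fam.of_all (h : ∀ (P : Par) (N0 : ℕ), P.Adm → P.b1 = b1 → P.b2 = b2 → P.pf = pf → S P N0) :
    Fam b1 b2 pf S :=
  ⟨0, fun _ _ => ⟨1, one_pos, fun _ _ _ => ⟨0, fun _ _ => ⟨1, one_pos, fun _ _ _ => ⟨0, fun _ _ =>
    ⟨1, one_pos, fun _ _ _ => ⟨1, one_pos, fun _ _ _ => ⟨0, fun _ _ _ => ⟨1, one_pos, fun P hP _ =>
      ⟨0, fun N0 _ => h P N0 hP.adm hP.hb1 hP.hb2 hP.hpf⟩⟩⟩⟩⟩⟩⟩⟩⟩⟩

theorem Fam.and (h : Fam b1 b2 pf S) (h' : Fam b1 b2 pf S') :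
    Fam b1 b2 pf fun P N0 => S P N0 ∧ S' P N0 := by
  obtain ⟨W0, h⟩ := h
  obtain ⟨W0', h'⟩ := h'
  refine ⟨max W0 W0', fun W hW => ?_⟩
  obtain ⟨ys0, hys0, h⟩ := h W ((le_max_left _ _).trans hW)
  obtain ⟨ys0', hys0', h'⟩ := h' W ((le_max_right _ _).trans hW)
  refine ⟨min ys0 ys0', lt_min hys0 hys0', fun ys hy1 hy2 => ?_⟩
  obtain ⟨X00, h⟩ := h ys hy1 (hy2.trans (min_le_left _ _))
  obtain ⟨X00', h'⟩ := h' ys hy1 (hy2.trans (min_le_right _ _))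
  refine ⟨max X00 X00', fun X0 hX0 => ?_⟩
  obtain ⟨r1, hr1, h⟩ := h X0 ((le_max_left _ _).trans hX0)
  obtain ⟨r1', hr1', h'⟩ := h' X0 ((le_max_right _ _).trans hX0)
  refine ⟨min r1 r1', lt_min hr1 hr1', fun x1 hx1 hx1' => ?_⟩
  obtain ⟨Q0, h⟩ := h x1 hx1 (hx1'.trans (min_le_left _ _))
  obtain ⟨Q0', h'⟩ := h' x1 hx1 (hx1'.trans (min_le_right _ _))
  refine ⟨max Q0 Q0', fun Q hQ => ?_⟩
  obtain ⟨r2, hr2, h⟩ := h Q ((le_max_left _ _).trans hQ)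
  obtain ⟨r2', hr2', h'⟩ := h' Q ((le_max_right _ _).trans hQ)
  refine ⟨min r2 r2', lt_min hr2 hr2', fun thp ht1 ht2 => ?_⟩
  obtain ⟨r3, hr3, h⟩ := h thp ht1 (ht2.trans (min_le_left _ _))
  obtain ⟨r3', hr3', h'⟩ := h' thp ht1 (ht2.trans (min_le_right _ _))
  refine ⟨min r3 r3', lt_min hr3 hr3', fun th ht3 ht4 => ?_⟩
  obtain ⟨C00, h⟩ := h th ht3 (ht4.trans (min_le_left _ _))
  obtain ⟨C00', h'⟩ := h' th ht3 (ht4.trans (min_le_right _ _))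
  refine ⟨max C00 C00', fun C0 hC hC' => ?_⟩
  obtain ⟨E0, hE0, h⟩ := h C0 hC ((le_max_left _ _).trans hC')
  obtain ⟨E0', hE0', h'⟩ := h' C0 hC ((le_max_right _ _).trans hC')
  refine ⟨min E0 E0', lt_min hE0 hE0', fun P hP hes => ?_⟩
  obtain ⟨N00, h⟩ := h P hP (hes.trans (min_le_left _ _))
  obtain ⟨N00', h'⟩ := h' P hP (hes.trans (min_le_right _ _))
  exact ⟨max N00 N00', fun N0 hN => ⟨h N0 ((le_max_left _ _).trans hN),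
    h' N0 ((le_max_right _ _).trans hN)⟩⟩

/-- parameters exist -/
theorem Fam.exists (h : Fam b1 b2 pf S) (hpf : 0 < pf) (hpf1 : pf ≤ 1) {E : ℝ} (hE : 0 < E) :
    ∃ P : Par, P.Adm ∧ P.b1 = b1 ∧ P.b2 = b2 ∧ P.pf = pf ∧ P.es ≤ E ∧
      ∃ N00 : ℕ, ∀ N0, N00 ≤ N0 → S P N0 := by
  obtain ⟨W0, h⟩ := h
  obtain ⟨ys0, hys0, h⟩ := h W0 le_rfl
  obtain ⟨X00, h⟩ := h ys0 hys0 le_rfl
  obtain ⟨r1, hr1, h⟩ := h X00 le_rfl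
  obtain ⟨Q0, h⟩ := h (min r1 1) (lt_min hr1 one_pos) (min_le_left _ _)
  set x1 : ℝ := min r1 1 with hx1
  have hx0 : 0 < x1 := lt_min hr1 one_pos
  have hx11 : x1 ≤ 1 := min_le_right _ _
  obtain ⟨r2, hr2, h⟩ := h Q0 le_rfl
  obtain ⟨r3, hr3, h⟩ := h (min r2 (x1 / 200)) (lt_min hr2 (by positivity)) (min_le_left _ _)
  set thp : ℝ := min r2 (x1 / 200) with hthp
  have ht0 : 0 < thp := lt_min hr2 (by positivity)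
  have ht1 : thp ≤ x1 / 200 := min_le_right _ _
  obtain ⟨C00, h⟩ := h (min r3 thp) (lt_min hr3 ht0) (min_le_left _ _)
  set th : ℝ := min r3 thp with hth
  have hth0 : 0 < th := lt_min hr3 ht0
  have hth1 : th ≤ thp := min_le_right _ _
  obtain ⟨E0, hE0, h⟩ := h (max C00 1) (by positivity) (le_max_left _ _)
  obtain ⟨P, hA, p1, p2, p3, p4, p5, p6, p7, p8, p9, p10, p11, p12, p13⟩ :=
    exists_par' (b1 := b1) (b2 := b2) (W := W0) (ys := ys0) X00 Q0 hth0 hth1 (by linarith) hx11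
      (by linarith) (show 0 < max C00 1 by positivity) hpf hpf1 (lt_min hE hE0)
  exact ⟨P, hA, p6, p7, p5, p12.trans (min_le_left _ _),
    h P ⟨hA, p6, p7, p5, p8, p9, p10, p3, p2, p1, p4, p11, p13⟩ (p12.trans (min_le_right _ _))⟩

/-- START of P_up as a family -/
theorem fam_start {b : ℝ} (hb : 0 < b) (hY : 2 / Real.pi ≤ helicity b) (h1 : b1 ≤ b) (h2 : b ≤ b2) :
    Fam b1 b2 pf fun P _ => StartP P b := by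
  obtain ⟨W0, h⟩ := H280.startP hb hY
  refine ⟨W0, fun W hW => ⟨1, one_pos, fun ys hy _ => ⟨0, fun X0 _ => ?_⟩⟩⟩
  refine ⟨1, one_pos, fun x1 hx1 _ => ⟨0, fun Q _ => ?_⟩⟩
  refine ⟨1, one_pos, fun thp _ _ => ⟨1, one_pos, fun th hth _ => ⟨0, fun C0 hC _ => ?_⟩⟩⟩
  obtain ⟨es0, hes0, h⟩ := h W hW th x1 C0 ys pf hth hx1 hC hy X0
  refine ⟨es0, hes0, fun P hP hes => ⟨0, fun _ _ => ?_⟩⟩
  exact h P hP.hth hP.hx1 hP.hC0 hP.hys hP.hpf hP.hX0 hP.hW (by rw [hP.hb1]; exact h1)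
    (by rw [hP.hb2]; exact h2) hes

/-- `lg c e` is large for small `e` -/
lemma lg_large {c : ℝ} (hc : 0 < c) (n : ℕ) : ∃ E : ℝ, 0 < E ∧ ∀ e, 0 < e → e ≤ E → n ≤ lg c e := by
  refine ⟨(2 : ℝ) ^ (-(n / c)), by positivity, fun e he h => ?_⟩
  unfold lg
  have h2 : (2 : ℝ) ^ ((n : ℝ) / c) ≤ 1 / e := by
    rw [le_div_iff₀ he]
    calc _ ≤ (2 : ℝ) ^ ((n : ℝ) / c) * (2 : ℝ) ^ (-((n : ℝ) / c)) := by gcongr
      _ = 1 := by rw [← Real.rpow_add two_pos, add_neg_cancel, Real.rpow_zero]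
  have h3 : (n : ℝ) / c ≤ Real.logb 2 (1 / e) := by
    rw [Real.le_logb_iff_rpow_le one_lt_two (by positivity)]
    exact h2
  have h4 : (n : ℝ) ≤ c * Real.logb 2 (1 / e) := by
    rw [div_le_iff₀ hc] at h3
    linarith
  exact_mod_cast h4.trans (Nat.le_ceil _)

/-- the windows are long against `C0` -/
theorem fam_w : Fam b1 b2 pf fun P _ => 4 * ⌈P.C0⌉₊ ≤ P.w P.es := by
  refine ⟨0, fun W _ => ⟨1, one_pos, fun ys hy _ => ⟨0, fun X0 _ => ?_⟩⟩⟩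
  refine ⟨1, one_pos, fun x1 hx1 _ => ⟨0, fun Q _ => ?_⟩⟩
  refine ⟨1, one_pos, fun thp ht _ => ⟨1, one_pos, fun th hth _ => ⟨0, fun C0 hC _ => ?_⟩⟩⟩
  obtain ⟨E, hE, h⟩ := lg_large ht (4 * ⌈C0⌉₊)
  refine ⟨E, hE, fun P hP hes => ⟨0, fun _ _ => ?_⟩⟩
  show 4 * ⌈P.C0⌉₊ ≤ lg P.thp P.es
  rw [hP.hC0, hP.hthp]
  exact h P.es P.es0 hes

/-- **assembly of the P half** -/
theorem fam_stepP {b sg : ℝ} (hF : Fam b1 b2 pf fun P N0 => FlatStep P b sg N0)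
    (hR : Fam b1 b2 pf fun P N0 => RngStep P b sg N0)
    (hA : Fam b1 b2 pf fun P N0 => ApStep P b sg N0)
    (h0 : Fam b1 b2 pf fun P N0 => D0Step P b sg N0)
    (hD : Fam b1 b2 pf fun P N0 => DtrStep P b sg N0) :
    Fam b1 b2 pf fun P N0 => StepP' P b sg N0 :=
  ((((hF.and hR).and hA).and (h0.and hD)).and fam_w).imp fun _ _ _ _ _ _ h =>
    StepP'.of h.2 h.1.1.1.1 h.1.1.1.2 h.1.1.2 (DStep.of h.1.2.1 h.1.2.2)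

end

end Vale.Agent.P159.H239
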