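import Vale.Agent.P159.H239.Fam
import Vale.Agent.P159.H801.ParEv

/-!
P159 / P_up (helper239): families `Fam` in the filter form `Ev` of helper801.
-/

set_option linter.unusedSectionVars false

namespace Vale.Agent.P159.H239

open Filter Topology
open Vale.Agent.P159.H972
open Vale.Agent.P159.H801 (Ev PS)

noncomputable section

variable {b1 b2 pf : ℝ} {S : Par → ℕ → Prop}

/-- a family gives an `Ev` statement for every `Q` -/
theorem Fam.ev (h : Fam b1 b2 pf S) (Q : ℕ) :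
    Ev b1 b2 pf Q fun P _ => ∀ᶠ N0 in atTop, S P N0 := by
  refine H801.Ev.of ?_
  obtain ⟨W0, h⟩ := h
  refine ⟨W0, fun W hW => ?_⟩
  obtain ⟨ys0, hys0, h⟩ := h W hW
  refine ⟨ys0, hys0, fun ys hy1 hy2 => ?_⟩
  obtain ⟨X00, h⟩ := h ys hy1 hy2
  refine ⟨X00, fun X0 hX0 => ?_⟩
  obtain ⟨r1, hr1, h⟩ := h X0 hX0
  refine ⟨r1, hr1, fun x1 hx1 hx1' => ?_⟩
  obtain ⟨Q0, h⟩ := h x1 hx1 hx1'
  obtain ⟨r2, hr2, h⟩ := h (max Q Q0) (le_max_right _ _)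
  refine ⟨min r2 (x1 / (Q0 + 1)), lt_min hr2 (by positivity), fun thp ht1 ht2 => ?_⟩
  obtain ⟨r3, hr3, h⟩ := h thp ht1 (ht2.trans (min_le_left _ _))
  refine ⟨r3, hr3, fun th ht3 ht4 => ?_⟩
  obtain ⟨C00, h⟩ := h th ht3 ht4
  refine ⟨max C00 1, fun C0 hC0 => ?_⟩
  obtain ⟨E0, hE0, h⟩ := h C0 (one_pos.trans_le ((le_max_right _ _).trans hC0))
    ((le_max_left _ _).trans hC0)
  refine ⟨1, one_pos, fun c1 _ _ => ⟨E0, hE0, fun P hP => ?_⟩⟩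
  have hq := hP.rho hx1 ht1
  have h1 : (Q0 : ℝ) + 1 ≤ x1 / thp := by
    have h2 := ht2.trans (min_le_right _ _)
    rw [le_div_iff₀ (by positivity)] at h2
    rw [le_div_iff₀ ht1]
    linarith
  have h2 : Q0 ≤ ⌈x1 / thp⌉₊ := by
    have h3 := h1.trans (Nat.le_ceil _)
    have h4 : (Q0 : ℝ) ≤ (⌈x1 / thp⌉₊ : ℝ) := by linarith
    exact_mod_cast h4
  have h3 : (Q : ℝ) ≤ (max Q Q0 : ℕ) := by exact_mod_cast le_max_left Q Q0
  obtain ⟨N00, hN⟩ := h P ⟨hP.adm, hP.eb1, hP.eb2, hP.epf, hP.eW, hP.eys, hP.eX0, hP.ex1, hP.ethp,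
    hP.eth, hP.eC0, by rw [hP.eq0]; exact max_le (by omega) (by omega), by nlinarith⟩ hP.ees
  exact eventually_atTop.2 ⟨N00, hN⟩

end

end Vale.Agent.P159.H239
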