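import Vale.Agent.P159.H159.Drec2
import Vale.Agent.P159.H159.Trn2
import Vale.Agent.P159.H692.Neut
import Vale.Agent.P159.H730.NTor

/-!
P159 / GLUE P_up (helper239), part 1: **STEP_D**.  One torus, base mass `T` (scalar posterior), two
priors `a < c ≤ T`.  From the near/far control of the difference `dNm` of the mean posterior cell
covariances, the saturation data `STN` and the symbol bounds, the fourth cumulant of the cells at
one scalar mass in `(a, c)`.
-/

namespace Vale.Agent.P159.H239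

open Finset Matrix
open Vale.Agent.P159.H37
open Vale.Agent.P159.TM.H764 (EE grd frm Q cN sN dt)
open Vale.Agent.P159.TM.Spec (V)
open Vale.Agent.P159.TM.H859 (tn dirE)
open Vale.Agent.P159.H864 (TI sym cobV)
open Vale.Agent.P159.H447 (K4S SN CN)
open Vale.Agent.P159.H963 (Gnc PinC nwt obsN Pn)
open Vale.Agent.P159.H730 (wN CbNk gN STN ti_CbarN CN_row)
open Vale.Agent.P159.H159
open Vale.Agent.P159.H692 (cx neut_one_win)

noncomputable section

/-! ### symbols from quadratic forms -/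

section symb

variable {n : ℕ} [NeZero n]

lemma dirE_eq_grd (u : V n → ℝ) : dirE u = grd u := by
  unfold dirE grd Q
  rw [Finset.sum_add_distrib]

/-- a translation invariant form dominated by the Dirichlet form -/
lemma abs_sym_le {M : Matrix (V n) (V n) ℝ} (hM : TI M) {κ : ℝ}
    (h : ∀ u : V n → ℝ, |qf M u| ≤ κ * dirE u) (k : V n) : |sym M k| ≤ κ * EE k := by
  have h1 := h (fun x => cN (dt k x))
  have h2 := h (fun x => sN (dt k x))
  have h3 := TM.H764.frm_wave (M 0) k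
  have h5 := TM.H764.grd_wave (N := n) k
  rw [← H864.qf_eq_frm hM, ← H864.qf_eq_frm hM] at h3
  rw [dirE_eq_grd] at h1 h2
  have hN : (0 : ℝ) < (n : ℝ) ^ 2 := by
    have : (0 : ℝ) < n := by exact_mod_cast NeZero.pos n
    positivity
  have h6 : (n : ℝ) ^ 2 * |sym M k| ≤ (n : ℝ) ^ 2 * (κ * EE k) := by
    calc (n : ℝ) ^ 2 * |sym M k| = |(n : ℝ) ^ 2 * sym M k| := by
          rw [abs_mul, abs_of_pos hN]
      _ = |qf M (fun x => cN (dt k x)) + qf M (fun x => sN (dt k x))| := by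
          rw [h3]; rfl
      _ ≤ κ * grd (fun x => cN (dt k x)) + κ * grd (fun x => sN (dt k x)) :=
          (abs_add_le _ _).trans (add_le_add h1 h2)
      _ = κ * ((n : ℝ) ^ 2 * EE k) := by rw [← mul_add, h5]
      _ = _ := by ring
  exact le_of_mul_le_mul_left h6 hN

end symb

/-! ### near and far control of a kernel on the cell torus -/

section blocks

variable {n nb m : ℕ} [NeZero n] [NeZero nb] [NeZero m]

/-- the four inputs: quadratic and trace form on two near boxes, bilinear and sign flip form on two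
far boxes (`n = nb m` cells per side, boxes of `m` cells, `K` = window radius in boxes) -/
structure Blk (nb m K : ℕ) [NeZero nb] [NeZero m] {n : ℕ} [NeZero n]
    (D : Matrix (V n) (V n) ℝ) (δ₀ δ₁ δt δf : ℝ) : Prop where
  d0 : 0 ≤ δ₀
  d1 : 0 ≤ δ₁
  dt : 0 ≤ δt
  df : 0 ≤ δf
  /-- direction form, near -/
  nu : ∀ (w w' : V nb) (g : V n → ℝ), tn (w' - w) ≤ K →
    (∀ x, cx nb m x ≠ w → cx nb m x ≠ w' → g x = 0) → |qf D g| ≤ δ₀ * ∑ x, g x ^ 2
  /-- bilinear form, far -/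
  fu : ∀ (w w' : V nb) (g g' : V n → ℝ), (K : ℝ) < tn (w' - w) →
    (∀ x, cx nb m x ≠ w → g x = 0) → (∀ x, cx nb m x ≠ w' → g' x = 0) →
    |bf D g g'| ≤ δ₁ * (√(∑ x, g x ^ 2) * √(∑ x, g' x ^ 2))
  /-- trace form, near -/
  nt : ∀ (w w' : V nb), tn (w' - w) ≤ K → ∀ B : Matrix (V n) (V n) ℝ, Ct B →
    (∀ x j, B x j ≠ 0 → cx nb m x = w ∨ cx nb m x = w') → |pr (B * Bᵀ) D| ≤ δt
  /-- sign flip form, far -/
  ft : ∀ (w w' : V nb), (K : ℝ) < tn (w' - w) → ∀ B : Matrix (V n) (V n) ℝ, Ct B →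
    (∀ x j, B x j ≠ 0 → cx nb m x = w ∨ cx nb m x = w') →
    |pr (B * Bᵀ) D - pr (flp (cx nb m) w' B * (flp (cx nb m) w' B)ᵀ) D| ≤ δf

variable {D : Matrix (V n) (V n) ℝ} {K : ℕ} {δ₀ δ₁ δt δf : ℝ}

/-- slowly varying directions -/
theorem Blk.low (h : Blk nb m K D δ₀ δ₁ δt δf) (hn : n = nb * m) (hD : TI D)
    (hr : ∀ x, ∑ y, D x y = 0) (k : V n) :
    |sym D k| ≤ (m : ℝ) ^ 2 * (2 * δ₀ * ((2 * K + 1) ^ 2 * (3 * K ^ 2 + 32))
      + δ₁ * (nb ^ 2 * (3 * nb ^ 2 + 32))) * EE k := by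
  have hM : H692.Neu D := ⟨by ext x y; exact hD.sy y x, hr⟩
  exact abs_sym_le hD (fun u => neut_one_win hn hM K h.d0 h.d1 h.nu h.fu u) k

omit [NeZero nb] in
lemma tn_zero' : tn (0 : V nb) = 0 := by
  have : TM.H859.rep (0 : V nb) = 0 := by
    unfold TM.H859.rep
    simp
  unfold tn
  rw [this]
  simp [TM.H859.nz]

/-- the number of near pairs of boxes -/
lemma card_near (K : ℕ) :
    ((((Finset.univ : Finset (V nb × V nb)).filter fun p => tn (p.2 - p.1) ≤ K).card : ℕ) : ℝ) ≤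
      (nb : ℝ) ^ 2 * (2 * K + 1) ^ 2 := by
  classical
  have h1 : ((Finset.univ : Finset (V nb × V nb)).filter fun p => tn (p.2 - p.1) ≤ K).card =
      ∑ w : V nb, ((Finset.univ.filter fun z : V nb => tn z ≤ K).card) := by
    rw [Finset.card_filter, Fintype.sum_prod_type]
    refine Finset.sum_congr rfl fun w _ => ?_
    rw [Finset.card_filter, ← Equiv.sum_comp (Equiv.addRight w)]
    refine Finset.sum_congr rfl fun z _ => ?_
    simp
  rw [h1, Finset.sum_const, Finset.card_univ, nsmul_eq_mul]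
  push_cast
  have h2 : (Fintype.card (V nb) : ℝ) = (nb : ℝ) ^ 2 := TM.H764.card_V
  rw [h2]
  exact mul_le_mul_of_nonneg_left (H692.card_tn_le K) (sq_nonneg _)

/-- the number of far pairs of boxes -/
lemma card_far (K : ℕ) :
    ((((Finset.univ : Finset (V nb × V nb)).filter fun p => ¬tn (p.2 - p.1) ≤ K).card : ℕ) : ℝ) ≤
      (nb : ℝ) ^ 4 := by
  classical
  have h1 : ((Finset.univ : Finset (V nb × V nb)).filter fun p => ¬tn (p.2 - p.1) ≤ K).card ≤
      Fintype.card (V nb × V nb) := Finset.card_filter_le _ _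
  have h2 : (Fintype.card (V nb) : ℝ) = (nb : ℝ) ^ 2 := TM.H764.card_V
  calc (((Finset.univ.filter fun p : V nb × V nb => ¬tn (p.2 - p.1) ≤ K).card : ℕ) : ℝ)
      ≤ (Fintype.card (V nb × V nb) : ℝ) := by exact_mod_cast h1
    _ = (nb : ℝ) ^ 4 := by
        rw [Fintype.card_prod]
        push_cast
        rw [h2]
        ring

/-- trace norm -/
theorem Blk.tr (h : Blk nb m K D δ₀ δ₁ δt δf) (hD : TI D) :
    ∑ k, |sym D k| ≤ 2 * ((nb : ℝ) ^ 2 * (2 * K + 1) ^ 2 * δt + (nb : ℝ) ^ 4 * (δf / 4)) := by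
  classical
  have hB : Bx2 (J := V n) D (cx nb m) (fun w w' : V nb => tn (w' - w) ≤ K) δt δf := by
    refine ⟨fun w => ?_, ⟨hD.sy, fun w w' hn B hB hs => h.nt w w' hn B hB hs⟩,
      fun w w' hn B hB hs => h.ft w w' (not_le.1 hn) B hB hs⟩
    rw [sub_self, tn_zero']
    positivity
  refine (sum_abs_sym_le2 hD hB).trans ?_
  have h1 := card_near (nb := nb) K
  have h2 := card_far (nb := nb) K
  refine mul_le_mul_of_nonneg_left (add_le_add ?_ ?_) zero_le_two
  · exact mul_le_mul_of_nonneg_right h1 h.dt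
  · exact mul_le_mul_of_nonneg_right h2 (div_nonneg h.df (by norm_num))

end blocks

/-! ### the mean posterior covariances -/

section cov

variable {N l : ℕ} [NeZero N] [NeZero (N / l)] {b T a c : ℝ}

/-- mean posterior cell covariance, prior `s`, posterior `T` -/
def cbM (N l : ℕ) [NeZero N] [NeZero (N / l)] (b T s : ℝ) : Matrix (V (N / l)) (V (N / l)) ℝ :=
  CN N l * Cbar (wN N l b T s) 0 (obsN N l (T - s)) * (CN N l)ᵀ

/-- difference for the priors `a` and `c` -/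
def dNm (N l : ℕ) [NeZero N] [NeZero (N / l)] (b T a c : ℝ) : Matrix (V (N / l)) (V (N / l)) ℝ :=
  cbM N l b T a - cbM N l b T c

lemma ti_cbM (hb : 0 ≤ b) (hl : l ∣ N) {s : ℝ} (hs : 0 < s) (h : s ≤ T) : TI (cbM N l b T s) := by
  have h1 := ti_CbarN (N := N) (l := l) (t := T) hb hl hs h (Real.sqrt (T - s))
  exact h1

lemma ti_sub {n : ℕ} [NeZero n] {A B : Matrix (V n) (V n) ℝ} (hA : TI A) (hB : TI B) :
    TI (A - B) := ⟨fun a x y => by rw [Matrix.sub_apply, Matrix.sub_apply, hA.tr, hB.tr],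
      fun x y => by rw [Matrix.sub_apply, Matrix.sub_apply, hA.sy, hB.sy]⟩

lemma sym_sub' {n : ℕ} [NeZero n] (A B : Matrix (V n) (V n) ℝ) (k : V n) :
    sym (A - B) k = sym A k - sym B k := by
  rw [H864.sym_def, H864.sym_def, H864.sym_def, ← Finset.sum_sub_distrib]
  exact Finset.sum_congr rfl fun z _ => by rw [Matrix.sub_apply]; ring

lemma ti_dNm (hb : 0 ≤ b) (hl : l ∣ N) (ha : 0 < a) (hac : a ≤ c) (hc : c ≤ T) :
    TI (dNm N l b T a c) :=
  ti_sub (ti_cbM hb hl ha (hac.trans hc)) (ti_cbM hb hl (ha.trans_le hac) hc)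

lemma sym_dNm (k : V (N / l)) :
    sym (dNm N l b T a c) k = CbNk N l b T a T k - CbNk N l b T c T k := by
  unfold dNm
  rw [sym_sub']
  rfl

lemma CN_col (x : V N) : ∑ i, CN N l i x = 0 := by
  have h : ∀ i, CN N l i x = ((Pn : Matrix (V (N / l)) (V (N / l)) ℝ) *ᵥ
      fun c => cobV N l c x) i := fun i => rfl
  simp only [h]
  exact H963.neu_Pn _

lemma row_cbM (s : ℝ) (x : V (N / l)) : ∑ y, cbM N l b T s x y = 0 := by
  unfold cbM
  simp only [Matrix.mul_apply, Matrix.transpose_apply]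
  rw [Finset.sum_comm]
  refine Finset.sum_eq_zero fun z _ => ?_
  rw [← Finset.mul_sum, CN_col, mul_zero]

lemma row_dNm (x : V (N / l)) : ∑ y, dNm N l b T a c x y = 0 := by
  unfold dNm
  simp only [Matrix.sub_apply, Finset.sum_sub_distrib, row_cbM, sub_self]

/-! ### STEP_D -/

/-- the scalar inputs of one step, torus of side `N = nb m l`, base mass `T`, priors `a < c ≤ T` -/
structure SD (N l nb m K : ℕ) [NeZero N] [NeZero (N / l)] [NeZero nb] [NeZero m]
    (b T a c a0 a1 cc θ e δ₀ δ₁ δt δf δ3 : ℝ) (Gd : ℝ → ℝ → Set (V N → ℝ))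
    (ε : V (N / l) → ℝ) : Prop where
  b0 : 0 < b
  hl0 : 0 < l
  hl : l ∣ N
  hn : N / l = nb * m
  ha : 0 < a
  hac : a < c
  hc : c ≤ T
  ha0 : 0 ≤ a0
  ha1 : 0 ≤ a1
  hcc : 0 < cc
  hθ : θ ≤ 1 / 2
  /-- saturation data of both priors -/
  sc : STN N l b T c T θ e (Gd c)
  sa : STN N l b T a T θ e (Gd a)
  /-- TOP -/
  top : ∀ k : V (N / l), k ≠ 0 → PinC N l b T T k ≤ a0 * T + a1 * (EE k / (l : ℝ) ^ 2)
  /-- domination at the lowest mass -/
  bot : ∀ k : V (N / l), k ≠ 0 → sym (Gnc N l b T a) k ≤ 1 / (a + cc * (EE k / (l : ℝ) ^ 2))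
  /-- near and far control -/
  blk : Blk nb m K (dNm N l b T a c) δ₀ δ₁ δt δf
  /-- total excess for the higher prior -/
  n3 : ∑ k ∈ Finset.univ.erase (0 : V (N / l)), (CbNk N l b T c T k - gN N l b T T k) ≤ δ3
  fine : Fine N l b T a c ε

variable {nb m K : ℕ} [NeZero nb] [NeZero m] {a0 a1 cc θ e δ₀ δ₁ δt δf δ3 : ℝ}
variable {Gd : ℝ → ℝ → Set (V N → ℝ)} {ε : V (N / l) → ℝ}

/-- `δ1` of `Dr` -/
def dl1 (l nb m K : ℕ) (T δ₀ δ₁ : ℝ) : ℝ :=
  T ^ 2 * (l : ℝ) ^ 2 * ((m : ℝ) ^ 2 * (2 * δ₀ * ((2 * K + 1) ^ 2 * (3 * K ^ 2 + 32))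
      + δ₁ * (nb ^ 2 * (3 * nb ^ 2 + 32))))

/-- `δ2` of `Dr` -/
def dl2 (nb K : ℕ) (δt δf : ℝ) : ℝ :=
  2 * ((nb : ℝ) ^ 2 * (2 * K + 1) ^ 2 * δt + (nb : ℝ) ^ 4 * (δf / 4))

theorem SD.dr (h : SD N l nb m K b T a c a0 a1 cc θ e δ₀ δ₁ δt δf δ3 Gd ε) :
    Dr (N / l) (Finset.univ.erase 0) ((l : ℝ) ^ 2) T a cc a0 a1 θ (dl1 l nb m K T δ₀ δ₁)
      (dl2 nb K δt δf) (fun k => gN N l b T T k) (fun k => sym (Gnc N l b T a) k)
      (fun k => CbNk N l b T c T k - gN N l b T T k)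
      (fun k => CbNk N l b T a T k - gN N l b T T k)
      (fun k => PinC N l b T T k - PinC N l b T c k)
      (fun k => PinC N l b T c k - PinC N l b T a k)
      (fun k => (T - a) * (e / gN N l b T T k ^ 2)) := by
  have hT : 0 < T := h.ha.trans (h.hac.trans_le h.hc)
  have hl0 : (0 : ℝ) < l := by exact_mod_cast h.hl0
  have hti := ti_dNm (N := N) (l := l) h.b0.le h.hl h.ha h.hac.le h.hc
  have hg : ∀ k : V (N / l), k ≠ 0 → 0 < gN N l b T T k := fun k hk =>
    H963.sym_Gnc_pos (N := N) (l := l) (t := T) h.b0 h.hl hT le_rfl hk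
  refine ⟨by positivity, h.ha, hT, h.hcc, h.ha0, h.ha1, ?_, by linarith [h.hθ],
    fun k hk => Finset.ne_of_mem_erase hk, fun k hk => hg k (Finset.ne_of_mem_erase hk),
    fun k hk => ?_, fun k hk => ?_, fun k hk => h.bot k (Finset.ne_of_mem_erase hk),
    fun k hk => ?_, fun k hk => ?_, fun k hk => ?_, fun k hk => ?_, fun k hk => ?_, ?_⟩
  · unfold dl1
    have := h.blk.d0
    have := h.blk.d1
    positivity
  · have h1 := h.top k (Finset.ne_of_mem_erase hk)
    unfold PinC at h1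
    simp only [one_div]
    have h2 : (gN N l b T T k)⁻¹ - T ≤ a0 * T + a1 * (EE k / (l : ℝ) ^ 2) := h1
    linarith
  · exact (H963.sym_Gnc_pos (N := N) (l := l) (t := T) h.b0 h.hl h.ha
      (h.hac.le.trans h.hc) (Finset.ne_of_mem_erase hk)).le
  · exact sub_nonneg.2 (h.sc.cb_ge (Finset.ne_of_mem_erase hk))
  · have h1 := h.sa.cb_ge (Finset.ne_of_mem_erase hk)
    have h2 := hg k (Finset.ne_of_mem_erase hk)
    linarith
  · have h1 := (h.sc.star (Finset.ne_of_mem_erase hk)).2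
    simp only [one_div]
    rw [add_sub_cancel]
    exact h1
  · have h1 := (h.sa.star (Finset.ne_of_mem_erase hk)).1
    simp only [one_div]
    rw [add_sub_cancel]
    have e1 : PinC N l b T T k - PinC N l b T c k + (PinC N l b T c k - PinC N l b T a k) =
        PinC N l b T T k - PinC N l b T a k := by ring
    rw [e1]
    linarith
  · have h1 := h.blk.low h.hn hti row_dNm k
    rw [sym_dNm] at h1
    have e1 : CbNk N l b T a T k - gN N l b T T k - (CbNk N l b T c T k - gN N l b T T k) =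
        CbNk N l b T a T k - CbNk N l b T c T k := by ring
    rw [e1]
    unfold dl1
    calc T ^ 2 * |CbNk N l b T a T k - CbNk N l b T c T k|
        ≤ T ^ 2 * ((m : ℝ) ^ 2 * (2 * δ₀ * ((2 * K + 1) ^ 2 * (3 * K ^ 2 + 32))
          + δ₁ * (nb ^ 2 * (3 * nb ^ 2 + 32))) * EE k) :=
          mul_le_mul_of_nonneg_left h1 (sq_nonneg _)
      _ = _ := by field_simp
  · have h1 := h.blk.tr hti
    refine le_trans ?_ h1
    refine (Finset.sum_le_sum_of_subset_of_nonneg (Finset.erase_subset _ _)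
      fun k _ _ => abs_nonneg _).trans (le_of_eq ?_)
    refine Finset.sum_congr rfl fun k _ => ?_
    rw [sym_dNm]
    congr 1
    ring

/-- the weight of a mode -/
lemma SD.ratio (h : SD N l nb m K b T a c a0 a1 cc θ e δ₀ δ₁ δt δf δ3 Gd ε) {k : V (N / l)}
    (hk : k ≠ 0) : (sym (Gnc N l b T a) k / gN N l b T T k) ^ 2 ≤
      ((1 + a0) * T / a + a1 / cc) ^ 2 := by
  have hT : 0 < T := h.ha.trans (h.hac.trans_le h.hc)
  have hg : 0 < gN N l b T T k :=
    H963.sym_Gnc_pos (N := N) (l := l) (t := T) h.b0 h.hl hT le_rfl hk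
  have hga : 0 < sym (Gnc N l b T a) k := H963.sym_Gnc_pos (N := N) (l := l) (t := T) h.b0 h.hl
    h.ha (h.hac.le.trans h.hc) hk
  have ha := h.ha
  have hcc := h.hcc
  have ha0 := h.ha0
  have ha1 := h.ha1
  have hE : 0 ≤ EE k / (l : ℝ) ^ 2 := div_nonneg (TM.H764.EE_nonneg k) (by positivity)
  refine pow_le_pow_left₀ (div_nonneg hga.le hg.le) ?_ 2
  have h1 : (gN N l b T T k)⁻¹ ≤ (1 + a0) * T + a1 * (EE k / (l : ℝ) ^ 2) := by
    have h1 := h.top k hk
    have h2 : (gN N l b T T k)⁻¹ - T ≤ a0 * T + a1 * (EE k / (l : ℝ) ^ 2) := h1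
    linarith
  rw [div_eq_mul_inv]
  have h2 := h.bot k hk
  set x := EE k / (l : ℝ) ^ 2 with hx
  calc sym (Gnc N l b T a) k * (gN N l b T T k)⁻¹
      ≤ 1 / (a + cc * x) * ((1 + a0) * T + a1 * x) :=
        mul_le_mul h2 h1 (inv_nonneg.2 hg.le) (by positivity)
    _ = (1 + a0) * T / (a + cc * x) + a1 * x / (a + cc * x) := by
        field_simp
    _ ≤ (1 + a0) * T / a + a1 / cc := by
        refine add_le_add (div_le_div_of_nonneg_left (by positivity) ha (by nlinarith)) ?_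
        rw [div_le_div_iff₀ (by positivity) hcc]
        nlinarith [mul_nonneg ha1 ha.le]

/-- excess weighted by the lowest covariance, higher prior -/
lemma SD.sumD1 (h : SD N l nb m K b T a c a0 a1 cc θ e δ₀ δ₁ δt δf δ3 Gd ε) :
    ∑ k ∈ Finset.univ.erase 0, sym (Gnc N l b T a) k ^ 2 *
      (PinC N l b T T k - PinC N l b T c k) ≤
      2 * (((1 + a0) * T / a + a1 / cc) ^ 2 * (δ3 + ((N / l : ℕ) : ℝ) ^ 2 * (T * e))) := by
  have hT : 0 < T := h.ha.trans (h.hac.trans_le h.hc)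
  set Q : ℝ := ((1 + a0) * T / a + a1 / cc) ^ 2 with hQ
  have hQ0 : 0 ≤ Q := sq_nonneg _
  have he := h.sc.e0
  have hθ0 := h.sc.th0
  have hmode : ∀ k ∈ Finset.univ.erase (0 : V (N / l)), sym (Gnc N l b T a) k ^ 2 *
      (PinC N l b T T k - PinC N l b T c k) ≤
      2 * (Q * ((CbNk N l b T c T k - gN N l b T T k) + T * e)) := by
    intro k hk
    have hk0 := Finset.ne_of_mem_erase hk
    have hg : 0 < gN N l b T T k :=
      H963.sym_Gnc_pos (N := N) (l := l) (t := T) h.b0 h.hl hT le_rfl hk0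
    have hν := h.sc.cb_ge hk0
    obtain ⟨s1, s2⟩ := h.sc.star hk0
    have hr := h.ratio hk0
    set g := gN N l b T T k
    set ν := CbNk N l b T c T k - g with hνd
    have hν0 : 0 ≤ ν := sub_nonneg.2 hν
    have e1 : CbNk N l b T c T k = g + ν := by rw [hνd]; ring
    rw [e1] at s1 s2
    have hu : g⁻¹ - (g + ν)⁻¹ ≤ ν / g ^ 2 := by
      rw [inv_sub_inv hg.ne' (by linarith : (g + ν) ≠ 0), add_sub_cancel_left]
      refine div_le_div_of_nonneg_left hν0 (by positivity) ?_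
      nlinarith
    have h0 : 0 ≤ PinC N l b T T k - PinC N l b T c k := by
      refine le_trans ?_ s2
      have := inv_anti₀ hg (by linarith : g ≤ g + ν)
      linarith
    have hD : PinC N l b T T k - PinC N l b T c k ≤ 2 * ((ν + T * e) / g ^ 2) := by
      have h3 : (T - c) * (e / g ^ 2) ≤ T * e / g ^ 2 := by
        rw [mul_div_assoc]
        exact mul_le_mul_of_nonneg_right (by linarith [h.ha, h.hac]) (by positivity)
      have h4 : (1 - θ) * (PinC N l b T T k - PinC N l b T c k) ≤ (ν + T * e) / g ^ 2 := by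
        rw [add_div]
        linarith
      nlinarith [h.hθ]
    calc sym (Gnc N l b T a) k ^ 2 * (PinC N l b T T k - PinC N l b T c k)
        ≤ sym (Gnc N l b T a) k ^ 2 * (2 * ((ν + T * e) / g ^ 2)) :=
          mul_le_mul_of_nonneg_left hD (sq_nonneg _)
      _ = 2 * ((sym (Gnc N l b T a) k / g) ^ 2 * (ν + T * e)) := by
          rw [div_pow]
          ring
      _ ≤ 2 * (Q * (ν + T * e)) :=
          mul_le_mul_of_nonneg_left (mul_le_mul_of_nonneg_right hr (by positivity)) zero_le_two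
  refine (Finset.sum_le_sum hmode).trans ?_
  rw [← Finset.mul_sum, ← Finset.mul_sum, Finset.sum_add_distrib, Finset.sum_const, nsmul_eq_mul]
  have hc : (((Finset.univ.erase (0 : V (N / l))).card : ℕ) : ℝ) ≤ ((N / l : ℕ) : ℝ) ^ 2 := by
    have h2 : (Fintype.card (V (N / l)) : ℝ) = ((N / l : ℕ) : ℝ) ^ 2 := TM.H764.card_V
    rw [← h2]
    exact_mod_cast Finset.card_le_univ _
  refine mul_le_mul_of_nonneg_left (mul_le_mul_of_nonneg_left (add_le_add h.n3 ?_) hQ0)
    zero_le_two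
  exact mul_le_mul_of_nonneg_right hc (by positivity)

/-- the error modes -/
lemma SD.sumE (h : SD N l nb m K b T a c a0 a1 cc θ e δ₀ δ₁ δt δf δ3 Gd ε) :
    ∑ k ∈ Finset.univ.erase 0, sym (Gnc N l b T a) k ^ 2 *
      ((T - a) * (e / gN N l b T T k ^ 2)) ≤
      ((1 + a0) * T / a + a1 / cc) ^ 2 * (((N / l : ℕ) : ℝ) ^ 2 * (T * e)) := by
  have hT : 0 < T := h.ha.trans (h.hac.trans_le h.hc)
  set Q : ℝ := ((1 + a0) * T / a + a1 / cc) ^ 2 with hQ
  have hQ0 : 0 ≤ Q := sq_nonneg _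
  have he := h.sc.e0
  have hmode : ∀ k ∈ Finset.univ.erase (0 : V (N / l)), sym (Gnc N l b T a) k ^ 2 *
      ((T - a) * (e / gN N l b T T k ^ 2)) ≤ Q * (T * e) := by
    intro k hk
    have hk0 := Finset.ne_of_mem_erase hk
    have hr := h.ratio hk0
    calc sym (Gnc N l b T a) k ^ 2 * ((T - a) * (e / gN N l b T T k ^ 2))
        = (sym (Gnc N l b T a) k / gN N l b T T k) ^ 2 * ((T - a) * e) := by
          rw [div_pow]
          ring
      _ ≤ Q * (T * e) := by
          refine mul_le_mul hr (mul_le_mul_of_nonneg_right (by linarith [h.ha]) he) ?_ hQ0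
          exact mul_nonneg (by linarith [h.hac, h.hc]) he
  refine (Finset.sum_le_sum hmode).trans ?_
  rw [Finset.sum_const, nsmul_eq_mul]
  have hc : (((Finset.univ.erase (0 : V (N / l))).card : ℕ) : ℝ) ≤ ((N / l : ℕ) : ℝ) ^ 2 := by
    have h2 : (Fintype.card (V (N / l)) : ℝ) = ((N / l : ℕ) : ℝ) ^ 2 := TM.H764.card_V
    rw [← h2]
    exact_mod_cast Finset.card_le_univ _
  calc (((Finset.univ.erase (0 : V (N / l))).card : ℕ) : ℝ) * (Q * (T * e))
      ≤ ((N / l : ℕ) : ℝ) ^ 2 * (Q * (T * e)) := mul_le_mul_of_nonneg_right hc (by positivity)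
    _ = _ := by ring

/-- **STEP_D** -/
theorem SD.step (h : SD N l nb m K b T a c a0 a1 cc θ e δ₀ δ₁ δt δf δ3 Gd ε) :
    ∃ τ ∈ Set.Ioo a c, 1 / 2 * K4S (nwt N b τ 0) (SN N l) (SN N l) ≤
      4 * (c - a)⁻¹ * (2 * (θ * (2 * (((1 + a0) * T / a + a1 / cc) ^ 2 *
          (δ3 + ((N / l : ℕ) : ℝ) ^ 2 * (T * e)))) +
        25 * ((1 + a0 + a1) / cc) ^ 2 * dl1 l nb m K T δ₀ δ₁ *
          (((N / l : ℕ) : ℝ) ^ 2 * (l : ℝ) ^ 2) * (1 + Real.log (1 + cc * T / a)) +
        ((1 + a0 + a1) / cc) ^ 2 * dl2 nb K δt δf +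
        ((1 + a0) * T / a + a1 / cc) ^ 2 * (((N / l : ℕ) : ℝ) ^ 2 * (T * e))) +
        ∑ k ∈ Finset.univ.erase 0, ε k) := by
  have hT : 0 < T := h.ha.trans (h.hac.trans_le h.hc)
  obtain ⟨τ, hτ, h1⟩ := drec h.b0 h.hl h.ha h.hac h.hc h.dr (fun k _ => rfl) (fun k _ => rfl)
    h.fine
  refine ⟨τ, hτ, h1.trans ?_⟩
  have hca : 0 < (c - a)⁻¹ := inv_pos.2 (sub_pos.2 h.hac)
  refine mul_le_mul_of_nonneg_left (add_le_add ?_ le_rfl) (by positivity)
  have hθ0 := h.sc.th0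
  have hθ := h.hθ
  have s1 := h.sumD1
  have s2 := h.sumE
  have he := h.sc.e0
  have hdl1 : 0 ≤ dl1 l nb m K T δ₀ δ₁ := by
    unfold dl1
    have := h.blk.d0
    have := h.blk.d1
    positivity
  have hdl2 : 0 ≤ dl2 nb K δt δf := by
    unfold dl2
    have := h.blk.dt
    have := h.blk.df
    positivity
  have hlog : 0 ≤ 1 + Real.log (1 + cc * T / a) := by
    have h2 : (1 : ℝ) ≤ 1 + cc * T / a := by
      have := h.hcc
      have := h.ha
      have : 0 ≤ cc * T / a := by positivity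
      linarith
    linarith [Real.log_nonneg h2]
  have hinv : (1 - θ)⁻¹ ≤ 2 := by
    rw [inv_le_comm₀ (by linarith) two_pos]
    linarith
  have hs0 : 0 ≤ δ3 := le_trans (Finset.sum_nonneg fun k hk =>
    sub_nonneg.2 (h.sc.cb_ge (Finset.ne_of_mem_erase hk))) h.n3
  refine (mul_le_mul_of_nonneg_left (add_le_add (add_le_add (add_le_add
    (mul_le_mul_of_nonneg_left s1 hθ0) le_rfl) le_rfl) s2) (inv_nonneg.2 (by linarith))).trans ?_
  exact mul_le_mul_of_nonneg_right hinv (by positivity)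

end cov

end

end Vale.Agent.P159.H239
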