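import Vale.Agent.P159.H663.Propag
import Vale.Agent.P159.H789.Ray

/-!
P159 / module AP (helper239), part 1.

* `mean_dev_R`: `|E_J <w,h> - <w, G J>| <= sqrt (2 h R(J))`, `h` bound of the variance of `<w,h>`
  in every source;
* `pset`: for every measurable set `S` of sources of the posterior,
  `R'(e) <= sup_S R - log (1 - P_e (not S))`;
* `ap_boot`: continuity argument in the amplitude.
-/

namespace Vale.Agent.P159.H239

open Finset Matrix MeasureTheory ProbabilityTheory
open Vale.Agent.P159.TM.H104 (EM Ex Cv K3 Lg li nh Gr)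
open Vale.Agent.P159.H37
open Vale.Agent.P159.H663 (GC ind EGr.ind ind_nonneg ind_le_one Gm_ge)

noncomputable section

variable {V : Type*} [Fintype V] {I : Type*} [Fintype I]

/-- a nonnegative function with second derivative at most `h` on the line has slope at most
`sqrt (2 h f)` -/
lemma slope_le_of_nonneg {f f' f'' : ℝ → ℝ} (h1 : ∀ s, HasDerivAt f (f' s) s)
    (h2 : ∀ s, HasDerivAt f' (f'' s) s) (h0 : ∀ s, 0 ≤ f s) {h : ℝ} (hh : ∀ s, f'' s ≤ h) :
    f' 0 ^ 2 ≤ 2 * h * f 0 := by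
  -- f s <= f 0 + s f' 0 + h s^2 / 2 for every s
  have key : ∀ s : ℝ, f s ≤ f 0 + s * f' 0 + h * s ^ 2 / 2 := by
    have m1 : Monotone fun s => h * s - f' s := by
      refine monotone_of_deriv_nonneg (fun s => ?_) fun s => ?_
      · exact (((hasDerivAt_id s).const_mul h).sub (h2 s)).differentiableAt
      · have h3 : HasDerivAt (fun s => h * s - f' s) (h * 1 - f'' s) s :=
          ((hasDerivAt_id s).const_mul h).sub (h2 s)
        rw [h3.deriv]
        linarith [hh s]
    have d : ∀ s, HasDerivAt (fun s => f 0 + s * f' 0 + h * s ^ 2 / 2 - f s)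
        (f' 0 + h * s - f' s) s := by
      intro s
      have a1 : HasDerivAt (fun s : ℝ => s * f' 0) (f' 0) s := by
        simpa using (hasDerivAt_id s).mul_const (f' 0)
      have a2 : HasDerivAt (fun s : ℝ => h * s ^ 2 / 2) (h * s) s := by
        have := ((hasDerivAt_pow 2 s).const_mul h).div_const 2
        refine this.congr_deriv ?_
        norm_num
        ring
      exact ((a1.const_add (f 0)).add a2).sub (h1 s)
    intro s
    set q : ℝ → ℝ := fun s => f 0 + s * f' 0 + h * s ^ 2 / 2 - f s with hq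
    have q0 : q 0 = 0 := by simp [hq]
    have hq' : ∀ s, HasDerivAt q (f' 0 + h * s - f' s) s := d
    have hs : 0 ≤ q s := by
      rcases le_total 0 s with hs | hs
      · have hm : MonotoneOn q (Set.Ici 0) := by
          refine monotoneOn_of_deriv_nonneg (convex_Ici 0)
            (fun x _ => (hq' x).continuousAt.continuousWithinAt)
            (fun x _ => (hq' x).differentiableAt.differentiableWithinAt) fun x hx => ?_
          rw [interior_Ici] at hx
          rw [(hq' x).deriv]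
          have := m1 (le_of_lt hx : (0 : ℝ) ≤ x)
          simp only [mul_zero, zero_sub] at this
          linarith
        have := hm Set.self_mem_Ici (Set.mem_Ici.2 hs) hs
        rwa [q0] at this
      · have hm : AntitoneOn q (Set.Iic 0) := by
          refine antitoneOn_of_deriv_nonpos (convex_Iic 0)
            (fun x _ => (hq' x).continuousAt.continuousWithinAt)
            (fun x _ => (hq' x).differentiableAt.differentiableWithinAt) fun x hx => ?_
          rw [interior_Iic] at hx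
          rw [(hq' x).deriv]
          have := m1 (le_of_lt hx : x ≤ (0 : ℝ))
          simp only [mul_zero, zero_sub] at this
          linarith
        have := hm (Set.mem_Iic.2 hs) Set.self_mem_Iic hs
        rwa [q0] at this
    have : q s = f 0 + s * f' 0 + h * s ^ 2 / 2 - f s := rfl
    linarith
  rcases eq_or_ne h 0 with rfl | hne
  · -- then f is affine bounded below
    have h3 : f' 0 = 0 := by
      by_contra hc
      have h4 := key (-(f 0 + 1) / f' 0)
      have h5 := h0 (-(f 0 + 1) / f' 0)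
      have h6 : -(f 0 + 1) / f' 0 * f' 0 = -(f 0 + 1) := by field_simp
      rw [h6] at h4
      linarith
    rw [h3]
    simp
  · have hpos : 0 < h := by
      by_contra hc
      have hneg : h < 0 := lt_of_le_of_ne (not_lt.1 hc) hne
      -- a large s gives a negative value
      have h4 := key (-(1 + |f' 0| + f 0) * (2 / h) * (1 + |f' 0| + f 0))
      set A := 1 + |f' 0| + f 0 with hA
      have hA1 : 1 ≤ A := by
        have := abs_nonneg (f' 0)
        have := h0 0
        linarith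
      have h5 := h0 (-A * (2 / h) * A)
      -- choose instead s = 2 A / (-h) (positive)
      have h6 := key (2 * A / (-h) + 1)
      have h7 := h0 (2 * A / (-h) + 1)
      have hnh : 0 < -h := by linarith
      set r := 2 * A / (-h) with hr
      have hr0 : 0 < r := by positivity
      have hrh : -h * r = 2 * A := by rw [hr]; field_simp
      have h8 : (r + 1) * f' 0 ≤ (r + 1) * |f' 0| :=
        mul_le_mul_of_nonneg_left (le_abs_self _) (by linarith)
      have h9 : h * (r + 1) ^ 2 / 2 = -(A * (r + 1)) + h * (r + 1) / 2 := by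
        have : h * r = -(2 * A) := by linarith
        have e : h * (r + 1) ^ 2 / 2 = (h * r) * (r + 1) / 2 + h * (r + 1) / 2 := by ring
        rw [e, this]
        ring
      have h10 : h * (r + 1) / 2 < 0 := by nlinarith
      have h11 : A * (r + 1) = (r + 1) + |f' 0| * (r + 1) + f 0 * (r + 1) := by
        rw [hA]; ring
      have h12 : f 0 ≤ f 0 * (r + 1) := by nlinarith [h0 0]
      nlinarith [h0 0]
    have h3 := key (-(f' 0) / h)
    have h4 := h0 (-(f' 0) / h)
    have h5 : f 0 + -f' 0 / h * f' 0 + h * (-f' 0 / h) ^ 2 / 2 = f 0 - f' 0 ^ 2 / (2 * h) := by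
      field_simp
      ring
    rw [h5] at h3
    have h6 : f' 0 ^ 2 / (2 * h) ≤ f 0 := by linarith
    rw [div_le_iff₀ (by positivity)] at h6
    linarith

/-- **MEANR**: nonlinear part of the mean from the value of `R` -/
theorem mean_dev_R {μ : (V → ℤ) → ℝ} (hμ : EM μ) (hE : Ev μ) (hK : PK μ) (J w : V → ℝ) {h : ℝ}
    (hh : ∀ J, qf (Cm μ J) w ≤ h) :
    (Ex μ J (li w) - bf (Gm μ) w J) ^ 2 ≤ 2 * h * Rs μ J := by
  have h1 := slope_le_of_nonneg (f := fun s => Rs μ (J + s • w))
    (f' := fun s => Ex μ (J + s • w) (li w) - bf (Gm μ) w (J + s • w))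
    (f'' := fun s => Cv μ (J + s • w) (li w) (li w) - Cv μ 0 (li w) (li w))
    (fun s => H789.hasDerivAt_Rs hμ J w s) (fun s => H789.hasDerivAt_Rs' hμ J w s)
    (fun s => H789.Rs_nonneg hμ hE hK _) (h := h) (fun s => by
      have h2 : qf (Cm μ (J + s • w)) w = Cv μ (J + s • w) (li w) (li w) :=
        H114.bf_Cm hμ (J + s • w) w w
      have h3 := hh (J + s • w)
      rw [h2] at h3
      have h4 := H114.Cv_self_nonneg hμ 0 (Gr.li w)
      linarith)
  simpa using h1

lemma Zs_eq_exp {μ : (V → ℤ) → ℝ} (hμ : EM μ) (J : V → ℝ) :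
    Zs μ J = Zs μ 0 * Real.exp (Rs μ J + qf (Gm μ) J / 2) := by
  have h1 : Rs μ J + qf (Gm μ) J / 2 = Real.log (Zs μ J) - Real.log (Zs μ 0) := by
    unfold Rs Zs TM.H104.Lg
    ring
  rw [h1, Real.exp_sub, Real.exp_log (Zs_pos hμ J), Real.exp_log (Zs_pos hμ 0)]
  have := (Zs_pos hμ 0).ne'
  field_simp

/-- **PSET.** `R'(e) <= sup_S R - log (1 - P_e(not S))` -/
theorem pset {μ' : (V → ℤ) → ℝ} (hμ : EM μ') (P : Matrix I V ℝ) (hE : Ev (post μ' P))
    (hK : PK (post μ' P)) {b e : V → ℝ}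
    (he : e = b - Pᵀ *ᵥ (P *ᵥ (Gm (post μ' P) *ᵥ b))) {S : Set (V → ℝ)} (hS : MeasurableSet S)
    {η p : ℝ} (h : ∀ J ∈ S, Rs (post μ' P) J ≤ η) (hp : Ech μ' e P (ind Sᶜ) ≤ p) (hp1 : p < 1) :
    Rs μ' e ≤ η - Real.log (1 - p) := by
  have hpo := em_post hμ P
  set μ := post μ' P with hμd
  have hGC : GC μ := fun J u => H789.qf_mono hpo hE hK J u
  set G := Gm μ with hG
  set B : (V → ℝ) → ℝ := fun e => ∫ g : I → ℝ, Real.exp (qf G (e + Pᵀ *ᵥ g) / 2) ∂(gau I) with hB
  have hRn : ∀ J, 0 ≤ Rs μ J := H789.Rs_nonneg hpo hE hK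
  have hZ0 := Zs_pos hpo (0 : V → ℝ)
  -- integrability
  have hZi : ∀ e : V → ℝ, Integrable (fun g : I → ℝ => Zs μ (e + Pᵀ *ᵥ g)) (gau I) := fun e => by
    have := ch_int hμ e P (EGr.const (V := V) 1)
    simpa using this
  have hcq : Continuous fun J : V → ℝ => qf G J := by
    unfold qf
    fun_prop
  have hBi : ∀ e : V → ℝ, Integrable (fun g : I → ℝ => Real.exp (qf G (e + Pᵀ *ᵥ g) / 2))
      (gau I) := fun e => by
    refine ((hZi e).const_mul (Zs μ 0)⁻¹).mono' ?_ (Filter.Eventually.of_forall fun g => ?_)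
    · exact (((hcq.measurable.comp (measurable_obs e P)).div_const 2).exp).aestronglyMeasurable
    · rw [Real.norm_eq_abs, abs_of_pos (Real.exp_pos _), Zs_eq_exp hpo (e + Pᵀ *ᵥ g),
        ← mul_assoc, inv_mul_cancel₀ hZ0.ne', one_mul]
      exact Real.exp_le_exp.2 (by linarith [hRn (e + Pᵀ *ᵥ g)])
  -- lower bound at source 0
  have hlow : Zs μ 0 * B 0 ≤ Zs μ' 0 := by
    rw [← ch_norm hμ 0 P, hB, ← integral_const_mul]
    refine integral_mono ((hBi 0).const_mul _) (hZi 0) fun g => ?_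
    change Zs μ 0 * Real.exp (qf G (0 + Pᵀ *ᵥ g) / 2) ≤ Zs μ (0 + Pᵀ *ᵥ g)
    rw [Zs_eq_exp hpo (0 + Pᵀ *ᵥ g)]
    refine mul_le_mul_of_nonneg_left (Real.exp_le_exp.2 ?_) hZ0.le
    linarith [hRn (0 + Pᵀ *ᵥ g)]
  have hB0 : 0 < B 0 := by
    have h1 : ∫ _g : I → ℝ, (1 : ℝ) ∂(gau I) ≤ B 0 := by
      refine integral_mono (integrable_const _) (hBi 0) fun g => ?_
      simp only
      refine Real.one_le_exp (div_nonneg ?_ (by norm_num))
      exact H114.qf_Cm_nonneg hpo 0 _
    simp only [integral_const, probReal_univ, smul_eq_mul, mul_one] at h1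
    linarith
  -- upper bound at source e
  have hup : (1 - p) * Zs μ' e ≤ Zs μ 0 * (Real.exp η * B e) := by
    have h1 : Ech μ' e P (ind S) = 1 - Ech μ' e P (ind Sᶜ) := by
      have h2 := Ech_add hμ e P (EGr.ind hS) (EGr.ind hS.compl)
      have h3 : (fun J => ind S J + ind Sᶜ J) = fun _ => (1 : ℝ) := by
        funext J
        unfold ind
        by_cases hJ : J ∈ S
        · simp [hJ]
        · simp [hJ]
      rw [h3, Ech_const hμ] at h2
      linarith
    have h2 : (1 - p) * Zs μ' e ≤ Ech μ' e P (ind S) * Zs μ' e := by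
      rw [h1]
      exact mul_le_mul_of_nonneg_right (by linarith) (Zs_pos hμ e).le
    refine h2.trans ?_
    unfold Ech
    rw [ch_norm hμ, div_mul_cancel₀ _ (Zs_pos hμ e).ne', hB, ← integral_const_mul,
      ← integral_const_mul]
    refine integral_mono (ch_int hμ e P (EGr.ind hS)) (((hBi e).const_mul _).const_mul _)
      fun g => ?_
    change ind S (e + Pᵀ *ᵥ g) * Zs μ (e + Pᵀ *ᵥ g) ≤
      Zs μ 0 * (Real.exp η * Real.exp (qf G (e + Pᵀ *ᵥ g) / 2))
    by_cases hJ : e + Pᵀ *ᵥ g ∈ S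
    · have h4 : ind S (e + Pᵀ *ᵥ g) = 1 := by
        unfold ind
        exact Set.indicator_of_mem hJ _
      rw [h4, one_mul, Zs_eq_exp hpo (e + Pᵀ *ᵥ g), ← Real.exp_add]
      refine mul_le_mul_of_nonneg_left (Real.exp_le_exp.2 ?_) hZ0.le
      linarith [h _ hJ]
    · have h4 : ind S (e + Pᵀ *ᵥ g) = 0 := by
        unfold ind
        exact Set.indicator_of_notMem hJ _
      rw [h4, zero_mul]
      positivity
  -- the Gaussian shift
  have hshift : B e = Real.exp (bf G b e / 2) * B 0 := by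
    set a : I → ℝ := P *ᵥ (G *ᵥ b) with ha
    have h1 := gau_shift a fun g => Real.exp (qf G (e + Pᵀ *ᵥ g) / 2)
    -- B e = ∫ f (g) ; write g = g' + (-a)
    have h2 := gau_shift (-a) fun g => Real.exp (qf G (b + Pᵀ *ᵥ g) / 2)
    have hGs : Gᵀ = G := H663.Gm_symm μ
    -- e + Pᵀ g = b + Pᵀ (g - a)
    have h3 : ∀ g : I → ℝ, e + Pᵀ *ᵥ g = b + Pᵀ *ᵥ (g + -a) := by
      intro g
      rw [he, mulVec_add, mulVec_neg]
      abel
    have h4 : B e = ∫ g : I → ℝ, Real.exp (qf G (b + Pᵀ *ᵥ (g + -a)) / 2) ∂(gau I) := by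
      rw [hB]
      refine integral_congr_ae (Filter.Eventually.of_forall fun g => ?_)
      simp only
      rw [h3 g]
    rw [h4, h2, hB, ← integral_const_mul]
    refine integral_congr_ae (Filter.Eventually.of_forall fun g => ?_)
    simp only
    rw [← Real.exp_add, ← Real.exp_add]
    congr 1
    have h5 : qf G (b + Pᵀ *ᵥ g) = qf G b + 2 * bf G b (Pᵀ *ᵥ g) + qf G (Pᵀ *ᵥ g) :=
      qf_add_vec hGs b _
    have h6 : bf G b (Pᵀ *ᵥ g) = ∑ i, a i * g i := by
      rw [bf_eq, mulVec_transpose, ha]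
      have : b ⬝ᵥ G *ᵥ (g ᵥ* P) = (G *ᵥ b) ⬝ᵥ (g ᵥ* P) := by
        rw [dotProduct_mulVec, ← mulVec_transpose, hGs]
      rw [this, dotProduct_comm, ← dotProduct_mulVec, dotProduct_comm]
      rfl
    have h7 : bf G b e = qf G b - ∑ i, a i ^ 2 := by
      rw [he, bf_eq, mulVec_sub, dotProduct_sub, ← qf_eq]
      congr 1
      have : b ⬝ᵥ G *ᵥ (Pᵀ *ᵥ (P *ᵥ (G *ᵥ b))) = a ⬝ᵥ a := by
        rw [dotProduct_mulVec, ← mulVec_transpose, hGs, dotProduct_mulVec, vecMul_transpose]
      rw [this]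
      unfold dotProduct
      exact Finset.sum_congr rfl fun i _ => by ring
    rw [h5, h6, h7]
    simp only [Pi.neg_apply, neg_mul, Finset.sum_neg_distrib, zero_add]
    have h8 : ∑ i, (-a i) ^ 2 = ∑ i, a i ^ 2 := Finset.sum_congr rfl fun i _ => by ring
    rw [h8]
    ring
  -- conclusion
  have hge := Gm_ge hμ P hGC he
  have h1p : 0 < 1 - p := by linarith
  have hZe := Zs_pos hμ e
  have hZ'0 := Zs_pos hμ (0 : V → ℝ)
  have h9 : (1 - p) * Zs μ' e ≤ Real.exp (η + bf G b e / 2) * Zs μ' 0 := by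
    refine hup.trans ?_
    rw [hshift, Real.exp_add]
    have := mul_le_mul_of_nonneg_left hlow (mul_pos (Real.exp_pos η)
      (Real.exp_pos (bf G b e / 2))).le
    calc Zs μ 0 * (Real.exp η * (Real.exp (bf G b e / 2) * B 0))
        = Real.exp η * Real.exp (bf G b e / 2) * (Zs μ 0 * B 0) := by ring
      _ ≤ _ := this
  have h10 := Real.log_le_log (mul_pos h1p hZe) h9
  rw [Real.log_mul h1p.ne' hZe.ne', Real.log_mul (Real.exp_pos _).ne' hZ'0.ne',
    Real.log_exp] at h10
  have h11 : Rs μ' e = Real.log (Zs μ' e) - Real.log (Zs μ' 0) - qf (Gm μ') e / 2 := rfl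
  rw [h11]
  have h12 : bf G b e ≤ qf (Gm μ') e := hge
  linarith

/-- **AP, continuity argument.** If `R'(s e) <= 1` implies that the source of the posterior is in
`S` with probability at least `1 - p`, and `R <= η` on `S`, `η - log (1-p) <= r < 1`, then
`R'(s e) <= r` for all `s` in `[0,1]`. -/
theorem ap_boot {μ' : (V → ℤ) → ℝ} (hμ : EM μ') (P : Matrix I V ℝ)
    (hE : Ev (post μ' P)) (hK : PK (post μ' P)) {b e : V → ℝ}
    (he : e = b - Pᵀ *ᵥ (P *ᵥ (Gm (post μ' P) *ᵥ b))) {S : Set (V → ℝ)} (hS : MeasurableSet S)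
    {η p r : ℝ} (h : ∀ J ∈ S, Rs (post μ' P) J ≤ η)
    (hp : ∀ s ∈ Set.Icc (0 : ℝ) 1, Rs μ' (s • e) ≤ 1 → Ech μ' (s • e) P (ind Sᶜ) ≤ p)
    (hp1 : p < 1) (hr : η - Real.log (1 - p) ≤ r) (hr1 : r < 1) :
    ∀ s ∈ Set.Icc (0 : ℝ) 1, Rs μ' (s • e) ≤ r := by
  have hstep : ∀ s ∈ Set.Icc (0 : ℝ) 1, Rs μ' (s • e) ≤ 1 → Rs μ' (s • e) ≤ r := by
    intro s hs h1
    have he' : s • e = s • b - Pᵀ *ᵥ (P *ᵥ (Gm (post μ' P) *ᵥ (s • b))) := by
      rw [he, mulVec_smul, mulVec_smul, mulVec_smul, smul_sub]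
    exact (pset hμ P hE hK he' hS h (hp s hs h1) hp1).trans hr
  intro s hs
  by_contra hcon
  push Not at hcon
  -- the value at s exceeds 1
  have h1 : 1 < Rs μ' (s • e) := by
    by_contra h2
    exact absurd (hstep s hs (not_lt.1 h2)) (not_le.2 hcon)
  have hc : ContinuousOn (fun s : ℝ => Rs μ' (s • e)) (Set.Icc 0 s) := by
    have h3 : Continuous fun s : ℝ => Rs μ' (s • e) :=
      (H114.continuous_Rs hμ).comp (continuous_id.smul continuous_const)
    exact h3.continuousOn
  have h4 : Rs μ' ((0 : ℝ) • e) = 0 := by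
    rw [zero_smul, H789.Rs_zero]
  have h0r : 0 ≤ r := by
    have h5 := hstep 0 (Set.left_mem_Icc.2 zero_le_one) (by rw [h4]; norm_num)
    rwa [h4] at h5
  obtain ⟨s', hs', h6⟩ := intermediate_value_Icc hs.1 hc
    (show (1 : ℝ) ∈ Set.Icc (Rs μ' ((0 : ℝ) • e)) (Rs μ' (s • e)) from ⟨by rw [h4]; norm_num, h1.le⟩)
  have h7 := hstep s' ⟨hs'.1, hs'.2.trans hs.2⟩ (le_of_eq h6)
  simp only at h6
  linarith

end

end Vale.Agent.P159.H239
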