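import Vale.Agent.P159.H239.Ap1

/-!
P159 / module AP (helper239), part 2: propagation of the a-priori bound.

Good set of sources `S = {J | ∀ i, L i J ∈ C i}`, `C i` convex, symmetric, measurable
(e.g. `{v | Rs μ (q v) ≤ δ}`), `L i` = cut on the block `i`, mean removed.

The source of the posterior is `J = s e + Q h + Pᵀ g`, `Q = Pᵀ P` (joint law, `Ech_eq`):
`L i J = s L i (e + Q G' e) + L i Q (h - s G' e) + L i Pᵀ g`.
-/

namespace Vale.Agent.P159.H239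

open Finset Matrix MeasureTheory ProbabilityTheory
open Vale.Agent.P159.TM.H104 (EM Ex Cv K3 Lg li nh Gr)
open Vale.Agent.P159.H37
open Vale.Agent.P159.H663 (GC ind EGr.ind ind_nonneg ind_le_one Gm_ge)

noncomputable section

variable {V : Type*} [Fintype V] {I : Type*} [Fintype I] {W : Type*} [Fintype W]

/-- indicator of a set of integer fields -/
def indh (A : Set (V → ℤ)) (h : V → ℤ) : ℝ := A.indicator (fun _ => 1) h

omit [Fintype V] in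
lemma indh_nonneg (A : Set (V → ℤ)) (h : V → ℤ) : 0 ≤ indh A h :=
  Set.indicator_nonneg (fun _ _ => zero_le_one) h

omit [Fintype V] in
lemma indh_le_one (A : Set (V → ℤ)) (h : V → ℤ) : indh A h ≤ 1 :=
  Set.indicator_le_self' (fun _ _ => zero_le_one) h

omit [Fintype V] in
lemma indh_of_mem {A : Set (V → ℤ)} {h : V → ℤ} (hh : h ∈ A) : indh A h = 1 :=
  Set.indicator_of_mem hh _

lemma Gr.indh (A : Set (V → ℤ)) : Gr (indh A) :=
  TM.H104.Gr.of_bdd (C := 1) fun h => by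
    rw [abs_of_nonneg (indh_nonneg A h)]
    exact indh_le_one A h

lemma Gr_sum_fin {ι : Type*} (t : Finset ι) {F : ι → (V → ℤ) → ℝ} (hF : ∀ i, Gr (F i)) :
    Gr fun h => ∑ i ∈ t, F i h := by
  classical
  induction t using Finset.induction_on with
  | empty => simpa using Gr.const (V := V) 0
  | insert i t hi ih =>
    simp only [Finset.sum_insert hi]
    exact (hF i).add ih

lemma Ex_sum_fin {μ : (V → ℤ) → ℝ} (hμ : EM μ) {ι : Type*} (t : Finset ι)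
    {F : ι → (V → ℤ) → ℝ} (hF : ∀ i, Gr (F i)) (J : V → ℝ) :
    Ex μ J (fun h => ∑ i ∈ t, F i h) = ∑ i ∈ t, Ex μ J (F i) := by
  classical
  induction t using Finset.induction_on with
  | empty =>
    simp only [Finset.sum_empty]
    exact TM.H104.Ex_const hμ 0 J
  | insert i t hi ih =>
    simp only [Finset.sum_insert hi]
    rw [TM.H104.Ex_add hμ (hF i) (Gr_sum_fin t hF), ih]

/-- the good set -/
def good {ι : Type*} (L : ι → Matrix W V ℝ) (C : ι → Set (W → ℝ)) : Set (V → ℝ) :=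
  {J | ∀ i, L i *ᵥ J ∈ C i}

lemma measurableSet_good {ι : Type*} [Fintype ι] (L : ι → Matrix W V ℝ) (C : ι → Set (W → ℝ))
    (hC : ∀ i, MeasurableSet (C i)) : MeasurableSet (good L C) := by
  have e : good L C = ⋂ i, (fun J : V → ℝ => L i *ᵥ J) ⁻¹' C i := by
    ext J
    simp [good]
  rw [e]
  refine MeasurableSet.iInter fun i => ?_
  have hm : Measurable fun J : V → ℝ => L i *ᵥ J := by
    have : Continuous fun J : V → ℝ => L i *ᵥ J := by fun_prop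
    exact this.measurable
  exact hm (hC i)

omit [Fintype W] in
/-- average of three points of a convex set -/
lemma three_mem {C : Set (W → ℝ)} (hC : Convex ℝ C) {x y z : W → ℝ}
    (hx : (3 : ℝ) • x ∈ C) (hy : (3 : ℝ) • y ∈ C) (hz : (3 : ℝ) • z ∈ C) : x + y + z ∈ C := by
  have h1 := hC hx hy (show (0 : ℝ) ≤ 1 / 2 by norm_num) (show (0 : ℝ) ≤ 1 / 2 by norm_num)
    (by norm_num)
  have h2 := hC h1 hz (show (0 : ℝ) ≤ 2 / 3 by norm_num) (show (0 : ℝ) ≤ 1 / 3 by norm_num)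
    (by norm_num)
  have e : (2 / 3 : ℝ) • ((1 / 2 : ℝ) • (3 : ℝ) • x + (1 / 2 : ℝ) • (3 : ℝ) • y) +
      (1 / 3 : ℝ) • (3 : ℝ) • z = x + y + z := by module
  rwa [e] at h2

/-- **splitting of the exact law**: the source of the posterior is in the good set except with
probability `∑ (π i + ν i)` -/
theorem tail_split {μ' : (V → ℤ) → ℝ} (hμ : EM μ') (J₁ : V → ℝ) (P : Matrix I V ℝ)
    {ι : Type*} [Fintype ι] (L : ι → Matrix W V ℝ) (C : ι → Set (W → ℝ))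
    (hCm : ∀ i, MeasurableSet (C i)) (hC : ∀ i, Convex ℝ (C i)) (m0 : V → ℝ)
    (ha : ∀ i, (3 : ℝ) • (L i *ᵥ (J₁ + Pᵀ *ᵥ (P *ᵥ m0))) ∈ C i) {π ν : ι → ℝ}
    (hπ : ∀ i, Ex μ' J₁ (indh {h | (3 : ℝ) • (L i *ᵥ (Pᵀ *ᵥ (P *ᵥ (re h - m0)))) ∉ C i}) ≤ π i)
    (hν : ∀ i, ∫ g : I → ℝ, Set.indicator {g : I → ℝ | (3 : ℝ) • (L i *ᵥ (Pᵀ *ᵥ g)) ∉ C i}
      (fun _ => (1 : ℝ)) g ∂(gau I) ≤ ν i) :
    Ech μ' J₁ P (ind (good L C)ᶜ) ≤ ∑ i, (π i + ν i) := by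
  classical
  rw [Ech_eq hμ J₁ P (EGr.ind (measurableSet_good L C hCm).compl)]
  set A : ι → Set (V → ℤ) := fun i =>
    {h | (3 : ℝ) • (L i *ᵥ (Pᵀ *ᵥ (P *ᵥ (re h - m0)))) ∉ C i} with hA
  set B : ι → Set (I → ℝ) := fun i => {g : I → ℝ | (3 : ℝ) • (L i *ᵥ (Pᵀ *ᵥ g)) ∉ C i} with hB
  have hBm : ∀ i, MeasurableSet (B i) := by
    intro i
    have hm : Measurable fun g : I → ℝ => (3 : ℝ) • (L i *ᵥ (Pᵀ *ᵥ g)) := by
      have : Continuous fun g : I → ℝ => (3 : ℝ) • (L i *ᵥ (Pᵀ *ᵥ g)) := by fun_prop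
      exact this.measurable
    exact hm (hCm i).compl
  have hBi : ∀ i, Integrable (fun g : I → ℝ => Set.indicator (B i) (fun _ => (1 : ℝ)) g) (gau I) :=
    fun i => (integrable_const (1 : ℝ)).indicator (hBm i)
  -- pointwise in h
  have hpt : ∀ h : V → ℤ, ∫ g : I → ℝ, ind (good L C)ᶜ (J₁ + Pᵀ *ᵥ (P *ᵥ re h + g)) ∂(gau I) ≤
      ∑ i, (indh (A i) h + ν i) := by
    intro h
    have h1 : ∀ g : I → ℝ, ind (good L C)ᶜ (J₁ + Pᵀ *ᵥ (P *ᵥ re h + g)) ≤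
        ∑ i, (indh (A i) h + Set.indicator (B i) (fun _ => (1 : ℝ)) g) := by
      intro g
      by_cases hJ : J₁ + Pᵀ *ᵥ (P *ᵥ re h + g) ∈ (good L C)ᶜ
      · have h2 : ∃ i, L i *ᵥ (J₁ + Pᵀ *ᵥ (P *ᵥ re h + g)) ∉ C i := by
          by_contra hcon
          push Not at hcon
          exact hJ hcon
        obtain ⟨i, hi⟩ := h2
        have h3 : L i *ᵥ (J₁ + Pᵀ *ᵥ (P *ᵥ re h + g)) =
            L i *ᵥ (J₁ + Pᵀ *ᵥ (P *ᵥ m0)) + L i *ᵥ (Pᵀ *ᵥ (P *ᵥ (re h - m0))) +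
              L i *ᵥ (Pᵀ *ᵥ g) := by
          rw [← mulVec_add, ← mulVec_add]
          congr 1
          rw [mulVec_sub, mulVec_sub, mulVec_add]
          abel
        have h4 : h ∈ A i ∨ g ∈ B i := by
          by_contra hcon
          push Not at hcon
          obtain ⟨c1, c2⟩ := hcon
          have c1' : (3 : ℝ) • (L i *ᵥ (Pᵀ *ᵥ (P *ᵥ (re h - m0)))) ∈ C i := by
            by_contra hc
            exact c1 hc
          have c2' : (3 : ℝ) • (L i *ᵥ (Pᵀ *ᵥ g)) ∈ C i := by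
            by_contra hc
            exact c2 hc
          have := three_mem (hC i) (ha i) c1' c2'
          rw [← h3] at this
          exact hi this
        have h5 : ind (good L C)ᶜ (J₁ + Pᵀ *ᵥ (P *ᵥ re h + g)) = 1 := by
          unfold ind
          exact Set.indicator_of_mem hJ _
        rw [h5]
        have h6 : (1 : ℝ) ≤ indh (A i) h + Set.indicator (B i) (fun _ => (1 : ℝ)) g := by
          rcases h4 with h4 | h4
          · rw [indh_of_mem h4]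
            have : (0 : ℝ) ≤ Set.indicator (B i) (fun _ => (1 : ℝ)) g :=
              Set.indicator_nonneg (fun _ _ => zero_le_one) g
            linarith
          · rw [Set.indicator_of_mem h4]
            linarith [indh_nonneg (A i) h]
        refine h6.trans (Finset.single_le_sum (f := fun i =>
          indh (A i) h + Set.indicator (B i) (fun _ => (1 : ℝ)) g) (fun j _ => ?_)
          (Finset.mem_univ i))
        exact add_nonneg (indh_nonneg _ _) (Set.indicator_nonneg (fun _ _ => zero_le_one) g)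
      · have h5 : ind (good L C)ᶜ (J₁ + Pᵀ *ᵥ (P *ᵥ re h + g)) = 0 := by
          unfold ind
          exact Set.indicator_of_notMem hJ _
        rw [h5]
        exact Finset.sum_nonneg fun j _ => add_nonneg (indh_nonneg _ _)
          (Set.indicator_nonneg (fun _ _ => zero_le_one) g)
    have i1 : Integrable (fun g : I → ℝ => ∑ i, (indh (A i) h +
        Set.indicator (B i) (fun _ => (1 : ℝ)) g)) (gau I) :=
      integrable_finsetSum _ fun i _ => (integrable_const _).add (hBi i)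
    have i0 : Integrable (fun g : I → ℝ => ind (good L C)ᶜ (J₁ + Pᵀ *ᵥ (P *ᵥ re h + g)))
        (gau I) := by
      have hm : Measurable fun g : I → ℝ => J₁ + Pᵀ *ᵥ (P *ᵥ re h + g) := by
        have : Continuous fun g : I → ℝ => J₁ + Pᵀ *ᵥ (P *ᵥ re h + g) := by fun_prop
        exact this.measurable
      refine (integrable_const (1 : ℝ)).mono'
        (((EGr.ind (measurableSet_good L C hCm).compl).meas.comp hm).aestronglyMeasurable)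
        (Filter.Eventually.of_forall fun g => ?_)
      rw [Real.norm_eq_abs, abs_of_nonneg (ind_nonneg _ _)]
      exact ind_le_one _ _
    refine (integral_mono i0 i1 h1).trans ?_
    have e5 : ∫ g : I → ℝ, ∑ i, (indh (A i) h + Set.indicator (B i) (fun _ => (1 : ℝ)) g)
        ∂(gau I) = ∑ i, ∫ g : I → ℝ, (indh (A i) h +
          Set.indicator (B i) (fun _ => (1 : ℝ)) g) ∂(gau I) :=
      integral_finsetSum _ fun i _ => (integrable_const _).add (hBi i)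
    rw [e5]
    refine Finset.sum_le_sum fun i _ => ?_
    rw [integral_add (integrable_const _) (hBi i), integral_const, probReal_univ, smul_eq_mul,
      one_mul]
    linarith [hν i]
  have gL : Gr fun h : V → ℤ => ∫ g : I → ℝ, ind (good L C)ᶜ (J₁ + Pᵀ *ᵥ (P *ᵥ re h + g))
      ∂(gau I) := by
    refine TM.H104.Gr.of_bdd (C := 1) fun h => ?_
    rw [abs_of_nonneg (integral_nonneg fun g => ind_nonneg _ _)]
    have : ∫ g : I → ℝ, ind (good L C)ᶜ (J₁ + Pᵀ *ᵥ (P *ᵥ re h + g)) ∂(gau I) ≤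
        ∫ _g : I → ℝ, (1 : ℝ) ∂(gau I) := by
      have hm : Measurable fun g : I → ℝ => J₁ + Pᵀ *ᵥ (P *ᵥ re h + g) := by
        have : Continuous fun g : I → ℝ => J₁ + Pᵀ *ᵥ (P *ᵥ re h + g) := by fun_prop
        exact this.measurable
      refine integral_mono ((integrable_const (1 : ℝ)).mono'
        (((EGr.ind (measurableSet_good L C hCm).compl).meas.comp hm).aestronglyMeasurable)
        (Filter.Eventually.of_forall fun g => ?_)) (integrable_const _) fun g => ind_le_one _ _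
      rw [Real.norm_eq_abs, abs_of_nonneg (ind_nonneg _ _)]
      exact ind_le_one _ _
    simpa using this
  have gR : ∀ i, Gr fun h : V → ℤ => indh (A i) h + ν i := fun i =>
    (Gr.indh (A i)).add (Gr.const _)
  refine (TM.H104.Ex_mono hμ gL (Gr_sum_fin univ gR) hpt J₁).trans ?_
  rw [Ex_sum_fin hμ univ gR]
  refine Finset.sum_le_sum fun i _ => ?_
  rw [TM.H104.Ex_add hμ (Gr.indh (A i)) (Gr.const _), TM.H104.Ex_const hμ]
  linarith [hπ i]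

/-- squares of a sum -/
lemma sum_sq_add_le (x y : W → ℝ) :
    ∑ w, (x w + y w) ^ 2 ≤ 2 * ∑ w, x w ^ 2 + 2 * ∑ w, y w ^ 2 := by
  rw [Finset.mul_sum, Finset.mul_sum, ← Finset.sum_add_distrib]
  refine Finset.sum_le_sum fun w _ => ?_
  nlinarith [sq_nonneg (x w - y w)]

/-- row of `A` as a source -/
def row (A : Matrix W V ℝ) (w : W) : V → ℝ := fun x => A w x

omit [Fintype W] in
lemma mulVec_re (A : Matrix W V ℝ) (h : V → ℤ) (w : W) : (A *ᵥ re h) w = li (row A w) h := rfl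

/-- the mean part of the field in the good set -/
lemma mean_part {μ' : (V → ℤ) → ℝ} (hμ : EM μ') (hE' : Ev μ') (hK' : PK μ') (A : Matrix W V ℝ)
    (J : V → ℝ) {hv : W → ℝ} (hh : ∀ w J, qf (Cm μ' J) (row A w) ≤ hv w) (hR : Rs μ' J ≤ 1) :
    ∑ w, ((A *ᵥ (mn μ' J - Gm μ' *ᵥ J)) w) ^ 2 ≤ 2 * ∑ w, hv w := by
  rw [Finset.mul_sum]
  refine Finset.sum_le_sum fun w _ => ?_
  have h1 := mean_dev_R hμ hE' hK' J (row A w) (hh w)
  have h2 : (A *ᵥ (mn μ' J - Gm μ' *ᵥ J)) w =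
      Ex μ' J (li (row A w)) - bf (Gm μ') (row A w) J := by
    have e1 : (A *ᵥ (mn μ' J - Gm μ' *ᵥ J)) w =
        ∑ x, A w x * mn μ' J x - ∑ x, A w x * (Gm μ' *ᵥ J) x := by
      rw [← Finset.sum_sub_distrib]
      unfold mulVec dotProduct
      refine Finset.sum_congr rfl fun x _ => ?_
      simp only [Pi.sub_apply]
      ring
    have e2 : Ex μ' J (li (row A w)) = ∑ x, A w x * mn μ' J x := by
      have e3 : li (row A w) = fun h : V → ℤ => ∑ x, A w x * (h x : ℝ) := by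
        funext h
        rfl
      rw [e3, Ex_sum_fin hμ univ (fun x => (H114.Gr.co x).cmul _)]
      refine Finset.sum_congr rfl fun x _ => ?_
      rw [TM.H104.Ex_cmul]
      rfl
    have e4 : bf (Gm μ') (row A w) J = ∑ x, A w x * (Gm μ' *ᵥ J) x := by
      rw [bf_eq]
      rfl
    rw [e1, e2, e4]
  rw [h2]
  refine h1.trans ?_
  have h3 : 0 ≤ hv w := (H114.qf_Cm_nonneg hμ 0 (row A w)).trans (hh w 0)
  nlinarith

/-- `L J` is the mean part plus the fluctuation: both small imply `L Q (h - s G' e)` small -/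
lemma fluct_le {μ' : (V → ℤ) → ℝ} (hμ : EM μ') (hE' : Ev μ') (hK' : PK μ') (A : Matrix W V ℝ)
    (J : V → ℝ) {hv : W → ℝ} (hh : ∀ w J, qf (Cm μ' J) (row A w) ≤ hv w) (hR : Rs μ' J ≤ 1)
    {ρ : ℝ} (hρ : 2 * ∑ w, hv w ≤ ρ / 4) {h : V → ℤ}
    (hf : ∑ w, ((A *ᵥ (re h - mn μ' J)) w) ^ 2 ≤ ρ / 4) :
    ∑ w, ((A *ᵥ (re h - Gm μ' *ᵥ J)) w) ^ 2 ≤ ρ := by
  have h1 := mean_part hμ hE' hK' A J hh hR
  have h2 : A *ᵥ (re h - Gm μ' *ᵥ J) =
      A *ᵥ (re h - mn μ' J) + A *ᵥ (mn μ' J - Gm μ' *ᵥ J) := by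
    rw [← mulVec_add]
    congr 1
    abel
  rw [h2]
  have h3 := sum_sq_add_le (A *ᵥ (re h - mn μ' J)) (A *ᵥ (mn μ' J - Gm μ' *ᵥ J))
  have h4 : ∑ w, ((A *ᵥ (re h - mn μ' J) + A *ᵥ (mn μ' J - Gm μ' *ᵥ J)) w) ^ 2 =
      ∑ w, ((A *ᵥ (re h - mn μ' J)) w + (A *ᵥ (mn μ' J - Gm μ' *ᵥ J)) w) ^ 2 := rfl
  rw [h4]
  linarith

/-- **AP, one step of the propagation.** `S = good L C` is a good set of the posterior on which
`Rs ≤ η`. The prior source is `e`. Hypotheses: (a) the linear mean `L i (e + Q G' e)` is in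
`C i / 3`; (b) the ball of radius `√(ρ i)` of `range (L i Q)` is in `C i / 3`; (c) the fluctuations
of the field: trace `≤ ρ i / 8` in every source, tail `≤ π i`; (d) the noise `L i Pᵀ g` is in
`C i / 3` except with probability `ν i`. Conclusion: `Rs μ' (s e) ≤ r` for all `s ∈ [0,1]`. -/
theorem ap_step {μ' : (V → ℤ) → ℝ} (hμ : EM μ') (hE' : Ev μ') (hK' : PK μ') (P : Matrix I V ℝ)
    (hE : Ev (post μ' P)) (hK : PK (post μ' P)) {b e : V → ℝ}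
    (he : e = b - Pᵀ *ᵥ (P *ᵥ (Gm (post μ' P) *ᵥ b)))
    {ι : Type*} [Fintype ι] (L : ι → Matrix W V ℝ) (C : ι → Set (W → ℝ))
    (hCm : ∀ i, MeasurableSet (C i)) (hC : ∀ i, Convex ℝ (C i)) (hC0 : ∀ i, (0 : W → ℝ) ∈ C i)
    {η : ℝ} (hη : ∀ J ∈ good L C, Rs (post μ' P) J ≤ η)
    (ha : ∀ i, (3 : ℝ) • (L i *ᵥ (e + Pᵀ *ᵥ (P *ᵥ (Gm μ' *ᵥ e)))) ∈ C i)
    {ρ : ι → ℝ} (hb : ∀ i v, ∑ w, ((L i *ᵥ (Pᵀ *ᵥ (P *ᵥ v))) w) ^ 2 ≤ ρ i →
      (3 : ℝ) • (L i *ᵥ (Pᵀ *ᵥ (P *ᵥ v))) ∈ C i)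
    {hv : ι → W → ℝ} (hh : ∀ i w J, qf (Cm μ' J) (row (L i * (Pᵀ * P)) w) ≤ hv i w)
    (htr : ∀ i, 2 * ∑ w, hv i w ≤ ρ i / 4) {π ν : ι → ℝ}
    (hπ : ∀ i, ∀ s ∈ Set.Icc (0 : ℝ) 1, Ex μ' (s • e) (indh {h | ρ i / 4 <
      ∑ w, ((L i *ᵥ (Pᵀ *ᵥ (P *ᵥ (re h - mn μ' (s • e))))) w) ^ 2}) ≤ π i)
    (hν : ∀ i, ∫ g : I → ℝ, Set.indicator {g : I → ℝ | (3 : ℝ) • (L i *ᵥ (Pᵀ *ᵥ g)) ∉ C i}
      (fun _ => (1 : ℝ)) g ∂(gau I) ≤ ν i)
    {p r : ℝ} (hp : ∑ i, (π i + ν i) ≤ p) (hp1 : p < 1) (hr : η - Real.log (1 - p) ≤ r)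
    (hr1 : r < 1) : ∀ s ∈ Set.Icc (0 : ℝ) 1, Rs μ' (s • e) ≤ r := by
  refine ap_boot hμ P hE hK he (measurableSet_good L C hCm) hη ?_ hp1 hr hr1
  intro s hs hR
  refine (tail_split hμ (s • e) P L C hCm hC (Gm μ' *ᵥ (s • e)) ?_ (π := π) (ν := ν) ?_ hν).trans hp
  · intro i
    have h1 : (3 : ℝ) • (L i *ᵥ (s • e + Pᵀ *ᵥ (P *ᵥ (Gm μ' *ᵥ (s • e))))) =
        s • ((3 : ℝ) • (L i *ᵥ (e + Pᵀ *ᵥ (P *ᵥ (Gm μ' *ᵥ e))))) + (1 - s) • (0 : W → ℝ) := by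
      rw [mulVec_smul, mulVec_smul, mulVec_smul, ← smul_add, mulVec_smul, smul_comm, smul_zero,
        add_zero]
    rw [h1]
    exact hC i (ha i) (hC0 i) hs.1 (sub_nonneg.2 hs.2) (by ring)
  · intro i
    have hmul : ∀ v : V → ℝ, L i *ᵥ (Pᵀ *ᵥ (P *ᵥ v)) = (L i * (Pᵀ * P)) *ᵥ v := by
      intro v
      rw [mulVec_mulVec, mulVec_mulVec, Matrix.mul_assoc]
    refine (TM.H104.Ex_mono hμ (Gr.indh _) (Gr.indh _) (fun h => ?_) (s • e)).trans (hπ i s hs)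
    by_cases hh1 : h ∈ {h : V → ℤ | ρ i / 4 <
      ∑ w, ((L i *ᵥ (Pᵀ *ᵥ (P *ᵥ (re h - mn μ' (s • e))))) w) ^ 2}
    · rw [indh_of_mem hh1]
      exact indh_le_one _ _
    · have h2 : ∑ w, ((L i *ᵥ (Pᵀ *ᵥ (P *ᵥ (re h - mn μ' (s • e))))) w) ^ 2 ≤ ρ i / 4 :=
        not_lt.1 hh1
      have h3 := fluct_le hμ hE' hK' (L i * (Pᵀ * P)) (s • e) (hh i) hR (htr i) (h := h) (by
        rw [← hmul]
        exact h2)
      rw [← hmul] at h3
      have h4 := hb i _ h3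
      have h5 : indh {h : V → ℤ | (3 : ℝ) • (L i *ᵥ (Pᵀ *ᵥ (P *ᵥ
          (re h - Gm μ' *ᵥ (s • e))))) ∉ C i} h = 0 := by
        refine Set.indicator_of_notMem ?_ _
        exact fun hc => hc h4
      rw [h5]
      exact indh_nonneg _ _

/-- **AP, one step, general form** (the tail of the field is a hypothesis, any reference mean `m0`):
`R ≤ η` on the good set, `3 L i (e + Q m0) ∈ C i`, `P_{s e}(3 L i Q (h - s m0) ∉ C i) ≤ π i` as long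
as `R'(s e) ≤ 1`, noise `≤ ν i` -/
theorem ap_gen {μ' : (V → ℤ) → ℝ} (hμ : EM μ') (P : Matrix I V ℝ)
    (hE : Ev (post μ' P)) (hK : PK (post μ' P)) {b e : V → ℝ}
    (he : e = b - Pᵀ *ᵥ (P *ᵥ (Gm (post μ' P) *ᵥ b)))
    {ι : Type*} [Fintype ι] (L : ι → Matrix W V ℝ) (C : ι → Set (W → ℝ))
    (hCm : ∀ i, MeasurableSet (C i)) (hC : ∀ i, Convex ℝ (C i)) (hC0 : ∀ i, (0 : W → ℝ) ∈ C i)
    {η : ℝ} (hη : ∀ J ∈ good L C, Rs (post μ' P) J ≤ η) (m0 : V → ℝ)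
    (ha : ∀ i, (3 : ℝ) • (L i *ᵥ (e + Pᵀ *ᵥ (P *ᵥ m0))) ∈ C i) {π ν : ι → ℝ}
    (hπ : ∀ i, ∀ s ∈ Set.Icc (0 : ℝ) 1, Rs μ' (s • e) ≤ 1 → Ex μ' (s • e)
      (indh {h | (3 : ℝ) • (L i *ᵥ (Pᵀ *ᵥ (P *ᵥ (re h - s • m0)))) ∉ C i}) ≤ π i)
    (hν : ∀ i, ∫ g : I → ℝ, Set.indicator {g : I → ℝ | (3 : ℝ) • (L i *ᵥ (Pᵀ *ᵥ g)) ∉ C i}
      (fun _ => (1 : ℝ)) g ∂(gau I) ≤ ν i)
    {p r : ℝ} (hp : ∑ i, (π i + ν i) ≤ p) (hp1 : p < 1) (hr : η - Real.log (1 - p) ≤ r)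
    (hr1 : r < 1) : ∀ s ∈ Set.Icc (0 : ℝ) 1, Rs μ' (s • e) ≤ r := by
  refine ap_boot hμ P hE hK he (measurableSet_good L C hCm) hη ?_ hp1 hr hr1
  intro s hs hR
  refine (tail_split hμ (s • e) P L C hCm hC (s • m0) ?_ (π := π) (ν := ν)
    (fun i => hπ i s hs hR) hν).trans hp
  intro i
  have h1 : (3 : ℝ) • (L i *ᵥ (s • e + Pᵀ *ᵥ (P *ᵥ (s • m0)))) =
      s • ((3 : ℝ) • (L i *ᵥ (e + Pᵀ *ᵥ (P *ᵥ m0)))) + (1 - s) • (0 : W → ℝ) := by
    rw [mulVec_smul, mulVec_smul, ← smul_add, mulVec_smul, smul_comm, smul_zero, add_zero]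
  rw [h1]
  exact hC i (ha i) (hC0 i) hs.1 (sub_nonneg.2 hs.2) (by ring)

/-- solving `e = b - Q G b` -/
lemma exists_lin {G : Matrix V V ℝ} (P : Matrix I V ℝ) {θ : ℝ} (hθ : θ < 1)
    (hG : Gᵀ = G) (h : ∀ g : I → ℝ, qf G (Pᵀ *ᵥ g) ≤ θ * ∑ i, g i ^ 2) (e : V → ℝ) :
    ∃ b : V → ℝ, e = b - Pᵀ *ᵥ (P *ᵥ (G *ᵥ b)) := by
  classical
  set A : Matrix I I ℝ := 1 - P * G * Pᵀ with hA
  have hAs : Aᵀ = A := by
    rw [hA, transpose_sub, transpose_one, transpose_mul, transpose_mul, transpose_transpose, hG,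
      Matrix.mul_assoc]
  have hinj : Function.Injective fun g : I → ℝ => A *ᵥ g := by
    intro g g' hgg
    have h1 : A *ᵥ (g - g') = 0 := by
      rw [mulVec_sub]
      exact sub_eq_zero.2 hgg
    set u := g - g' with hu
    have h2 : u ⬝ᵥ (A *ᵥ u) = 0 := by rw [h1, dotProduct_zero]
    have h3 : u ⬝ᵥ (A *ᵥ u) = ∑ i, u i ^ 2 - qf G (Pᵀ *ᵥ u) := by
      rw [hA, sub_mulVec, one_mulVec, dotProduct_sub, qf_eq]
      congr 1
      · unfold dotProduct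
        exact Finset.sum_congr rfl fun i _ => by ring
      · rw [← mulVec_mulVec, ← mulVec_mulVec, dotProduct_mulVec, mulVec_transpose]
    have h4 := h u
    have h5 : 0 ≤ ∑ i, u i ^ 2 := Finset.sum_nonneg fun i _ => sq_nonneg _
    have h6 : ∑ i, u i ^ 2 = 0 := by nlinarith
    have h7 : u = 0 := by
      funext i
      have := (Finset.sum_eq_zero_iff_of_nonneg fun i _ => sq_nonneg (u i)).1 h6 i
        (Finset.mem_univ i)
      simpa using this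
    exact sub_eq_zero.1 (hu ▸ h7)
  have hunit : IsUnit A := Matrix.mulVec_injective_iff_isUnit.1 hinj
  have hdet : IsUnit A.det := (Matrix.isUnit_iff_isUnit_det A).1 hunit
  refine ⟨e + Pᵀ *ᵥ (A⁻¹ *ᵥ (P *ᵥ (G *ᵥ e))), ?_⟩
  set v := P *ᵥ (G *ᵥ e) with hv
  have h1 : A *ᵥ (A⁻¹ *ᵥ v) = v := by
    rw [mulVec_mulVec, Matrix.mul_nonsing_inv _ hdet, one_mulVec]
  have h2 : A *ᵥ (A⁻¹ *ᵥ v) = A⁻¹ *ᵥ v - P *ᵥ (G *ᵥ (Pᵀ *ᵥ (A⁻¹ *ᵥ v))) := by
    conv_lhs => rw [hA]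
    rw [sub_mulVec, one_mulVec, ← mulVec_mulVec, ← mulVec_mulVec]
  have h3 : P *ᵥ (G *ᵥ (Pᵀ *ᵥ (A⁻¹ *ᵥ v))) = A⁻¹ *ᵥ v - v := by
    rw [h1] at h2
    have h4 := sub_eq_iff_eq_add.1 h2.symm
    have h6 : P *ᵥ (G *ᵥ (Pᵀ *ᵥ (A⁻¹ *ᵥ v))) + v = A⁻¹ *ᵥ v := by
      rw [add_comm]
      exact h4.symm
    exact eq_sub_of_add_eq h6
  rw [mulVec_add, mulVec_add, h3, ← hv, mulVec_add, mulVec_sub]
  abel

/-- source `0`: probability of the bad set under the exact law of every prior -/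
theorem ap_zero {μ' : (V → ℤ) → ℝ} (hμ : EM μ') (P : Matrix I V ℝ)
    {ι : Type*} [Fintype ι] (L : ι → Matrix W V ℝ) (C : ι → Set (W → ℝ))
    (hCm : ∀ i, MeasurableSet (C i)) (hC : ∀ i, Convex ℝ (C i)) (hC0 : ∀ i, (0 : W → ℝ) ∈ C i)
    {ρ : ι → ℝ} (hb : ∀ i v, ∑ w, ((L i *ᵥ (Pᵀ *ᵥ (P *ᵥ v))) w) ^ 2 ≤ ρ i →
      (3 : ℝ) • (L i *ᵥ (Pᵀ *ᵥ (P *ᵥ v))) ∈ C i)
    {π ν : ι → ℝ}
    (hπ : ∀ i, Ex μ' 0 (indh {h | ρ i < ∑ w, ((L i *ᵥ (Pᵀ *ᵥ (P *ᵥ re h))) w) ^ 2}) ≤ π i)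
    (hν : ∀ i, ∫ g : I → ℝ, Set.indicator {g : I → ℝ | (3 : ℝ) • (L i *ᵥ (Pᵀ *ᵥ g)) ∉ C i}
      (fun _ => (1 : ℝ)) g ∂(gau I) ≤ ν i) :
    Ech μ' 0 P (ind (good L C)ᶜ) ≤ ∑ i, (π i + ν i) := by
  refine tail_split hμ 0 P L C hCm hC 0 ?_ (π := π) (ν := ν) ?_ hν
  · intro i
    simp only [mulVec_zero, add_zero, smul_zero]
    exact hC0 i
  · intro i
    refine (TM.H104.Ex_mono hμ (Gr.indh _) (Gr.indh _) (fun h => ?_) 0).trans (hπ i)
    by_cases hh1 : h ∈ {h : V → ℤ | ρ i < ∑ w, ((L i *ᵥ (Pᵀ *ᵥ (P *ᵥ re h))) w) ^ 2}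
    · rw [indh_of_mem hh1]
      exact indh_le_one _ _
    · have h2 : ∑ w, ((L i *ᵥ (Pᵀ *ᵥ (P *ᵥ re h))) w) ^ 2 ≤ ρ i := not_lt.1 hh1
      have h4 := hb i _ h2
      have h5 : indh {h : V → ℤ | (3 : ℝ) • (L i *ᵥ (Pᵀ *ᵥ (P *ᵥ (re h - 0)))) ∉ C i} h = 0 := by
        refine Set.indicator_of_notMem ?_ _
        intro hc
        have hc' : (3 : ℝ) • (L i *ᵥ (Pᵀ *ᵥ (P *ᵥ (re h - 0)))) ∉ C i := hc
        rw [sub_zero] at hc'
        exact hc' h4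
      rw [h5]
      exact indh_nonneg _ _

end

end Vale.Agent.P159.H239
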