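import Vale.Agent.P159.H239.Ap2
import Vale.Agent.P159.H447.Cg1
import Vale.Agent.P159.H730.Law
import Vale.Agent.P159.H640.Dt3
import Vale.Agent.P159.H663.PSet

/-!
P159 / module AP (helper239), part 4: the a-priori bound and the closure under the EXACT law of the
source, at a source `e` of the prior.

* `src_law` : `Ech μ' e P Φ = E[Φ e^R](b + X g) / E[e^R](b + X g)`, `e = b - Q G b`;
* `ap4` : one step of AP with closure: `R'(s e) ≤ cl n (8 λ D) + 2 p'` and the source of the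
  posterior is in `Gs μ n (λ D)` except with probability `p'`.
-/

namespace Vale.Agent.P159.H239

open Finset Matrix MeasureTheory ProbabilityTheory
open Vale.Agent.P159.TM.H104 (EM Ex Cv K3 Lg li nh Gr)
open Vale.Agent.P159.H37
open Vale.Agent.P159.H663 (GC ind EGr.ind ind_nonneg ind_le_one Gm_ge)
open Vale.Agent.P159.H730 (RL)
open Vale.Agent.P159.H447 (K4S Gs cl K4S_cs K4S_rank K4_diag_nonneg K4_meas K4_tail_exp K4_smul4
  cl_mono cl_nonneg)

noncomputable section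

variable {V : Type*} [Fintype V] {I I' : Type*} [Fintype I] [Fintype I'] {W : Type*} [Fintype W]

/-! ### the exact law at a source -/

section src

variable [DecidableEq I] {μ' : (V → ℤ) → ℝ} {P : Matrix I V ℝ} {X : Matrix V I' ℝ}

omit [DecidableEq I] in
/-- shift of the quadratic weight -/
lemma quad_shift {G : Matrix V V ℝ} (hG : Gᵀ = G) (P : Matrix I V ℝ) {b e : V → ℝ}
    (he : e = b - Pᵀ *ᵥ (P *ᵥ (G *ᵥ b))) (F : (V → ℝ) → ℝ) :
    ∫ g, F (e + Pᵀ *ᵥ g) * Real.exp (qf G (e + Pᵀ *ᵥ g) / 2) ∂(gau I) =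
      Real.exp (bf G b e / 2) * ∫ g, F (b + Pᵀ *ᵥ g) * Real.exp (qf G (Pᵀ *ᵥ g) / 2)
        ∂(gau I) := by
  set w : I → ℝ := P *ᵥ (G *ᵥ b) with hw
  have hww : bf G b (Pᵀ *ᵥ w) = ∑ i, w i ^ 2 := by
    rw [H663.bf_obs hG, ← hw]
    exact Finset.sum_congr rfl fun i _ => (pow_two _).symm
  have e1 : ∀ g : I → ℝ, F (e + Pᵀ *ᵥ g) * Real.exp (qf G (e + Pᵀ *ᵥ g) / 2) =
      Real.exp (∑ i, w i * g i) * (F (e + Pᵀ *ᵥ g) * (Real.exp (qf G e / 2) *
        Real.exp (-bf G (Pᵀ *ᵥ w) (Pᵀ *ᵥ g) + qf G (Pᵀ *ᵥ g) / 2))) := by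
    intro g
    have h1 : bf G e (Pᵀ *ᵥ g) = (∑ i, w i * g i) - bf G (Pᵀ *ᵥ w) (Pᵀ *ᵥ g) := by
      have h2 : bf G e (Pᵀ *ᵥ g) = bf G b (Pᵀ *ᵥ g) - bf G (Pᵀ *ᵥ w) (Pᵀ *ᵥ g) := by
        rw [he, sub_eq_add_neg, bf_add_left]
        have h3 : (-(Pᵀ *ᵥ w)) = (-1 : ℝ) • (Pᵀ *ᵥ w) := by simp
        rw [h3, bf_smul_left]
        ring
      rw [h2, H663.bf_obs hG P b g]
    have h2 : Real.exp (qf G (e + Pᵀ *ᵥ g) / 2) = Real.exp (∑ i, w i * g i) *
        (Real.exp (qf G e / 2) *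
        Real.exp (-bf G (Pᵀ *ᵥ w) (Pᵀ *ᵥ g) + qf G (Pᵀ *ᵥ g) / 2)) := by
      rw [← Real.exp_add, ← Real.exp_add]
      congr 1
      rw [qf_add_vec hG, h1]
      ring
    rw [h2]
    ring
  simp only [e1]
  rw [gau_exp_mul]
  have e2 : ∀ g : I → ℝ, F (e + Pᵀ *ᵥ (g + w)) * (Real.exp (qf G e / 2) *
      Real.exp (-bf G (Pᵀ *ᵥ w) (Pᵀ *ᵥ (g + w)) + qf G (Pᵀ *ᵥ (g + w)) / 2)) =
      Real.exp (qf G e / 2 - qf G (Pᵀ *ᵥ w) / 2) *
        (F (b + Pᵀ *ᵥ g) * Real.exp (qf G (Pᵀ *ᵥ g) / 2)) := by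
    intro g
    have h1 : e + Pᵀ *ᵥ (g + w) = b + Pᵀ *ᵥ g := by
      rw [mulVec_add, he]
      abel
    have h2 : Real.exp (qf G e / 2) *
        Real.exp (-bf G (Pᵀ *ᵥ w) (Pᵀ *ᵥ (g + w)) + qf G (Pᵀ *ᵥ (g + w)) / 2) =
        Real.exp (qf G e / 2 - qf G (Pᵀ *ᵥ w) / 2) * Real.exp (qf G (Pᵀ *ᵥ g) / 2) := by
      rw [← Real.exp_add, ← Real.exp_add]
      congr 1
      rw [mulVec_add, qf_add_vec hG, bf_add_right, bf_self, bf_comm hG (Pᵀ *ᵥ g) (Pᵀ *ᵥ w)]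
      ring
    rw [h1, h2]
    ring
  simp only [e2]
  rw [integral_const_mul, ← mul_assoc, ← Real.exp_add]
  congr 2
  have h4 : qf G e = qf G b - 2 * bf G b (Pᵀ *ᵥ w) + qf G (Pᵀ *ᵥ w) := by
    rw [he, H37.qf_sub_vec hG]
  have h5 : bf G b e = qf G b - bf G b (Pᵀ *ᵥ w) := by
    rw [he, sub_eq_add_neg, bf_add_right]
    have h3 : (-(Pᵀ *ᵥ w)) = (-1 : ℝ) • (Pᵀ *ᵥ w) := by simp
    rw [h3, bf_smul_right, bf_self]
    ring
  rw [h4, h5, hww]
  ring

/-- unnormalised exact law at a source -/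
lemma src_num (hX : RL μ' P X) {b e : V → ℝ}
    (he : e = b - Pᵀ *ᵥ (P *ᵥ (Gm (post μ' P) *ᵥ b))) {Φ : (V → ℝ) → ℝ} (hΦ : Measurable Φ) :
    ∫ g, Φ (e + Pᵀ *ᵥ g) * Zs (post μ' P) (e + Pᵀ *ᵥ g) ∂(gau I) =
      Zs (post μ' P) 0 * Real.exp (bf (Gm (post μ' P)) b e / 2) *
        (∫ g, H114.dg (post μ' P) P g ∂(gau I)) *
        ∫ g, Φ (b + X *ᵥ g) * Real.exp (Rs (post μ' P) (b + X *ᵥ g)) ∂(gau I') := by
  have hpost := em_post hX.em P
  set μ := post μ' P with hμ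
  have e1 : ∀ g : I → ℝ, Φ (e + Pᵀ *ᵥ g) * Zs μ (e + Pᵀ *ᵥ g) =
      Zs μ 0 * (Φ (e + Pᵀ *ᵥ g) * Real.exp (Rs μ (e + Pᵀ *ᵥ g)) *
        Real.exp (qf (Gm μ) (e + Pᵀ *ᵥ g) / 2)) := by
    intro g
    rw [Zs_eq_exp hpost (e + Pᵀ *ᵥ g), Real.exp_add]
    ring
  simp only [e1]
  rw [integral_const_mul,
    quad_shift (H663.Gm_symm μ) P he (fun J => Φ J * Real.exp (Rs μ J))]
  have hm : Measurable fun J : V → ℝ => Φ (b + J) * Real.exp (Rs μ (b + J)) :=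
    (hΦ.comp (measurable_const_add b)).mul (hX.meas_eR.comp (measurable_const_add b))
  have h2 := hX.int_eq hm
  have e2 : ∀ g : I → ℝ, Real.exp (qf (Gm μ) (Pᵀ *ᵥ g) / 2) = H114.dg μ P g := by
    intro g
    rw [H730.dg_eq, H730.qf_Hm]
  simp only [e2]
  rw [h2]
  ring

/-- **the exact law at a source**: Gaussian around `b`, tilted by `e^R` -/
theorem src_law (hX : RL μ' P X) {b e : V → ℝ}
    (he : e = b - Pᵀ *ᵥ (P *ᵥ (Gm (post μ' P) *ᵥ b))) {Φ : (V → ℝ) → ℝ} (hΦ : Measurable Φ) :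
    Ech μ' e P Φ = (∫ g, Φ (b + X *ᵥ g) * Real.exp (Rs (post μ' P) (b + X *ᵥ g)) ∂(gau I')) /
      ∫ g, Real.exp (Rs (post μ' P) (b + X *ᵥ g)) ∂(gau I') := by
  have hpost := em_post hX.em P
  have h1 := src_num hX he hΦ
  have h2 := src_num hX he (Φ := fun _ => 1) measurable_const
  simp only [one_mul] at h2
  unfold Ech
  rw [h1, h2]
  have hz := Zs_pos hpost 0
  have hd := H114.int_dg_pos hX.em P hX.k1
  refine mul_div_mul_left _ _ ?_
  exact (mul_pos (mul_pos hz (Real.exp_pos _)) hd).ne'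

/-- the tilt is integrable at every base point -/
lemma src_int (hX : RL μ' P X) {b e : V → ℝ}
    (he : e = b - Pᵀ *ᵥ (P *ᵥ (Gm (post μ' P) *ᵥ b))) :
    Integrable (fun g : I' → ℝ => Real.exp (Rs (post μ' P) (b + X *ᵥ g))) (gau I') := by
  by_contra hc
  have h2 := src_num hX he (Φ := fun _ => 1) measurable_const
  simp only [one_mul] at h2
  rw [integral_undef hc, mul_zero, ch_norm hX.em] at h2
  exact (Zs_pos hX.em e).ne' h2

lemma src_one_le (hX : RL μ' P X) {b e : V → ℝ}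
    (he : e = b - Pᵀ *ᵥ (P *ᵥ (Gm (post μ' P) *ᵥ b))) :
    1 ≤ ∫ g, Real.exp (Rs (post μ' P) (b + X *ᵥ g)) ∂(gau I') := by
  have h := integral_mono (μ := gau I') (integrable_const (1 : ℝ)) (src_int hX he) fun g =>
    Real.one_le_exp (hX.k1 (b + X *ᵥ g))
  simpa using h

/-- probability of a set on which `R ≤ η` -/
theorem src_good (hX : RL μ' P X) {b e : V → ℝ}
    (he : e = b - Pᵀ *ᵥ (P *ᵥ (Gm (post μ' P) *ᵥ b))) {S : Set (V → ℝ)} (hS : MeasurableSet S)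
    {η : ℝ} (hη : ∀ J ∈ S, Rs (post μ' P) J ≤ η) :
    Ech μ' e P (ind S) ≤ Real.exp η * (gau I').real {g | b + X *ᵥ g ∈ S} := by
  have hm : Measurable (ind S : (V → ℝ) → ℝ) := by
    unfold H663.ind
    exact measurable_const.indicator hS
  rw [src_law hX he hm]
  have hSm : MeasurableSet {g : I' → ℝ | b + X *ᵥ g ∈ S} :=
    ((H552.meas_mulVec X).const_add b) hS
  have h1 : ∫ g, ind S (b + X *ᵥ g) * Real.exp (Rs (post μ' P) (b + X *ᵥ g)) ∂(gau I') ≤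
      Real.exp η * (gau I').real {g | b + X *ᵥ g ∈ S} := by
    have e1 : Real.exp η * (gau I').real {g | b + X *ᵥ g ∈ S} =
        ∫ g, Set.indicator {g : I' → ℝ | b + X *ᵥ g ∈ S} (fun _ => Real.exp η) g ∂(gau I') := by
      rw [integral_indicator hSm, setIntegral_const, smul_eq_mul, mul_comm]
    rw [e1]
    refine integral_mono_of_nonneg (Filter.Eventually.of_forall fun g =>
      mul_nonneg (ind_nonneg _ _) (Real.exp_pos _).le)
      ((integrable_const _).indicator hSm) (Filter.Eventually.of_forall fun g => ?_)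
    simp only
    by_cases hg : b + X *ᵥ g ∈ S
    · have h2 : ind S (b + X *ᵥ g) = 1 := by
        unfold H663.ind
        rw [Set.indicator_of_mem hg]
      have h3 : g ∈ {g : I' → ℝ | b + X *ᵥ g ∈ S} := hg
      rw [h2, one_mul, Set.indicator_of_mem h3]
      exact Real.exp_le_exp.2 (hη _ hg)
    · have h2 : ind S (b + X *ᵥ g) = 0 := by
        unfold H663.ind
        rw [Set.indicator_of_notMem hg]
      rw [h2, zero_mul]
      exact Set.indicator_nonneg (fun _ _ => (Real.exp_pos _).le) _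
  refine (div_le_self ?_ (src_one_le hX he)).trans h1
  exact integral_nonneg fun g => mul_nonneg (ind_nonneg _ _) (Real.exp_pos _).le

end src

/-! ### the fourth cumulant around a shift -/

/-- `K4((u+v)⁴) ≤ 8 (K4(u⁴) + K4(v⁴))` -/
lemma K4_add_le {μ : (V → ℤ) → ℝ} (hμ : EM μ) (he : Ev μ) (hK : PK μ) (u v : V → ℝ) :
    K4 μ (u + v) (u + v) (u + v) (u + v) ≤ 8 * (K4 μ u u u u + K4 μ v v v v) := by
  have h0 := H640.K4_polar hμ u v
  have h1 := K4S_cs hμ he hK (vecMulVec u u) (vecMulVec v v)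
  rw [K4S_rank hμ he, K4S_rank hμ he, K4S_rank hμ he] at h1
  have h2 := K4_diag_nonneg hμ he hK u
  have h3 := K4_diag_nonneg hμ he hK v
  have h4 := K4_diag_nonneg hμ he hK (u - v)
  have h5 : K4 μ u u v v ≤ (K4 μ u u u u + K4 μ v v v v) / 2 := by
    refine (le_abs_self _).trans (abs_le_of_sq_le_sq (h1.trans ?_) (by linarith))
    nlinarith [sq_nonneg (K4 μ u u u u - K4 μ v v v v)]
  linarith

/-- `-log (1 - p) ≤ 2 p` -/
lemma neg_log_le {p : ℝ} (h0 : 0 ≤ p) (h1 : p ≤ 1 / 2) : -Real.log (1 - p) ≤ 2 * p := by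
  have h2 : 0 < 1 - p := by linarith
  have h3 : Real.log (1 - p)⁻¹ ≤ (1 - p)⁻¹ - 1 := Real.log_le_sub_one_of_pos (inv_pos.2 h2)
  rw [Real.log_inv] at h3
  refine h3.trans ?_
  have h4 : (1 - p)⁻¹ ≤ 1 + 2 * p := by
    rw [inv_le_iff_one_le_mul₀ h2]
    nlinarith
  linarith

/-! ### one step -/

section step

variable {V : Type} [Fintype V] [DecidableEq I] {μ' : (V → ℤ) → ℝ} {P : Matrix I V ℝ}
  {X : Matrix V I' ℝ}

/-- bad set of the source: block conditions plus fourth cumulant -/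
theorem bad_src (hX : RL μ' P X) (hE : Ev (post μ' P)) (hK : PK (post μ' P)) {b e : V → ℝ}
    (he : e = b - Pᵀ *ᵥ (P *ᵥ (Gm (post μ' P) *ᵥ b))) {S : Set (V → ℝ)} (hS : MeasurableSet S)
    {n : ℕ} (hη : ∀ J ∈ S, Rs (post μ' P) ((2 : ℝ) ^ (n + 1) • J) ≤ 1) {D lam p : ℝ}
    (hD : 0 < D) (hKS : K4S (post μ' P) (X * Xᵀ) (X * Xᵀ) ≤ D) (hlam : 0 ≤ lam)
    (hb4 : K4 (post μ' P) b b b b ≤ lam * D / 16) (hp : Ech μ' e P (ind Sᶜ) ≤ p) :
    Ech μ' e P (ind (Gs (post μ' P) n (lam * D))ᶜ) ≤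
      p + Real.exp 1 * (6 * Real.exp (-(√(lam / 16) / 10))) := by
  have hpost := em_post hX.em P
  set μ := post μ' P with hμ
  have hGm : MeasurableSet (Gs μ n (lam * D)) := by
    have h1 : Measurable fun F : V → ℝ => Rs μ ((2 : ℝ) ^ (n + 1) • F) :=
      (H114.continuous_Rs hpost).measurable.comp (measurable_const_smul _)
    exact (measurableSet_le h1 measurable_const).inter
      (measurableSet_le (K4_meas hpost hE hK) measurable_const)
  set B : Set (V → ℝ) := S ∩ {J | lam * D < K4 μ J J J J} with hB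
  have hBm : MeasurableSet B := hS.inter (measurableSet_lt measurable_const
    (K4_meas hpost hE hK))
  -- splitting of the bad set
  have h1 : Ech μ' e P (ind (Gs μ n (lam * D))ᶜ) ≤
      Ech μ' e P (ind Sᶜ) + Ech μ' e P (ind B) := by
    rw [← H37.Ech_add hX.em e P (EGr.ind hS.compl) (EGr.ind hBm)]
    refine H37.Ech_mono hX.em e P (EGr.ind hGm.compl)
      ((EGr.ind hS.compl).add (EGr.ind hBm)) fun J => ?_
    by_cases hJ : J ∈ (Gs μ n (lam * D))ᶜ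
    · have e1 : ind (Gs μ n (lam * D))ᶜ J = 1 := by
        unfold H663.ind
        rw [Set.indicator_of_mem hJ]
      rw [e1]
      by_cases hJS : J ∈ S
      · have hJB : J ∈ B := by
          refine ⟨hJS, ?_⟩
          by_contra hc
          exact hJ ⟨hη J hJS, not_lt.1 hc⟩
        have e2 : ind B J = 1 := by
          unfold H663.ind
          rw [Set.indicator_of_mem hJB]
        have e3 := ind_nonneg Sᶜ J
        linarith
      · have hJc : J ∈ Sᶜ := hJS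
        have e2 : ind Sᶜ J = 1 := by
          unfold H663.ind
          rw [Set.indicator_of_mem hJc]
        have e3 := ind_nonneg B J
        linarith
    · have e1 : ind (Gs μ n (lam * D))ᶜ J = 0 := by
        unfold H663.ind
        rw [Set.indicator_of_notMem hJ]
      rw [e1]
      exact add_nonneg (ind_nonneg _ _) (ind_nonneg _ _)
  -- the part with a large fourth cumulant
  have hR1 : ∀ J ∈ B, Rs μ J ≤ 1 := by
    intro J hJ
    have h2 := hη J hJ.1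
    have h3 : (1 : ℝ) ≤ (2 : ℝ) ^ (n + 1) := one_le_pow₀ one_le_two
    have h4 := H789.Rs_ray_mono hpost hE hK J zero_le_one h3
    rw [one_smul] at h4
    exact h4.trans h2
  have h2 := src_good hX he hBm hR1
  have h3 : (gau I').real {g | b + X *ᵥ g ∈ B} ≤ 6 * Real.exp (-(√(lam / 16) / 10)) := by
    refine (measureReal_mono ?_ (measure_ne_top _ _)).trans
      (K4_tail_exp hpost hE hK X hD hKS (lam := lam / 16) (by positivity))
    intro g hg
    have h4 : lam * D < K4 μ (b + X *ᵥ g) (b + X *ᵥ g) (b + X *ᵥ g) (b + X *ᵥ g) := hg.2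
    have h5 := K4_add_le hpost hE hK b (X *ᵥ g)
    show lam / 16 * D ≤ K4 μ (X *ᵥ g) (X *ᵥ g) (X *ᵥ g) (X *ᵥ g)
    have h6 : lam * D / 16 = lam / 16 * D := by ring
    rw [h6] at hb4
    nlinarith
  have h4 := mul_le_mul_of_nonneg_left h3 (Real.exp_pos 1).le
  linarith

/-- **AP, one step with closure** -/
theorem ap4 (hX : RL μ' P X) (hE : Ev (post μ' P)) (hK : PK (post μ' P)) {b e : V → ℝ}
    (he : e = b - Pᵀ *ᵥ (P *ᵥ (Gm (post μ' P) *ᵥ b)))
    {ι : Type*} [Fintype ι] (L : ι → Matrix W V ℝ) (C : ι → Set (W → ℝ))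
    (hCm : ∀ i, MeasurableSet (C i)) (hC : ∀ i, Convex ℝ (C i)) (hC0 : ∀ i, (0 : W → ℝ) ∈ C i)
    {n : ℕ} (hη : ∀ J ∈ good L C, Rs (post μ' P) ((2 : ℝ) ^ (n + 1) • J) ≤ 1) (m0 : V → ℝ)
    (ha : ∀ i, (3 : ℝ) • (L i *ᵥ (e + Pᵀ *ᵥ (P *ᵥ m0))) ∈ C i) {π ν : ι → ℝ}
    (hπ : ∀ i, ∀ s ∈ Set.Icc (0 : ℝ) 1, Rs μ' (s • e) ≤ 1 → Ex μ' (s • e)
      (indh {h | (3 : ℝ) • (L i *ᵥ (Pᵀ *ᵥ (P *ᵥ (re h - s • m0)))) ∉ C i}) ≤ π i)
    (hν : ∀ i, ∫ g : I → ℝ, Set.indicator {g : I → ℝ | (3 : ℝ) • (L i *ᵥ (Pᵀ *ᵥ g)) ∉ C i}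
      (fun _ => (1 : ℝ)) g ∂(gau I) ≤ ν i)
    {D lam p q : ℝ} (hD : 0 < D) (hKS : K4S (post μ' P) (X * Xᵀ) (X * Xᵀ) ≤ D) (hlam : 0 ≤ lam)
    (hb4 : K4 (post μ' P) b b b b ≤ lam * D / 16) (hp : ∑ i, (π i + ν i) ≤ p)
    (hq : p + Real.exp 1 * (6 * Real.exp (-(√(lam / 16) / 10))) ≤ q) (hq1 : q ≤ 1 / 4)
    (hcl : cl n (8 * (lam * D)) ≤ 1 / 4) :
    ∀ s ∈ Set.Icc (0 : ℝ) 1, Rs μ' (s • e) ≤ cl n (8 * (lam * D)) + 2 * q ∧
      Ech μ' (s • e) P (ind (Gs (post μ' P) n (lam * D))ᶜ) ≤ q := by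
  have hpost := em_post hX.em P
  set μ := post μ' P with hμ
  have hGm : MeasurableSet (Gs μ n (lam * D)) := by
    have h1 : Measurable fun F : V → ℝ => Rs μ ((2 : ℝ) ^ (n + 1) • F) :=
      (H114.continuous_Rs hpost).measurable.comp (measurable_const_smul _)
    exact (measurableSet_le h1 measurable_const).inter
      (measurableSet_le (K4_meas hpost hE hK) measurable_const)
  -- the probability of the bad set, as long as `R'(s e) ≤ 1`
  have hbad : ∀ s ∈ Set.Icc (0 : ℝ) 1, Rs μ' (s • e) ≤ 1 →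
      Ech μ' (s • e) P (ind (Gs μ n (lam * D))ᶜ) ≤ q := by
    intro s hs hR
    have he' : s • e = s • b - Pᵀ *ᵥ (P *ᵥ (Gm μ *ᵥ (s • b))) := by
      rw [he, mulVec_smul, mulVec_smul, mulVec_smul, smul_sub]
    have h1 : Ech μ' (s • e) P (ind (good L C)ᶜ) ≤ p := by
      refine (tail_split hX.em (s • e) P L C hCm hC (s • m0) ?_ (π := π) (ν := ν)
        (fun i => hπ i s hs hR) hν).trans hp
      intro i
      have h1 : (3 : ℝ) • (L i *ᵥ (s • e + Pᵀ *ᵥ (P *ᵥ (s • m0)))) =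
          s • ((3 : ℝ) • (L i *ᵥ (e + Pᵀ *ᵥ (P *ᵥ m0)))) + (1 - s) • (0 : W → ℝ) := by
        rw [mulVec_smul, mulVec_smul, ← smul_add, mulVec_smul, smul_comm, smul_zero, add_zero]
      rw [h1]
      exact hC i (ha i) (hC0 i) hs.1 (sub_nonneg.2 hs.2) (by ring)
    have h4 : K4 μ (s • b) (s • b) (s • b) (s • b) ≤ lam * D / 16 := by
      rw [K4_smul4 hpost hE hK]
      have h5 := K4_diag_nonneg hpost hE hK b
      have h6 : s ^ 4 ≤ 1 := pow_le_one₀ hs.1 hs.2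
      nlinarith
    exact (bad_src hX hE hK he' (measurableSet_good L C hCm) hη hD hKS hlam h4 h1).trans hq
  have hq0 : 0 ≤ q := by
    have h1 := hbad 0 (Set.left_mem_Icc.2 zero_le_one) (by
      rw [zero_smul, H789.Rs_zero]; norm_num)
    exact (H37.Ech_nonneg hX.em _ _ fun J => ind_nonneg _ J).trans h1
  have hlg := neg_log_le hq0 (by linarith)
  have hRS : ∀ J ∈ Gs μ n (lam * D), Rs μ J ≤ cl n (8 * (lam * D)) := by
    intro J hJ
    obtain ⟨h1, h2⟩ := hJ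
    have e1 : (2 : ℝ) ^ n • ((2 : ℝ) • J) = (2 : ℝ) ^ (n + 1) • J := by
      rw [smul_smul, pow_succ]
    have h3 := H789.Rs_closure hpost hE hK ((2 : ℝ) • J) n (by rw [e1]; exact h1)
    rw [K4_smul4 hpost hE hK] at h3
    have h4 : Rs μ ((2 : ℝ) • J) ≤ cl n (8 * (lam * D)) := by
      refine h3.trans (cl_mono n (y := 8 * (lam * D)) ?_)
      linarith
    have m1 : Rs μ J ≤ Rs μ ((2 : ℝ) • J) := by
      have := H789.Rs_ray_mono hpost hE hK J zero_le_one (one_le_two (α := ℝ))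
      rwa [one_smul] at this
    exact m1.trans h4
  have hfin := ap_boot hX.em P hE hK he hGm hRS hbad (by linarith)
    (r := cl n (8 * (lam * D)) + 2 * q) (by linarith) (by linarith)
  intro s hs
  have h1 := hfin s hs
  exact ⟨h1, hbad s hs (by linarith)⟩

end step

end

end Vale.Agent.P159.H239
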