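import Vale.Agent.P159.H145.In4
import Vale.Agent.P159.H692.Fn8
import Vale.Agent.P159.H816.Zs1
import Vale.Agent.P159.H30.RF1
import Vale.Agent.P159.H663.Off

/-!
P159 / P_up (helper239): transfer of the block source bound.  From the cells of the level `n`
(prior mass `t_m` on the cells, mass `T` on the fine modes, neutral model) to the field `AP` of the
level `m` (coarser cells, scalar mass `t_m`, integer model).
-/

set_option linter.unusedSectionVars false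

namespace Vale.Agent.P159.H239

open Finset Matrix MeasureTheory
open Vale.Agent.P159.TM.H104 (EM Ex Lg li)
open Vale.Agent.P159.TM.H764 (EE grd)
open Vale.Agent.P159.TM.Spec (V)
open Vale.Agent.P159.TM.SpecC (Tor wT)
open Vale.Agent.P159.H37
open Vale.Agent.P159.H864 (lapM TI sym cobV yt)
open Vale.Agent.P159.H859 (ge qf_of_mul Rk gd dB)
open Vale.Agent.P159.H963 (nwt nMC Pn Neu mf_smul)
open Vale.Agent.P159.H972 (cobB AP)
open Vale.Agent.P159.H663 (bsrc)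
open Vale.Agent.P159.H816 (blk Gam)
open Vale.Agent.P159.H145 (kb kb_pos OscZ)

noncomputable section

section psd

variable {N l l' q q' : ℕ} [NeZero N] [NeZero (N / l)]

/-- the coarse block noise has a smaller covariance than the fine one (neutral parts) -/
lemma coarse_psd (hll : l ∣ l') (hl : l' ∣ N) (hq : l' * q' = l * q) (B : ℕ × ℕ) (c : ℝ) :
    ((c • ((Pn : Matrix (V N) (V N) ℝ) * ((cobV N l)ᵀ * dB (blk (N / l) q B)))) *
        (c • ((Pn : Matrix (V N) (V N) ℝ) * ((cobV N l)ᵀ * dB (blk (N / l) q B))))ᵀ -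
      (c • ((Pn : Matrix (V N) (V N) ℝ) * cobB N l' q' B)) *
        (c • ((Pn : Matrix (V N) (V N) ℝ) * cobB N l' q' B))ᵀ).PosSemidef := by
  have hlN : l ∣ N := hll.trans hl
  set P := cellP N l' with hP
  set D := cellP N l * Matrix.diagonal (H30.chB N (l * q) B) with hD
  have hPP : P * P = P := H864.cellP_idem hl
  have hPt : Pᵀ = P := H864.cellP_tr N l'
  have hcl : cellP N l * cellP N l = cellP N l := H864.cellP_idem hlN
  have hchi : Matrix.diagonal (H30.chB N (l * q) B) * Matrix.diagonal (H30.chB N (l * q) B) =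
      Matrix.diagonal (H30.chB N (l * q) B) := by
    rw [Matrix.diagonal_mul_diagonal]
    congr 1
    funext x
    exact H30.chB_sq _ _ _
  have hc1 := H30.chB_comm (N := N) (dvd_mul_right l q) B
  have hc2 : Matrix.diagonal (H30.chB N (l * q) B) * P = P * Matrix.diagonal (H30.chB N (l * q) B) := by
    have := H30.chB_comm (N := N) (dvd_mul_right l' q') B
    rwa [hq] at this
  have hcP : P * cellP N l = P := H864.cellP_coarse_mul hll hl
  have hPc : cellP N l * P = P := by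
    have := congrArg Matrix.transpose hcP
    rwa [Matrix.transpose_mul, H864.cellP_tr, hPt] at this
  have hDt : Dᵀ = D := by
    rw [hD, Matrix.transpose_mul, Matrix.diagonal_transpose, H864.cellP_tr, hc1]
  have hDD : D * D = D := by
    calc D * D = cellP N l * (Matrix.diagonal (H30.chB N (l * q) B) * cellP N l) *
          Matrix.diagonal (H30.chB N (l * q) B) := by rw [hD]; simp only [Matrix.mul_assoc]
      _ = (cellP N l * cellP N l) * (Matrix.diagonal (H30.chB N (l * q) B) *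
          Matrix.diagonal (H30.chB N (l * q) B)) := by rw [hc1]; simp only [Matrix.mul_assoc]
      _ = D := by rw [hcl, hchi]
  have hDP : D * P = P * D := by
    calc D * P = cellP N l * (Matrix.diagonal (H30.chB N (l * q) B) * P) := by
          rw [hD, Matrix.mul_assoc]
      _ = (cellP N l * P) * Matrix.diagonal (H30.chB N (l * q) B) := by
          rw [hc2]; simp only [Matrix.mul_assoc]
      _ = (P * cellP N l) * Matrix.diagonal (H30.chB N (l * q) B) := by rw [hPc, hcP]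
      _ = P * D := by rw [hD, Matrix.mul_assoc]
  have h1 : ((cobV N l)ᵀ * dB (blk (N / l) q B)) * ((cobV N l)ᵀ * dB (blk (N / l) q B))ᵀ = D := by
    rw [← H816.cobB_cov_dB hlN, H30.cobB_gram]
  have h2 : cobB N l' q' B * (cobB N l' q' B)ᵀ = P * D := by
    rw [H30.cobB_gram, hq, hD, ← Matrix.mul_assoc, hcP]
  have hPn : (Pn : Matrix (V N) (V N) ℝ)ᵀ = Pn := H963.Pn_transpose
  have e1 : ∀ {I : Type} [Fintype I] (M : Matrix (V N) I ℝ),
      (c • ((Pn : Matrix (V N) (V N) ℝ) * M)) * (c • ((Pn : Matrix (V N) (V N) ℝ) * M))ᵀ =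
        (c * c) • ((Pn : Matrix (V N) (V N) ℝ) * (M * Mᵀ) * Pn) := by
    intro I _ M
    rw [Matrix.transpose_smul, Matrix.smul_mul, Matrix.mul_smul, smul_smul, Matrix.transpose_mul,
      hPn]
    simp only [Matrix.mul_assoc]
  have e2 : (c * c) • ((Pn : Matrix (V N) (V N) ℝ) * D * Pn) -
      (c * c) • ((Pn : Matrix (V N) (V N) ℝ) * (P * D) * Pn) =
      (c • ((Pn : Matrix (V N) (V N) ℝ) * (D * (1 - P)))) *
        (c • ((Pn : Matrix (V N) (V N) ℝ) * (D * (1 - P))))ᵀ := by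
    rw [e1, ← smul_sub]
    congr 1
    have e3 : D * (1 - P) * (D * (1 - P))ᵀ = D - P * D := by
      rw [Matrix.transpose_mul, hDt, Matrix.transpose_sub, Matrix.transpose_one, hPt]
      have e4 : (1 - P) * ((1 - P) * D) = (1 - P) * D := by
        rw [← Matrix.mul_assoc]
        congr 1
        rw [Matrix.mul_sub, Matrix.mul_one, Matrix.sub_mul, Matrix.one_mul, hPP, sub_self, sub_zero]
      rw [Matrix.mul_assoc, e4, Matrix.sub_mul, Matrix.one_mul, Matrix.mul_sub, hDD,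
        ← Matrix.mul_assoc, hDP, Matrix.mul_assoc, hDD]
    rw [e3, Matrix.mul_sub, Matrix.sub_mul]
  rw [e1, e1, h1, h2, e2]
  exact Matrix.posSemidef_self_mul_conjTranspose _

end psd

section main

variable {b : ℝ}

/-- Fernique and smaller covariance: amplitude `2 X` of the coarse cells -/
lemma fern_coarse {N l l' q q' : ℕ} [NeZero N] [NeZero (N / l)] (hll : l ∣ l') (hl : l' ∣ N)
    (hq : l' * q' = l * q) {μ : (V N → ℤ) → ℝ} (hμ : EM μ) (he : Ev μ) (hK : PK μ) (B : ℕ × ℕ)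
    {c δ : ℝ}
    (hp : (gau (V (N / l))).real {g | δ < Rs μ ((cobV N l)ᵀ *ᵥ
      bsrc (100 * c) (blk (N / l) q B) g)} ≤ 1 / 30) :
    (gau (Fin (N / l') × Fin (N / l'))).real {g | δ < Rs μ ((2 : ℝ) •
      ((Pn : Matrix (V N) (V N) ℝ) *ᵥ ((c • cobB N l' q' B) *ᵥ g)))} ≤
      2 * Real.exp (-((50 : ℝ) ^ 2 / 7)) := by
  have hlN : l ∣ N := hll.trans hl
  have e1 : ∀ g : V (N / l) → ℝ, (cobV N l)ᵀ *ᵥ bsrc (100 * c) (blk (N / l) q B) g =
      ((100 * c) • ((Pn : Matrix (V N) (V N) ℝ) * ((cobV N l)ᵀ * dB (blk (N / l) q B)))) *ᵥ g := by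
    intro g
    unfold H663.bsrc
    rw [mulVec_smul, ← H963.Pn_cobV_tr hlN, smul_mulVec, ← mulVec_mulVec, ← mulVec_mulVec]
  simp only [e1] at hp
  have h1 := H586.fern_small_f (H586.rs_meas hμ) (H789.Rs_convex hμ he hK) (H789.Rs_neg he)
    (coarse_psd hll hl hq B (100 * c)) hp (a := 50) (by norm_num)
  have e2 : ∀ g : Fin (N / l') × Fin (N / l') → ℝ,
      (50 : ℝ)⁻¹ • (((100 * c) • ((Pn : Matrix (V N) (V N) ℝ) * cobB N l' q' B)) *ᵥ g) =
      (2 : ℝ) • ((Pn : Matrix (V N) (V N) ℝ) *ᵥ ((c • cobB N l' q' B) *ᵥ g)) := by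
    intro g
    rw [smul_mulVec, smul_mulVec, mulVec_smul, ← mulVec_mulVec, smul_smul, smul_smul]
    congr 1
    ring
  simp only [e2] at h1
  exact h1

lemma exp_50 : 2 * Real.exp (-((50 : ℝ) ^ 2 / 7)) ≤ 1 / 1000 := by
  have h1 : (10 : ℝ) ≤ 50 ^ 2 / 7 := by norm_num
  have h2 : Real.exp (-((50 : ℝ) ^ 2 / 7)) ≤ Real.exp (-10) := Real.exp_le_exp.2 (by linarith)
  have h3 : Real.exp (-10 : ℝ) ≤ 1 / 2000 := by
    rw [Real.exp_neg, inv_le_comm₀ (Real.exp_pos _) (by norm_num)]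
    have h4 : (2.7182818283 : ℝ) < Real.exp 1 := Real.exp_one_gt_d9
    have h5 : Real.exp (10 : ℝ) = Real.exp 1 ^ 10 := by rw [← Real.exp_nat_mul]; norm_num
    rw [h5]
    have h6 : (2.7182818283 : ℝ) ^ 10 ≤ Real.exp 1 ^ 10 :=
      pow_le_pow_left₀ (by norm_num) h4.le 10
    refine le_trans ?_ h6
    norm_num
  linarith

lemma exp_6 : Real.exp (-6 : ℝ) ≤ 1 / 300 := by
  rw [Real.exp_neg, inv_le_comm₀ (Real.exp_pos _) (by norm_num)]
  have h4 : (2.7182818283 : ℝ) < Real.exp 1 := Real.exp_one_gt_d9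
  have h5 : Real.exp (6 : ℝ) = Real.exp 1 ^ 6 := by rw [← Real.exp_nat_mul]; norm_num
  rw [h5]
  have h6 : (2.7182818283 : ℝ) ^ 6 ≤ Real.exp 1 ^ 6 :=
    pow_le_pow_left₀ (by norm_num) h4.le 6
  refine le_trans ?_ h6
  norm_num

lemma kb_cs {b : ℝ} (hb : 0 ≤ b) : kb b * (b + 12 * max b 1 ^ 2 * (1 : ℝ) ^ 2) ≤ 1 := by
  unfold H145.kb
  have h := H145.kb_den hb
  rw [one_pow, mul_one, one_div, inv_mul_cancel₀ (by linarith)]

/-- energy of a neutral source with small slopes, scalar mass -/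
lemma energy_nwt {N : ℕ} [NeZero N] (hb : 0 < b) {t : ℝ} (ht : 0 < t) (x₀ : V N) (J : V N → ℝ)
    (hJ : Neu J) (h : 4 * Gam N t t (kb b) * ∑ x, J x ^ 2 ≤ 1) :
    Lg (nwt N b t x₀) ((2 : ℝ) • J) - Lg (nwt N b t x₀) 0 ≤
      2 * qf (t • (1 : Matrix (V N) (V N) ℝ) + kb b • lapM)⁻¹ J := by
  have hM : H963.MF (t • (1 : Matrix (V N) (V N) ℝ)) t := mf_smul ht
  have h1 := H816.dom_neu (b := b) (κ := kb b) (cs := 1) hb.le hM x₀ (kb_pos hb.le)
    (kb_cs hb.le) le_rfl ((2 : ℝ) • J) (hJ.smul 2) (fun x s => by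
      have h2 := H816.edge_le (N := N) (M := t • (1 : Matrix (V N) (V N) ℝ)) (τ := t) (T := t)
        hM.symm ht le_rfl (kb_pos hb.le) (fun u => (H37.qf_smul_one t u).ge)
        (fun u => (H37.qf_smul_one t u).le) ((2 : ℝ) • J) x s
      have e : ∑ y, ((2 : ℝ) • J) y ^ 2 = 4 * ∑ y, J y ^ 2 := by
        rw [Finset.mul_sum]
        exact Finset.sum_congr rfl fun y _ => by
          simp only [Pi.smul_apply, smul_eq_mul]; ring
      rw [e] at h2
      refine abs_le_of_sq_le_sq ?_ zero_le_one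
      calc _ ≤ _ := h2
        _ = 4 * Gam N t t (kb b) * ∑ x, J x ^ 2 := by ring
        _ ≤ 1 := h
        _ = 1 ^ 2 := by ring)
  rw [qf_smul] at h1
  have e3 : Lg (nwt N b t x₀) ((2 : ℝ) • J) - Lg (nwt N b t x₀) 0 ≤
      2 ^ 2 * qf (t • (1 : Matrix (V N) (V N) ℝ) + kb b • lapM)⁻¹ J / 2 := h1
  linarith

lemma qf_id {N : ℕ} [NeZero N] (u : V N → ℝ) :
    qf (1 : Matrix (V N) (V N) ℝ) u = ∑ x, u x ^ 2 := by
  have := H37.qf_smul_one 1 u
  rwa [one_smul, one_mul] at this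

lemma block_norm {N l : ℕ} [NeZero N] [NeZero (N / l)] (hl : l ∣ N) {t : ℝ} (ht : 0 < t) {q : ℕ}
    (hq : 0 < q) (B : ℕ × ℕ) (X : ℝ) :
    ∑ i, qf (1 : Matrix (V N) (V N) ℝ) (((X * √t) • cobB N l q B)ᵀ i) ≤
      X ^ 2 * t * (q : ℝ) ^ 2 := by
  have e1 : ∀ i, qf (1 : Matrix (V N) (V N) ℝ) (((X * √t) • cobB N l q B)ᵀ i) =
      X ^ 2 * t * (if i.1.val / q = B.1 ∧ i.2.val / q = B.2 then 1 else 0) := by
    intro i
    have h1 : ((X * √t) • cobB N l q B)ᵀ i =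
        (X * √t) • (cobV N l)ᵀ *ᵥ ((H30.Lb N l q B)ᵀ i) := by
      rw [H30.cobB_eq hl]
      funext x
      simp only [Matrix.transpose_apply, Matrix.smul_apply, Pi.smul_apply, smul_eq_mul,
        Matrix.mulVec, dotProduct, Matrix.mul_apply]
    rw [h1, qf_smul, mul_pow, Real.sq_sqrt ht.le, qf_id, H816.sum_sq_cobV_tr hl]
    congr 1
    rw [Finset.sum_eq_single ((H864.ce (N / l)).symm i)]
    · unfold H30.Lb
      simp only [Matrix.transpose_apply, Matrix.of_apply, Equiv.apply_symm_apply, if_true]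
      split_ifs <;> norm_num
    · intro c _ hc
      unfold H30.Lb
      simp only [Matrix.transpose_apply, Matrix.of_apply]
      rw [if_neg, zero_pow two_ne_zero]
      intro h
      exact hc (by rw [← h, Equiv.symm_apply_apply])
    · intro h
      exact absurd (Finset.mem_univ _) h
  simp only [e1]
  rw [← Finset.mul_sum, ← Finset.sum_filter, Finset.sum_const, nsmul_eq_mul, mul_one]
  have h3 : ((univ : Finset (Fin (N / l) × Fin (N / l))).filter fun i =>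
      i.1.val / q = B.1 ∧ i.2.val / q = B.2).card ≤ q * q := by
    have e : ((univ : Finset (Fin (N / l) × Fin (N / l))).filter fun i =>
        i.1.val / q = B.1 ∧ i.2.val / q = B.2) =
        (univ.filter fun i : Fin (N / l) => i.val / q = B.1) ×ˢ
          (univ.filter fun i : Fin (N / l) => i.val / q = B.2) := by
      ext i
      simp [Finset.mem_product]
    rw [e, Finset.card_product]
    exact Nat.mul_le_mul (H145.card_div_le _ q _ hq) (H145.card_div_le _ q _ hq)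
  have h4 : ((((univ : Finset (Fin (N / l) × Fin (N / l))).filter fun i =>
      i.1.val / q = B.1 ∧ i.2.val / q = B.2).card : ℕ) : ℝ) ≤ (q : ℝ) ^ 2 := by
    have : ((((univ : Finset (Fin (N / l) × Fin (N / l))).filter fun i =>
      i.1.val / q = B.1 ∧ i.2.val / q = B.2).card : ℕ) : ℝ) ≤ ((q * q : ℕ) : ℝ) := by
      exact_mod_cast h3
    push_cast at this
    calc _ ≤ (q : ℝ) * q := this
      _ = (q : ℝ) ^ 2 := by ring
  exact mul_le_mul_of_nonneg_left h4 (by positivity)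

lemma sum_Pn_sq {N : ℕ} [NeZero N] (J : V N → ℝ) :
    ∑ x, ((Pn : Matrix (V N) (V N) ℝ) *ᵥ J) x ^ 2 ≤ ∑ x, J x ^ 2 := H663.Pn_sq_le J

/-- **transfer**: from the block source bound on the cells `2 ^ s` (prior mass `t_m`, fine mass `T`,
neutral model) to the field `AP` at the level `m` -/
theorem ap_trans (hb : 0 < b) : ∃ C c : ℝ, 0 ≤ C ∧ 0 < c ∧ c ≤ 1 ∧
    ∀ (n m r s s' : ℕ), s ≤ s' → s' ≤ m → m ≤ r → s ≤ n → n ≤ r →
    ∀ [NeZero (2 ^ r / 2 ^ s)] (T : ℝ), T * ((2 : ℝ) ^ s) ^ 2 ≤ 1 → 1 < T * 4 ^ (n + 1) →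
      H972.tn m ≤ T →
    ∀ (x₀ : V (2 ^ r)) (X E ω δ₁ δ' : ℝ), 0 < X → 0 < E → 0 < ω → ω ≤ 1 / 16 → δ₁ ≤ 1 →
      OscZ (wT b (2 ^ r)) (H972.tn m • (1 : Matrix (Tor (2 ^ r)) (Tor (2 ^ r)) ℝ)) ω →
      X ^ 2 * (H972.tn m * (2 ^ m) ^ 2 * (1 / (H972.tn m * (2 ^ r) ^ 2) +
        (1 + Real.log (2 ^ r / 2 ^ s')) / kb b)) ≤ E →
      96 * Gam (2 ^ r) (H972.tn m) (H972.tn m) (kb b) * (X ^ 2 * H972.tn m * ((2 : ℝ) ^ (m - s')) ^ 2) ≤ 1 →
      (∀ B : ℕ × ℕ, (gau (V (2 ^ r / 2 ^ s))).real {g | δ₁ < Rs (nMC (2 ^ r) (2 ^ s) b T (H972.tn m) x₀)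
        ((cobV (2 ^ r) (2 ^ s))ᵀ *ᵥ bsrc (100 * (X * √(H972.tn m)))
          (blk (2 ^ r / 2 ^ s) (2 ^ (m - s)) B) g)} ≤ 1 / 30) →
      δ₁ + C * ((1 + 48 * E) ^ 6 * (T * ((2 : ℝ) ^ r) ^ 2)) * ((2 : ℝ) ^ s * √T) ^ c + 4 * ω +
        (2308 * √ω + yt (2 ^ r) b (H972.tn m)) * (24 * E) ≤ δ' →
      AP b m r s' X (H972.tn m) δ' := by
  obtain ⟨C, c, hC, hc, hc1, hpu⟩ := H692.pu11_nwt hb.le
  refine ⟨C, c, hC, hc, hc1, ?_⟩
  intro n m r s s' hss hs'm hmr hsn hnr _ T hT1 hT2 hT3 x₀ X E ω δ₁ δ' hX hE hω0 hω hδ₁ hO hXE hGam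
    hH hδ'
  have htm : 0 < H972.tn m := by unfold H972.tn; positivity
  have hT0 : 0 < T := htm.trans_le hT3
  have hs : (2 : ℕ) ^ s ∣ 2 ^ r := pow_dvd_pow 2 (by omega)
  have hs' : (2 : ℕ) ^ s' ∣ 2 ^ r := pow_dvd_pow 2 (by omega)
  have hne' : NeZero (2 ^ r / 2 ^ s') := ⟨by
    rw [Nat.pow_div (by omega) two_pos]
    positivity⟩
  have hq : 2 ^ s' * 2 ^ (m - s') = 2 ^ s * 2 ^ (m - s) := by
    rw [← pow_add, ← pow_add]
    congr 1
    omega
  set μ := nMC (2 ^ r) (2 ^ s) b T (H972.tn m) x₀ with hμdef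
  have hw := H963.gw_wT (N := 2 ^ r) hb.le
  have hMF : H963.MF (H864.MC (2 ^ r) (2 ^ s) T (H972.tn m)) (H972.tn m) := H963.mf_MC hs htm hT3
  have hμ : EM μ := hw.em_nM hMF x₀
  have he : Ev μ := hw.ev_nM _ (H972.tn m) x₀
  have hK : PK μ := hw.pk_nM hMF x₀
  set A := (H972.tn m • (1 : Matrix (V (2 ^ r)) (V (2 ^ r)) ℝ) + kb b • lapM)⁻¹ with hA
  have hA0 : ∀ u : V (2 ^ r) → ℝ, 0 ≤ qf A u := H145.res_nonneg htm hb.le
  have hAt : Aᵀ = A := (H859.ti_Rk (n := 2 ^ r) (H972.tn m) (kb b)).transpose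
  set ε0 : ℝ := C * ((1 + 48 * E) ^ 6 * (T * ((2 : ℝ) ^ r) ^ 2)) * ((2 : ℝ) ^ s * √T) ^ c with hε0
  have e2r : (((2 ^ r : ℕ) : ℝ)) = (2 : ℝ) ^ r := by push_cast; rfl
  refine H145.ap_of_neu (X := X) (ω := ω) (E := E) (δ := δ₁ + ε0) (p := 1 / 60) (a := 24 * E) hb
    (by omega) hs'm htm x₀ hO hω0 hω hE hXE (fun B => ?_) (by linarith) ?_
  · set L := (X * √(H972.tn m)) • cobB (2 ^ r) (2 ^ s') (2 ^ (m - s')) B with hL
    have : IsProbabilityMeasure (gau (Fin (2 ^ r / 2 ^ s') × Fin (2 ^ r / 2 ^ s'))) := by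
      unfold gau; infer_instance
    set v : ℝ := 24 * (X ^ 2 * H972.tn m * ((2 : ℝ) ^ (m - s')) ^ 2) with hv
    -- the three events
    have p1 := fern_coarse (N := 2 ^ r) (pow_dvd_pow 2 hss) hs' hq hμ he hK B
      (c := X * √(H972.tn m)) (δ := δ₁) (hH B)
    rw [← hL] at p1
    have hen : ∑ i, qf A (Lᵀ i) ≤ E := by
      refine (H145.block_energy (N := 2 ^ r) (l := 2 ^ s') hb.le hs' htm
        (q := 2 ^ (m - s')) (by positivity) B X).trans ?_
      have e1 : ((2 ^ (m - s') : ℕ) : ℝ) * ((2 ^ s' : ℕ) : ℝ) = 2 ^ m := by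
        push_cast
        rw [← pow_add]
        congr 1
        omega
      have e2 : ((2 ^ r / 2 ^ s' : ℕ) : ℝ) = 2 ^ r / 2 ^ s' := by
        rw [Nat.cast_div hs' (by positivity)]
        push_cast
        rfl
      rw [e1, e2]
      push_cast
      exact hXE
    have p2 := H145.tail_src hA0 hAt L hE hen (24 * E)
    have hsub : {g : Fin (2 ^ r / 2 ^ s') × Fin (2 ^ r / 2 ^ s') → ℝ | δ₁ + ε0 <
        Rs (nwt (2 ^ r) b (H972.tn m) x₀) ((Pn : Matrix (V (2 ^ r)) (V (2 ^ r)) ℝ) *ᵥ (L *ᵥ g))} ⊆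
        ({g | δ₁ < Rs μ ((2 : ℝ) • ((Pn : Matrix (V (2 ^ r)) (V (2 ^ r)) ℝ) *ᵥ (L *ᵥ g)))} ∪
        {g | 24 * E ≤ qf A (L *ᵥ g)}) ∪ {g | v ≤ qf (1 : Matrix (V (2 ^ r)) (V (2 ^ r)) ℝ)
          (L *ᵥ g)} := by
      intro g hg
      by_contra hcon
      simp only [Set.mem_union, not_or, Set.mem_ofPred_eq, not_lt, not_le] at hcon hg
      obtain ⟨⟨g1, g2⟩, g3⟩ := hcon
      set J := (Pn : Matrix (V (2 ^ r)) (V (2 ^ r)) ℝ) *ᵥ (L *ᵥ g) with hJ
      have hJn : Neu J := H963.neu_Pn _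
      have g4 : qf A J ≤ 24 * E := by
        have := H145.qf_split (N := 2 ^ r) htm hb.le (L *ᵥ g)
        have h0 : 0 ≤ (∑ x, (L *ᵥ g) x) ^ 2 / (H972.tn m * ((2 ^ r : ℕ) : ℝ) ^ 2) := by positivity
        rw [← hA] at this
        linarith
      have g5 : ∑ x, J x ^ 2 ≤ v := by
        have h1 := sum_Pn_sq (N := 2 ^ r) (L *ᵥ g)
        rw [qf_id] at g3
        linarith
      have g6 := energy_nwt (N := 2 ^ r) hb htm x₀ J hJn (by
        have h2 := H816.Gam_nonneg (N := 2 ^ r) (T := H972.tn m) htm (kb_pos hb.le)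
        calc 4 * Gam (2 ^ r) (H972.tn m) (H972.tn m) (kb b) * ∑ x, J x ^ 2
            ≤ 4 * Gam (2 ^ r) (H972.tn m) (H972.tn m) (kb b) * v :=
              mul_le_mul_of_nonneg_left g5 (by positivity)
          _ = 96 * Gam (2 ^ r) (H972.tn m) (H972.tn m) (kb b) *
              (X ^ 2 * H972.tn m * ((2 : ℝ) ^ (m - s')) ^ 2) := by rw [hv]; ring
          _ ≤ 1 := hGam)
      have g7 : Lg (nwt (2 ^ r) b (H972.tn m) x₀) ((2 : ℝ) • J) - Lg (nwt (2 ^ r) b (H972.tn m) x₀) 0 ≤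
          48 * E := by
        rw [← hA] at g6
        linarith
      have g8 := (hpu (2 ^ r) s n hs (pow_dvd_pow 2 hnr) T hT0 hT1 hT2 (H972.tn m) htm hT3 x₀ J hJn
        (48 * E) g7 (g1.trans hδ₁)).2.2
      rw [e2r, ← hε0] at g8
      have g9 : Rs μ J ≤ Rs μ ((2 : ℝ) • J) := by
        have := H789.Rs_ray_mono hμ he hK J (s := 1) (s' := 2) zero_le_one one_le_two
        rwa [one_smul] at this
      linarith
    have hv0 : 0 < X ^ 2 * H972.tn m * ((2 : ℝ) ^ (m - s')) ^ 2 := by positivity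
    have hnr : ∑ i, qf (1 : Matrix (V (2 ^ r)) (V (2 ^ r)) ℝ) (Lᵀ i) ≤
        X ^ 2 * H972.tn m * ((2 : ℝ) ^ (m - s')) ^ 2 := by
      have := block_norm (N := 2 ^ r) (l := 2 ^ s') hs' htm (q := 2 ^ (m - s')) (by positivity) B X
      push_cast at this
      exact this
    have p3 := H145.tail_src (A := (1 : Matrix (V (2 ^ r)) (V (2 ^ r)) ℝ))
      (fun u => by rw [qf_id]; exact Finset.sum_nonneg fun _ _ => sq_nonneg _)
      Matrix.transpose_one L hv0 hnr v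
    have e24 : (24 * E) / (4 * E) = 6 := by field_simp; norm_num
    have e24' : v / (4 * (X ^ 2 * H972.tn m * ((2 : ℝ) ^ (m - s')) ^ 2)) = 6 := by
      rw [hv]; field_simp; norm_num
    rw [e24] at p2
    rw [e24'] at p3
    have h50 := exp_50
    have h6 := exp_6
    refine (measureReal_mono hsub).trans ((measureReal_union_le _ _).trans ?_)
    have := measureReal_union_le (μ := gau (Fin (2 ^ r / 2 ^ s') × Fin (2 ^ r / 2 ^ s')))
      {g | δ₁ < Rs μ ((2 : ℝ) • ((Pn : Matrix (V (2 ^ r)) (V (2 ^ r)) ℝ) *ᵥ (L *ᵥ g)))}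
      {g | 24 * E ≤ qf A (L *ᵥ g)}
    linarith
  · have e24 : (24 * E) / (4 * E) = 6 := by field_simp; norm_num
    rw [e24]
    have h6 := exp_6
    linarith

end main

end

end Vale.Agent.P159.H239
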