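import Vale.Agent.P159.H239.ApC
import Vale.Agent.P159.H239.Fam
import Vale.Agent.P159.H145.Nu3
import Vale.Agent.P159.H43.OscP

/-!
P159 / P_up (helper239): the numbers of `ap_trans` in the letters of `Par`, as a family.
-/

set_option linter.unusedSectionVars false

namespace Vale.Agent.P159.H239

open Finset Matrix MeasureTheory Filter Topology
open Vale.Agent.P159.TM.Spec (V)
open Vale.Agent.P159.TM.SpecC (Tor wT)
open Vale.Agent.P159.H37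
open Vale.Agent.P159.H864 (cobV yt)
open Vale.Agent.P159.H963 (nMC)
open Vale.Agent.P159.H972 (Par SI AP en lg)
open Vale.Agent.P159.H663 (bsrc)
open Vale.Agent.P159.H816 (blk Gam)
open Vale.Agent.P159.H145 (kb kb_pos OscZ Bd absorb rpow_anti two_lg_le two_lg_ge)

noncomputable section

/-- the numbers of `ap_trans` -/
lemma num_trans {x1 h c C k K0 C0 B : ℝ} (hx1 : 0 ≤ x1) (hx2 : x1 ≤ 1 / 400) (_hh : 0 ≤ h)
    (hh2 : h ≤ 1 / 400) (hc : 0 < c) (hC : 0 ≤ C) (hk : 0 < k) (hK0 : 0 ≤ K0)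
    (hC0 : 2 ≤ c * C0) (hB : 0 ≤ B) :
    ∃ Es : ℝ, 0 < Es ∧ ∀ ε M XE ym LL D q ω En : ℝ, 0 < ε → ε ≤ Es → ε ≤ 1 → 0 ≤ M →
      M ≤ 16 * ε ^ (-(4 * h)) → 0 ≤ XE → XE ≤ 4 * ε ^ (-x1) → 0 ≤ ym → ym ≤ ε ^ (1 / 2 : ℝ) →
      0 ≤ LL → LL ≤ B * ε ^ (-(1 / 1000 : ℝ)) → 0 ≤ D → D ≤ 4 * (M * XE ^ 3) ^ 2 → 0 ≤ q →
      q ≤ 2 * ε ^ C0 → ω = 2 * ((XE ^ 3) ^ 2 * (M ^ 2 * ym)) →
      En = (K0 * XE) ^ 2 * (1 + (1 + LL) / k) →
      ω ≤ 1 / 16 ∧ C * ((1 + 48 * En) ^ 6 * D) * q ^ c + 4 * ω +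
        (2308 * √ω + M ^ 2 * ym) * (24 * En) ≤ ε ^ (1 / 7 : ℝ) / 4 := by
  set A1 : ℝ := (K0 * 4) ^ 2 * (1 + (1 + B) / k) with hA1
  set A2 : ℝ := 2 * ((4 ^ 3) ^ 2 * (16 ^ 2 * 1)) with hA2
  set A3 : ℝ := C * ((1 + 48 * A1) ^ 6 * (4 * (16 * 4 ^ 3) ^ 2)) * 2 ^ c + 4 * A2 +
    (2308 * √A2 + 16 ^ 2 * 1) * (24 * A1) with hA3
  have hA1' : 0 ≤ A1 := by positivity
  have hA2' : 0 ≤ A2 := by positivity
  have hA3' : 0 ≤ A3 := by positivity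
  obtain ⟨E1, hE1, h1⟩ := absorb hA3' (show (0 : ℝ) < 1 / 100 by norm_num)
    (show (0 : ℝ) < 1 / 4 by norm_num)
  obtain ⟨E2, hE2, h2⟩ := absorb hA2' (show (0 : ℝ) < 1 / 4 by norm_num)
    (show (0 : ℝ) < 1 / 16 by norm_num)
  refine ⟨min E1 E2, lt_min hE1 hE2, ?_⟩
  intro ε M XE ym LL D q ω En he hee he1 hM0 hM hX0 hX hy0 hy hL0 hL hD0 hD hq0 hq hω hEn
  have bM : Bd ε M 16 (-(4 * h)) := ⟨hM0, by norm_num, hM⟩
  have bX : Bd ε XE 4 (-x1) := ⟨hX0, by norm_num, hX⟩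
  have by' : Bd ε ym 1 (1 / 2) := ⟨hy0, zero_le_one, by rw [one_mul]; exact hy⟩
  have bL : Bd ε LL B (-(1 / 1000)) := ⟨hL0, hB, hL⟩
  have bq : Bd ε q 2 C0 := ⟨hq0, by norm_num, hq⟩
  have b1 : Bd ε (1 : ℝ) 1 0 := Bd.cst he he1 zero_le_one
  have bω : Bd ε ω A2 (1 / 2 - 6 * x1 - 8 * h) := by
    rw [hω, hA2]
    have := (((bX.pow he 3).pow he 2).mul he ((bM.pow he 2).mul he by')).smul
      (show (0 : ℝ) ≤ 2 by norm_num)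
    refine this.exp he he1 ?_
    push_cast
    linarith
  have bEn : Bd ε En A1 (-(2 * x1) - 1 / 1000) := by
    rw [hEn, hA1]
    have e1 : Bd ε (1 + (1 + LL) / k) (1 + (1 + B) / k) (-(1 / 1000)) := by
      have e2 : Bd ε (1 + LL) (1 + B) (-(1 / 1000)) :=
        (b1.exp he he1 (by norm_num)).add bL
      have e3 := e2.smul (inv_nonneg.2 hk.le)
      have e4 : Bd ε ((1 + LL) / k) ((1 + B) / k) (-(1 / 1000)) := by
        rw [div_eq_inv_mul, div_eq_inv_mul]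
        exact e3
      exact (b1.exp he he1 (by norm_num)).add e4
    have e5 := ((bX.smul hK0).pow he 2).mul he e1
    refine e5.exp he he1 ?_
    push_cast
    linarith
  have bD : Bd ε D (4 * (16 * 4 ^ 3) ^ 2) (-(8 * h) - 6 * x1) := by
    have := ((bM.mul he (bX.pow he 3)).pow he 2).smul (show (0 : ℝ) ≤ 4 by norm_num)
    refine (this.of_le hD0 hD).exp he he1 ?_
    push_cast
    linarith
  have bC : Bd ε (C * ((1 + 48 * En) ^ 6 * D) * q ^ c)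
      (C * ((1 + 48 * A1) ^ 6 * (4 * (16 * 4 ^ 3) ^ 2)) * 2 ^ c) (1 / 7 + 1 / 100) := by
    have e1 : Bd ε (1 + 48 * En) (1 + 48 * A1) (-(2 * x1) - 1 / 1000) :=
      (b1.exp he he1 (by linarith)).add (bEn.smul (by norm_num))
    have e2 := (((e1.pow he 6).mul he bD).smul hC).mul he (bq.rp he hc.le)
    refine e2.exp he he1 ?_
    push_cast
    have : C0 * c = c * C0 := mul_comm _ _
    rw [this]
    linarith
  have b4 : Bd ε (4 * ω) (4 * A2) (1 / 7 + 1 / 100) :=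
    (bω.smul (by norm_num)).exp he he1 (by linarith)
  have b5 : Bd ε ((2308 * √ω + M ^ 2 * ym) * (24 * En)) ((2308 * √A2 + 16 ^ 2 * 1) * (24 * A1))
      (1 / 7 + 1 / 100) := by
    have e1 : Bd ε (2308 * √ω) (2308 * √A2) (1 / 4 - 3 * x1 - 4 * h) := by
      refine ((bω.sqrt he).smul (by norm_num)).exp he he1 ?_
      linarith
    have e2 : Bd ε (M ^ 2 * ym) (16 ^ 2 * 1) (1 / 4 - 3 * x1 - 4 * h) := by
      refine ((bM.pow he 2).mul he by').exp he he1 ?_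
      push_cast
      linarith
    refine ((e1.add e2).mul he (bEn.smul (by norm_num))).exp he he1 ?_
    linarith
  have bt := (bC.add b4).add b5
  rw [← hA3] at bt
  constructor
  · have e1 := (bω.exp he he1 (show (1 / 4 : ℝ) ≤ _ by linarith)).le
    exact e1.trans (h2 ε he (hee.trans (min_le_right _ _)))
  · refine bt.le.trans ?_
    have e1 := h1 ε he (hee.trans (min_le_left _ _))
    calc A3 * ε ^ (1 / 7 + 1 / 100 : ℝ) = A3 * ε ^ (1 / 100 : ℝ) * ε ^ (1 / 7 : ℝ) := by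
          rw [Real.rpow_add he]; ring
      _ ≤ 1 / 4 * ε ^ (1 / 7 : ℝ) :=
          mul_le_mul_of_nonneg_right e1 (Real.rpow_nonneg he.le _)
      _ = _ := by ring

/-- the late levels -/
lemma late (K0 : ℝ) : ∃ M0 : ℕ, ∀ m : ℕ, M0 ≤ m → 768 * (1 + (m : ℝ)) * K0 ^ 2 ≤ 2 ^ m := by
  have h1 := tendsto_pow_const_div_const_pow_of_one_lt 1 (show (1 : ℝ) < 2 by norm_num)
  have hK : 0 ≤ K0 ^ 2 := sq_nonneg _
  have h2 := h1.eventually (gt_mem_nhds (show (0 : ℝ) < 1 / (1536 * K0 ^ 2 + 1) by positivity))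
  obtain ⟨M, hM⟩ := eventually_atTop.1 h2
  refine ⟨max M 1, fun m hm => ?_⟩
  have h3 := hM m ((le_max_left _ _).trans hm)
  have h4 : (1 : ℝ) ≤ m := by exact_mod_cast (le_max_right _ _).trans hm
  rw [pow_one, div_lt_div_iff₀ (by positivity) (by positivity)] at h3
  nlinarith

lemma tn_sq (n : ℕ) : H972.tn n * ((2 : ℝ) ^ n) ^ 2 = 1 := by
  unfold H972.tn
  rw [← pow_mul, mul_comm n 2, pow_mul, show (2 : ℝ) ^ 2 = 4 by norm_num,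
    inv_mul_cancel₀ (by positivity)]

section facts

variable {P : Par} {b : ℝ} {N0 n m : ℕ} {ε Y E : ℝ}

lemma rpow_half {x : ℝ} (hx : 0 < x) (hε : 0 < ε) (hx1 : x ≤ 1) (hE1 : ε / 2 ≤ E) :
    E ^ (-x) ≤ 2 * ε ^ (-x) := by
  have h2 : E ^ (-x) ≤ (ε / 2) ^ (-x) :=
    Real.rpow_le_rpow_of_nonpos (by positivity) hE1 (by linarith)
  refine h2.trans ?_
  rw [Real.div_rpow hε.le (by norm_num), div_eq_mul_inv, ← Real.rpow_neg (by norm_num), neg_neg,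
    mul_comm]
  refine mul_le_mul_of_nonneg_right ?_ (Real.rpow_nonneg hε.le _)
  calc (2 : ℝ) ^ x ≤ 2 ^ (1 : ℝ) := Real.rpow_le_rpow_of_exponent_le (by norm_num) hx1
    _ = 2 := Real.rpow_one 2

lemma fM (hS : SI P b N0 n m ε Y) : (2 : ℝ) ^ (m - n) ≤ 16 * ε ^ (-(4 * P.thp)) := by
  have hε := hS.εpos
  have h1 := two_lg_le (c := P.thp) P.thp0.le hε hS.ε1
  have h2 : (2 : ℝ) ^ (m - n) ≤ ((2 : ℝ) ^ (P.w ε)) ^ 4 := by
    rw [← pow_mul]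
    have := hS.up
    exact pow_le_pow_right₀ (by norm_num) (by omega)
  refine h2.trans ((pow_le_pow_left₀ (by positivity) h1 4).trans (le_of_eq ?_))
  rw [H145.pow_base hε]
  norm_num
  congr 1
  ring

lemma fX (hε : 0 < ε) (hE1 : ε / 2 ≤ E) (hE2 : E ≤ 1) (hx : P.x1 ≤ 1) :
    (2 : ℝ) ^ P.xE E ≤ 4 * ε ^ (-P.x1) := by
  have h1 : (2 : ℝ) ^ P.xE E ≤ 2 * E ^ (-P.x1) :=
    two_lg_le (c := P.x1) P.x10.le (by linarith) hE2
  have h2 := rpow_half P.x10 hε hx hE1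
  linarith

lemma fy (hS : SI P b N0 n m ε Y) : max Y ε ≤ ε ^ (1 / 2 : ℝ) := by
  refine max_le ?_ ?_
  · rw [← Real.sqrt_eq_rpow]
    exact Real.le_sqrt_of_sq_le hS.yε
  · calc ε = ε ^ (1 : ℝ) := (Real.rpow_one ε).symm
      _ ≤ _ := rpow_anti hS.εpos hS.ε1 (by norm_num)

lemma flogb (hε : 0 < ε) (_hε1 : ε ≤ 1) (hE1 : ε / 2 ≤ E) :
    Real.logb 2 (1 / E) ≤ 3000 * ε ^ (-(1 / 1000 : ℝ)) := by
  have hE0 : 0 < E := by linarith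
  have e1 := H145.log_le_pow (a := 1 / 1000) (by norm_num) hE0
  have e2 := rpow_half (x := 1 / 1000) (by norm_num) hε (by norm_num) hE1
  have e5 : 0 ≤ ε ^ (-(1 / 1000 : ℝ)) := Real.rpow_nonneg hε.le _
  have e6 := Real.log_two_gt_d9
  unfold Real.logb
  rw [div_le_iff₀ (by linarith)]
  have e8 : Real.log (1 / E) ≤ 2000 * ε ^ (-(1 / 1000 : ℝ)) := by
    refine e1.trans ?_
    rw [div_le_iff₀ (by norm_num)]
    linarith
  have e9 : 2000 ≤ 3000 * Real.log 2 := by linarith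
  have e10 := mul_le_mul_of_nonneg_right e9 e5
  linarith

lemma fL (hε : 0 < ε) (hε1 : ε ≤ 1) (hE1 : ε / 2 ≤ E) (hE2 : E ≤ 1) (hx : P.x1 ≤ 1) :
    3 * (P.xE E : ℝ) + lg P.C0 E ≤ ((3 + P.C0) * 3000 + 4) * ε ^ (-(1 / 1000 : ℝ)) := by
  have hE0 : 0 < E := by linarith
  have hlb := H972.logb_nonneg' hE0 hE2
  have h1 : (P.xE E : ℝ) ≤ P.x1 * Real.logb 2 (1 / E) + 1 :=
    (Nat.ceil_lt_add_one (mul_nonneg P.x10.le hlb)).le
  have h2 : (lg P.C0 E : ℝ) ≤ P.C0 * Real.logb 2 (1 / E) + 1 :=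
    (Nat.ceil_lt_add_one (mul_nonneg P.C00.le hlb)).le
  have h3 := flogb hε hε1 hE1
  have h4 : 1 ≤ ε ^ (-(1 / 1000 : ℝ)) := H145.one_le_rpow_neg hε hε1 (by norm_num)
  have h6 : (3 * P.x1 + P.C0) * Real.logb 2 (1 / E) ≤
      (3 + P.C0) * (3000 * ε ^ (-(1 / 1000 : ℝ))) :=
    mul_le_mul (by linarith) h3 hlb (by linarith [P.C00])
  linarith

lemma f2r (hS : SI P b N0 n m ε Y) {x : ℕ} : (2 : ℝ) ^ (m + 3 * x) =
    2 ^ n * ((2 : ℝ) ^ (m - n) * ((2 : ℝ) ^ x) ^ 3) := by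
  have := hS.lt
  rw [← pow_mul, ← pow_add, ← pow_add]
  congr 1
  omega

lemma fD (hS : SI P b N0 n m ε Y) {x : ℕ} {T : ℝ} (hT2 : T ≤ 4 * H972.tn n) :
    T * ((2 : ℝ) ^ (m + 3 * x)) ^ 2 ≤ 4 * ((2 : ℝ) ^ (m - n) * ((2 : ℝ) ^ x) ^ 3) ^ 2 := by
  rw [f2r hS]
  have h1 := tn_sq n
  calc T * (2 ^ n * ((2 : ℝ) ^ (m - n) * ((2 : ℝ) ^ x) ^ 3)) ^ 2
      ≤ (4 * H972.tn n) * (2 ^ n * ((2 : ℝ) ^ (m - n) * ((2 : ℝ) ^ x) ^ 3)) ^ 2 :=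
        mul_le_mul_of_nonneg_right hT2 (by positivity)
    _ = 4 * (H972.tn n * (2 ^ n) ^ 2) * ((2 : ℝ) ^ (m - n) * ((2 : ℝ) ^ x) ^ 3) ^ 2 := by ring
    _ = _ := by rw [h1, mul_one]

lemma fq (hS : SI P b N0 n m ε Y) {T : ℝ} (hT0 : 0 ≤ T) (hT2 : T ≤ 4 * H972.tn n) :
    (2 : ℝ) ^ (P.sE n ε) * √T ≤ 2 * ε ^ P.C0 := by
  have hε := hS.εpos
  have hsqT : √T * 2 ^ n ≤ 2 := by
    have h1 : (√T * 2 ^ n) ^ 2 ≤ 2 ^ 2 := by
      rw [mul_pow, Real.sq_sqrt hT0]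
      have := tn_sq n
      have h0 : 0 ≤ ((2 : ℝ) ^ n) ^ 2 := by positivity
      nlinarith
    exact (abs_le_of_sq_le_sq' h1 (by norm_num)).2
  have hCn : 4 * lg P.C0 ε ≤ n := hS.nE
  have h1 := two_lg_ge (c := P.C0) hε
  have hns : P.sE n ε + lg P.C0 ε = n := by
    unfold H972.Par.sE
    omega
  have h2 : ((2 : ℝ) ^ (P.sE n ε) * √T) * 2 ^ (lg P.C0 ε) ≤ 2 := by
    have : (2 : ℝ) ^ n = 2 ^ (P.sE n ε) * 2 ^ (lg P.C0 ε) := by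
      rw [← pow_add, hns]
    rw [this] at hsqT
    calc _ = √T * (2 ^ (P.sE n ε) * 2 ^ (lg P.C0 ε)) := by ring
      _ ≤ 2 := hsqT
  have h3 : ((2 : ℝ) ^ (P.sE n ε) * √T) * ε ^ (-P.C0) ≤ 2 :=
    (mul_le_mul_of_nonneg_left h1 (by positivity)).trans h2
  rwa [Real.rpow_neg hε.le, ← div_eq_mul_inv, div_le_iff₀ (Real.rpow_pos_of_pos hε _)] at h3

lemma ftm (h : n < m) : 4 * H972.tn m ≤ H972.tn n := by
  unfold H972.tn
  rw [← div_eq_mul_inv, div_le_iff₀ (by positivity)]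
  obtain ⟨k, hk⟩ := Nat.exists_eq_add_of_lt h
  rw [hk, pow_succ, pow_add]
  have : (1 : ℝ) ≤ 4 ^ k := one_le_pow₀ (by norm_num)
  field_simp
  linarith

/-- the zero background numbers at the mass `t_m` -/
lemma fosc (hS : SI P b N0 n m ε Y) (hb : 0 < b) (hth : P.th ≤ P.thp) {x : ℕ} {ω : ℝ}
    (hω : ω = 2 * ((((2 : ℝ) ^ x) ^ 3) ^ 2 * (((2 : ℝ) ^ (m - n)) ^ 2 * max Y ε)))
    (hω1 : ω ≤ 1 / 16) :
    OscZ (wT b (2 ^ (m + 3 * x))) (H972.tn m •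
      (1 : Matrix (Tor (2 ^ (m + 3 * x))) (Tor (2 ^ (m + 3 * x))) ℝ)) ω ∧
    yt (2 ^ (m + 3 * x)) b (H972.tn m) ≤ ((2 : ℝ) ^ (m - n)) ^ 2 * max Y ε := by
  have hmr : m ≤ m + 3 * x := by omega
  have htm : 0 < H972.tn m := by unfold H972.tn; positivity
  have h4 := ftm hS.lt
  have hM4 : (4 : ℝ) ^ (m - n) = ((2 : ℝ) ^ (m - n)) ^ 2 := by
    rw [← pow_mul, mul_comm, pow_mul]
    norm_num
  have hyt1 := hS.yt hb hth hmr (τ := 4 * H972.tn m) (by linarith) h4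
  have hyt2 := hS.yt hb hth hmr (τ := H972.tn m) le_rfl (by linarith)
  rw [hM4] at hyt1 hyt2
  have hX3 : (2 : ℝ) ^ (m + 3 * x - m) = ((2 : ℝ) ^ x) ^ 3 := by
    rw [Nat.add_sub_cancel_left, ← pow_mul]
    congr 1
    ring
  have hosc := H43.osc_post hb hmr (T := H972.tn m) le_rfl (by linarith) hyt1 (by
    rw [hX3]
    have : 4 * ((((2 : ℝ) ^ x) ^ 3) ^ 2 * (((2 : ℝ) ^ (m - n)) ^ 2 * max Y ε)) = 2 * ω := by
      rw [hω]; ring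
    rw [this]
    linarith)
  rw [hX3, ← hω] at hosc
  exact ⟨hosc, hyt2⟩

/-- the energy of the block noise -/
lemma fen (hb : 0 < b) {x s' L : ℕ} (hs' : s' + L = m) (X : ℝ) :
    X ^ 2 * (H972.tn m * (2 ^ m) ^ 2 * (1 / (H972.tn m * (2 ^ (m + 3 * x)) ^ 2) +
        (1 + Real.log (2 ^ (m + 3 * x) / 2 ^ s')) / kb b)) ≤
      X ^ 2 * (1 + (1 + (3 * (x : ℝ) + L)) / kb b) := by
  have h1 := tn_sq m
  have hk := kb_pos hb.le
  rw [h1, one_mul]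
  refine mul_le_mul_of_nonneg_left ?_ (sq_nonneg X)
  have h2 : H972.tn m * ((2 : ℝ) ^ (m + 3 * x)) ^ 2 = ((2 : ℝ) ^ (3 * x)) ^ 2 := by
    rw [pow_add, mul_pow, ← mul_assoc, h1, one_mul]
  have h3 : 1 / (H972.tn m * ((2 : ℝ) ^ (m + 3 * x)) ^ 2) ≤ 1 := by
    rw [h2, div_le_one (by positivity)]
    exact one_le_pow₀ (one_le_pow₀ (by norm_num))
  have h4 : Real.log (2 ^ (m + 3 * x) / 2 ^ s') ≤ 3 * (x : ℝ) + L := by
    have e1 : (2 : ℝ) ^ (m + 3 * x) / 2 ^ s' = 2 ^ (3 * x + L) := by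
      rw [div_eq_iff (by positivity), ← pow_add]
      congr 1
      omega
    rw [e1, Real.log_pow]
    have := Real.log_two_lt_d9
    push_cast
    have h5 : (0 : ℝ) ≤ 3 * (x : ℝ) + L := by positivity
    nlinarith
  have h5 : (1 + Real.log (2 ^ (m + 3 * x) / 2 ^ s')) / kb b ≤
      (1 + (3 * (x : ℝ) + L)) / kb b := by
    gcongr
  linarith

/-- the slopes -/
lemma fgam (hb : 0 < b) {x s' L : ℕ} (hs' : s' + L = m) (hL : 4 * L ≤ m) (hx : x ≤ L) {K0 : ℝ}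
    (hm : 768 * (1 + (m : ℝ)) * K0 ^ 2 ≤ 2 ^ m) :
    96 * Gam (2 ^ (m + 3 * x)) (H972.tn m) (H972.tn m) (kb b) *
      ((K0 * 2 ^ x) ^ 2 * H972.tn m * ((2 : ℝ) ^ (m - s')) ^ 2) ≤ 1 := by
  have hk := kb_pos hb.le
  have hk1 := H145.kb_le hb.le
  have h1 := tn_sq m
  have htm : 0 < H972.tn m := by unfold H972.tn; positivity
  have h2 : H972.tn m * ((2 : ℝ) ^ (m + 3 * x)) ^ 2 = ((2 : ℝ) ^ (3 * x)) ^ 2 := by
    rw [pow_add, mul_pow, ← mul_assoc, h1, one_mul]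
  have hG : Gam (2 ^ (m + 3 * x)) (H972.tn m) (H972.tn m) (kb b) ≤ 8 * (1 + m) := by
    unfold H816.Gam
    push_cast
    rw [div_self htm.ne', h2, Real.log_pow]
    have e1 : kb b / ((2 : ℝ) ^ (3 * x)) ^ 2 ≤ 1 := by
      rw [div_le_one (by positivity)]
      have : (1 : ℝ) ≤ ((2 : ℝ) ^ (3 * x)) ^ 2 := one_le_pow₀ (one_le_pow₀ (by norm_num))
      linarith
    have e2 := Real.log_two_lt_d9
    have e3 : ((m + 3 * x : ℕ) : ℝ) ≤ 2 * m := by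
      have : m + 3 * x ≤ 2 * m := by omega
      exact_mod_cast this
    have e4 : (0 : ℝ) ≤ ((m + 3 * x : ℕ) : ℝ) := Nat.cast_nonneg _
    have e5 : ((m + 3 * x : ℕ) : ℝ) * Real.log 2 ≤ ((m + 3 * x : ℕ) : ℝ) * 1 := by
      refine mul_le_mul_of_nonneg_left (by linarith) e4
    linarith
  have hG0 := H816.Gam_nonneg (N := 2 ^ (m + 3 * x)) (T := H972.tn m) htm hk
  have hp : ((2 : ℝ) ^ x) ^ 2 * ((2 : ℝ) ^ (m - s')) ^ 2 ≤ 2 ^ m := by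
    rw [← pow_mul, ← pow_mul, ← pow_add]
    exact pow_le_pow_right₀ (by norm_num) (by omega)
  have hq : (K0 * 2 ^ x) ^ 2 * H972.tn m * ((2 : ℝ) ^ (m - s')) ^ 2 ≤ K0 ^ 2 / 2 ^ m := by
    rw [le_div_iff₀ (by positivity)]
    calc (K0 * 2 ^ x) ^ 2 * H972.tn m * ((2 : ℝ) ^ (m - s')) ^ 2 * 2 ^ m
        = (((2 : ℝ) ^ x) ^ 2 * ((2 : ℝ) ^ (m - s')) ^ 2) * (K0 ^ 2 * H972.tn m * 2 ^ m) := by ring
      _ ≤ 2 ^ m * (K0 ^ 2 * H972.tn m * 2 ^ m) :=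
          mul_le_mul_of_nonneg_right hp (by positivity)
      _ = K0 ^ 2 * (H972.tn m * (2 ^ m) ^ 2) := by ring
      _ = K0 ^ 2 := by rw [h1, mul_one]
  calc _ ≤ 96 * (8 * (1 + (m : ℝ))) * (K0 ^ 2 / 2 ^ m) :=
        mul_le_mul (mul_le_mul_of_nonneg_left hG (by norm_num)) hq (by positivity) (by positivity)
    _ = 768 * (1 + (m : ℝ)) * K0 ^ 2 / 2 ^ m := by ring
    _ ≤ 1 := (div_le_one (by positivity)).2 hm

end facts

/-- **`ap_trans` in the letters of `SI`** -/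
theorem trans_SI {b : ℝ} (hb : 0 < b) {K0 : ℝ} (hK0 : 1 ≤ K0) :
    ∃ C00 : ℝ, ∀ x1 thp C0 : ℝ, 0 < x1 → x1 ≤ 1 / 400 → 0 < thp → thp ≤ 1 / 400 → C00 ≤ C0 →
    ∃ Es : ℝ, 0 < Es ∧ ∀ P : Par, P.x1 = x1 → P.thp = thp → P.C0 = C0 → P.th ≤ P.thp →
      P.es ≤ Es → 4 * ⌈P.C0⌉₊ ≤ P.w P.es →
    ∃ N00 : ℕ, ∀ N0, N00 ≤ N0 → ∀ n m ε Y, SI P b N0 n m ε Y → ∀ E, ε / 2 ≤ E → E ≤ P.es →
      ∀ T, H972.tn n ≤ T → T ≤ 4 * H972.tn n →
      ∀ r s : ℕ, r = m + 3 * P.xE E → s = P.sE n ε → ∀ [NeZero (2 ^ r / 2 ^ s)] (x₀ : V (2 ^ r)),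
      (∀ B : ℕ × ℕ, (gau (V (2 ^ r / 2 ^ s))).real
        {g | E ^ (1 / 7 : ℝ) / 2 < Rs (nMC (2 ^ r) (2 ^ s) b T (H972.tn m) x₀)
          ((cobV (2 ^ r) (2 ^ s))ᵀ *ᵥ bsrc (100 * (K0 * 2 ^ P.xE E * √(H972.tn m)))
            (blk (2 ^ r / 2 ^ s) (2 ^ (m - s)) B) g)} ≤ 1 / 30) →
      AP b m r (P.sE m E) (K0 * 2 ^ P.xE E) (H972.tn m) (E ^ (1 / 7 : ℝ)) := by
  obtain ⟨C, c, hC, hc, hc1, hap⟩ := ap_trans hb
  refine ⟨max 1 (2 / c), fun x1 thp C0 hx0 hx1 ht0 ht1 hC0 => ?_⟩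
  have hC01 : 1 ≤ C0 := (le_max_left _ _).trans hC0
  have hC0c : 2 ≤ c * C0 := by
    have := (le_max_right _ _).trans hC0
    rw [div_le_iff₀ hc] at this
    linarith
  obtain ⟨Es, hEs, hnum⟩ := num_trans (x1 := x1) (h := thp) (c := c) (C := C) (k := kb b)
    (K0 := K0) (C0 := C0) (B := (3 + C0) * 3000 + 4) hx0.le hx1 ht0.le ht1 hc hC (kb_pos hb.le)
    (by linarith) hC0c (by positivity)
  refine ⟨Es, hEs, fun P p1 p2 p3 hth hes hw => ?_⟩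
  obtain ⟨M0, hM0⟩ := late K0
  refine ⟨M0, fun N0 hN0 n m ε Y hS E hE1 hE2 T hT1 hT2 r s hr hs _ x₀ hH => ?_⟩
  have hε := hS.εpos
  have hε1 := hS.ε1
  have hE0 : 0 < E := by linarith
  have hEe : E ≤ 1 := hE2.trans (P.es1.trans (by norm_num))
  have htn : 0 < H972.tn n := by unfold H972.tn; positivity
  have hT0 : 0 < T := htn.trans_le hT1
  have hnm := hS.lt
  have htmn := ftm hnm
  have htm : 0 < H972.tn m := by unfold H972.tn; positivity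
  have hx1' : P.x1 ≤ 1 := by rw [p1]; linarith
  obtain ⟨ω, hω⟩ : ∃ ω : ℝ,
      ω = 2 * ((((2 : ℝ) ^ P.xE E) ^ 3) ^ 2 * (((2 : ℝ) ^ (m - n)) ^ 2 * max Y ε)) := ⟨_, rfl⟩
  obtain ⟨En, hEn⟩ : ∃ En : ℝ, En = (K0 * (2 : ℝ) ^ P.xE E) ^ 2 *
      (1 + (1 + (3 * (P.xE E : ℝ) + lg P.C0 E)) / kb b) := ⟨_, rfl⟩
  obtain ⟨n1, n2⟩ := hnum ε ((2 : ℝ) ^ (m - n)) ((2 : ℝ) ^ P.xE E) (max Y ε)
    (3 * (P.xE E : ℝ) + lg P.C0 E) (T * ((2 : ℝ) ^ r) ^ 2) ((2 : ℝ) ^ s * √T) ω En hε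
    (hS.εes.trans hes) hε1 (by positivity) (by rw [← p2]; exact fM hS) (by positivity)
    (by rw [← p1]; exact fX hε hE1 hEe hx1') (le_max_of_le_right hε.le) (fy hS) (by positivity)
    (by rw [← p3]; exact fL hε hε1 hE1 hEe hx1') (by positivity) (by rw [hr]; exact fD hS hT2)
    (by positivity) (by rw [hs, ← p3]; exact fq hS hT0.le hT2) hω hEn
  clear hnum
  have hCm : 4 * lg P.C0 E ≤ m := hS.nE' hw hE1
  have hCn : 4 * lg P.C0 ε ≤ n := hS.nE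
  have hCE : lg P.C0 E ≤ lg P.C0 ε + ⌈P.C0⌉₊ := H972.lg_half_le P.C00.le hε hE1
  have hwm : P.w P.es ≤ P.w ε := H972.lg_anti P.thp0.le hε hS.εes
  have hlo := hS.lo
  have hxl : P.xE E ≤ lg P.C0 E := H972.lg_mono (by rw [p1, p3]; linarith) hE0 hEe
  have hL1 : 1 ≤ lg P.C0 ε := H972.one_le_lg P.C00 hε (hS.εes.trans P.es1)
  obtain ⟨s', hs'⟩ : ∃ s', s' = P.sE m E := ⟨_, rfl⟩
  have es : s = n - lg P.C0 ε := hs
  have es' : s' = m - lg P.C0 E := hs'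
  rw [← hs']
  have hk := kb_pos hb.le
  have hω0 : 0 < ω := by
    rw [hω]
    have : 0 < max Y ε := lt_max_of_lt_right hε
    positivity
  have hEn0 : 0 < En := by rw [hEn]; positivity
  obtain ⟨o1, o2⟩ := fosc hS hb hth hω n1
  have hadd : s' + lg P.C0 E = m := by omega
  refine hap n m r s s' (by omega) (by omega) (by omega) (by omega) (by omega) T ?_ ?_
    (by linarith) x₀ (K0 * (2 : ℝ) ^ P.xE E) En ω (E ^ (1 / 7 : ℝ) / 2) (E ^ (1 / 7 : ℝ))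
    (by positivity) hEn0 hω0 n1 ?_ (by rw [hr]; exact o1) ?_ ?_ hH ?_
  · have h1 : ((2 : ℝ) ^ s) ^ 2 * 4 ≤ ((2 : ℝ) ^ n) ^ 2 := by
      have : (2 : ℝ) ^ n = 2 ^ s * 2 ^ (lg P.C0 ε) := by
        rw [← pow_add]
        congr 1
        omega
      rw [this, mul_pow]
      refine mul_le_mul_of_nonneg_left ?_ (by positivity)
      calc (4 : ℝ) = (2 ^ 1) ^ 2 := by norm_num
        _ ≤ (2 ^ (lg P.C0 ε)) ^ 2 := by
            gcongr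
            · norm_num
    have h2 := tn_sq n
    calc T * ((2 : ℝ) ^ s) ^ 2 ≤ (4 * H972.tn n) * ((2 : ℝ) ^ s) ^ 2 :=
          mul_le_mul_of_nonneg_right hT2 (by positivity)
      _ = H972.tn n * (((2 : ℝ) ^ s) ^ 2 * 4) := by ring
      _ ≤ H972.tn n * ((2 : ℝ) ^ n) ^ 2 := mul_le_mul_of_nonneg_left h1 htn.le
      _ = 1 := h2
  · have h1 : H972.tn n * 4 ^ (n + 1) = 4 := by
      unfold H972.tn
      rw [pow_succ]
      field_simp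
    have h2 : H972.tn n * 4 ^ (n + 1) ≤ T * 4 ^ (n + 1) :=
      mul_le_mul_of_nonneg_right hT1 (by positivity)
    linarith
  · have : E ^ (1 / 7 : ℝ) ≤ 1 := Real.rpow_le_one hE0.le hEe (by norm_num)
    linarith
  · rw [hr, hEn]
    exact fen hb hadd _
  · rw [hr]
    exact fgam hb hadd hCm hxl (hM0 m (by have := hS.n0; omega))
  · have h1 : ε ^ (1 / 7 : ℝ) / 4 ≤ E ^ (1 / 7 : ℝ) / 2 := by
      have e1 : (ε / 2) ^ (1 / 7 : ℝ) ≤ E ^ (1 / 7 : ℝ) :=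
        Real.rpow_le_rpow (by positivity) hE1 (by norm_num)
      have e2 : ε ^ (1 / 7 : ℝ) / 2 ≤ (ε / 2) ^ (1 / 7 : ℝ) := by
        rw [Real.div_rpow hε.le (by norm_num)]
        have e3 : (2 : ℝ) ^ (1 / 7 : ℝ) ≤ 2 := by
          calc (2 : ℝ) ^ (1 / 7 : ℝ) ≤ 2 ^ (1 : ℝ) :=
                Real.rpow_le_rpow_of_exponent_le (by norm_num) (by norm_num)
            _ = 2 := Real.rpow_one 2
        gcongr
      linarith
    have h2 : (2308 * √ω + yt (2 ^ r) b (H972.tn m)) * (24 * En) ≤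
        (2308 * √ω + ((2 : ℝ) ^ (m - n)) ^ 2 * max Y ε) * (24 * En) := by
      refine mul_le_mul_of_nonneg_right ?_ (by positivity)
      rw [hr]
      linarith
    linarith

/-- **`ap_trans` as a family** -/
theorem fam_trans {b b1 b2 pf : ℝ} (hb : 0 < b) {K0 : ℝ} (hK0 : 1 ≤ K0) :
    Fam b1 b2 pf fun P N0 => ∀ n m ε Y, SI P b N0 n m ε Y → ∀ E, ε / 2 ≤ E → E ≤ P.es →
      ∀ T, H972.tn n ≤ T → T ≤ 4 * H972.tn n →
      ∀ r s : ℕ, r = m + 3 * P.xE E → s = P.sE n ε → ∀ [NeZero (2 ^ r / 2 ^ s)] (x₀ : V (2 ^ r)),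
      (∀ B : ℕ × ℕ, (gau (V (2 ^ r / 2 ^ s))).real
        {g | E ^ (1 / 7 : ℝ) / 2 < Rs (nMC (2 ^ r) (2 ^ s) b T (H972.tn m) x₀)
          ((cobV (2 ^ r) (2 ^ s))ᵀ *ᵥ bsrc (100 * (K0 * 2 ^ P.xE E * √(H972.tn m)))
            (blk (2 ^ r / 2 ^ s) (2 ^ (m - s)) B) g)} ≤ 1 / 30) →
      AP b m r (P.sE m E) (K0 * 2 ^ P.xE E) (H972.tn m) (E ^ (1 / 7 : ℝ)) := by
  obtain ⟨C00, h⟩ := trans_SI hb hK0
  refine ⟨0, fun W _ => ⟨1, one_pos, fun ys hy _ => ⟨0, fun X0 _ => ?_⟩⟩⟩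
  refine ⟨1 / 400, by norm_num, fun x1 hx1 hx1' => ⟨0, fun Q _ => ?_⟩⟩
  refine ⟨1 / 400, by norm_num, fun thp ht ht' => ⟨thp, ht, fun th hth hth' => ⟨C00, fun C0 hC hC' =>
    ?_⟩⟩⟩
  obtain ⟨Es, hEs, h⟩ := h x1 thp C0 hx1 hx1' ht ht' hC'
  obtain ⟨E, hE, hl⟩ := lg_large ht (4 * ⌈C0⌉₊)
  refine ⟨min Es E, lt_min hEs hE, fun P hP hes => ?_⟩
  have hw : 4 * ⌈P.C0⌉₊ ≤ P.w P.es := by
    show 4 * ⌈P.C0⌉₊ ≤ lg P.thp P.es
    rw [hP.hC0, hP.hthp]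
    exact hl P.es P.es0 (hes.trans (min_le_right _ _))
  exact h P hP.hx1 hP.hthp hP.hC0 (by rw [hP.hth, hP.hthp]; exact hth')
    (hes.trans (min_le_left _ _)) hw

end

end Vale.Agent.P159.H239
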