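import Vale.Agent.P159.H239.ApD
import Vale.Agent.P159.H789.TaH

/-!
P159 / P_up (helper239): `ApStep` as a family, from the block source bound (helper663) at the one
size `en sg ε Y`, `fam_trans` and the change of size (helper789).
-/

set_option linter.unusedSectionVars false

namespace Vale.Agent.P159.H239

open Finset Matrix MeasureTheory Filter Topology
open Vale.Agent.P159.TM.Spec (V)
open Vale.Agent.P159.H37
open Vale.Agent.P159.H864 (cobV)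
open Vale.Agent.P159.H963 (nMC)
open Vale.Agent.P159.H972 (Par SI AP en lg FLs RNGs ApStep)
open Vale.Agent.P159.H663 (bsrc)
open Vale.Agent.P159.H816 (blk)

noncomputable section

/-- the block source bound at the size `E = en sg ε Y`, on the cells of the level `n`, prior mass
`t_m`, posterior mass `τ` (output of helper663) -/
def BlkT (P : Par) (b sg : ℝ) (N0 : ℕ) : Prop :=
  ∀ n m ε Y a, SI P b N0 n m ε Y → FLs P b m (en sg ε Y) a → RNGs P b m (en sg ε Y) →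
    en sg ε Y ≤ P.es → ∃ τ, H972.tn n ≤ τ ∧ τ ≤ 4 * H972.tn n ∧
    ∀ r s : ℕ, r = m + 3 * P.xE (en sg ε Y) → s = P.sE n ε → ∀ [NeZero (2 ^ r / 2 ^ s)]
      (B : ℕ × ℕ), (gau (V (2 ^ r / 2 ^ s))).real
        {g | en sg ε Y ^ (1 / 7 : ℝ) / 2 < Rs (nMC (2 ^ r) (2 ^ s) b τ (H972.tn m) 0)
          ((cobV (2 ^ r) (2 ^ s))ᵀ *ᵥ bsrc (100 * (36 * 2 ^ P.xE (en sg ε Y) * √(H972.tn m)))
            (blk (2 ^ r / 2 ^ s) (2 ^ (m - s)) B) g)} ≤ 1 / 30

variable {b b1 b2 pf sg : ℝ}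

lemma fam_late (k : ℕ) : Fam b1 b2 pf fun _ N0 => k ≤ N0 :=
  ⟨0, fun _ _ => ⟨1, one_pos, fun _ _ _ => ⟨0, fun _ _ => ⟨1, one_pos, fun _ _ _ => ⟨0, fun _ _ =>
    ⟨1, one_pos, fun _ _ _ => ⟨1, one_pos, fun _ _ _ => ⟨0, fun _ _ _ => ⟨1, one_pos, fun _ _ _ =>
      ⟨k, fun _ h => h⟩⟩⟩⟩⟩⟩⟩⟩⟩⟩

/-- **`ApStep` as a family** -/
theorem fam_apS (hb1 : 0 < b1) (h1 : b1 ≤ b) (hB : Fam b1 b2 pf fun P N0 => BlkT P b sg N0) :
    Fam b1 b2 pf fun P N0 => ApStep P b sg N0 := by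
  have hb : 0 < b := hb1.trans_le h1
  refine (((hB.and (fam_trans hb (K0 := 36) (by norm_num))).and
    ((H789.fam_apj (b2 := b2) (pf := pf) hb1).and fam_w)).and (fam_late 12)).imp
    fun P N0 hAd _ _ _ h => ?_
  obtain ⟨⟨⟨e1, e2⟩, e3, e4⟩, e5⟩ := h
  intro n m ε Y a hS hF hR
  have hε := hS.εpos
  have hE1 : ε / 2 ≤ en sg ε Y := le_max_left _ _
  have hE0 : 0 < en sg ε Y := by linarith
  rcases lt_or_ge P.es (en sg ε Y) with h5 | h5
  · intro e he hes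
    linarith
  · obtain ⟨τ, t1, t2, h6⟩ := e1 n m ε Y a hS hF hR h5
    have hnm := hS.lt
    have hsn : P.sE n ε ≤ n := Nat.sub_le _ _
    have hne : NeZero (2 ^ (m + 3 * P.xE (en sg ε Y)) / 2 ^ (P.sE n ε)) := ⟨by
      rw [Nat.pow_div (by omega) two_pos]
      positivity⟩
    have h7 := e2 n m ε Y hS (en sg ε Y) hE1 h5 τ t1 t2 (m + 3 * P.xE (en sg ε Y)) (P.sE n ε) rfl
      rfl 0 (h6 _ _ rfl rfl)
    have h8 := hS.nE' e4 hE1
    have h9 := hS.n0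
    exact e3 b m (en sg ε Y) hE0 (by omega) (by omega) hR h7

end

end Vale.Agent.P159.H239
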