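import Vale.Agent.P159.H239.Met0

/-!
P159 / second order flow, module CONTR (helper239), part 1: adding an independent symmetric field
`y ~ κ` to the background changes a weighted mean of `R` (weight `W` of mean zero) only by the
product of the two tangents `tn`.  This is the law shift without any comparison of laws.
-/

namespace Vale.Agent.P159.H239

open Real MeasureTheory

variable {E : Type*} [NormedAddCommGroup E] [NormedSpace ℝ E] [MeasurableSpace E] [BorelSpace E]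
  [SecondCountableTopology E]
variable {Ω : Type*} [MeasurableSpace Ω] {P : Measure Ω} [IsProbabilityMeasure P]
variable {κ : Measure E} [IsProbabilityMeasure κ]
variable {R Q : E → ℝ}

/-- the standing hypotheses: `0 ≤ R ≤ Q`, `Q` has the parallelogram identity -/
structure Dom (R Q : E → ℝ) : Prop where
  met : Met R
  le : ∀ x, R x ≤ Q x
  par : ∀ a c, Q (a + c) + Q (a - c) = 2 * Q a + 2 * Q c
  mR : Measurable R
  mQ : Measurable Q

namespace Dom

variable (h : Dom R Q)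
include h

theorem Q_nonneg (x : E) : 0 ≤ Q x := (h.met.nn x).trans (h.le x)

theorem R_add_le (a c : E) : R (a + c) ≤ 2 * Q a + 2 * Q c := by
  linarith [h.par a c, h.le (a + c), h.Q_nonneg (a - c)]

theorem R_sub_le (a c : E) : R (a - c) ≤ 2 * Q a + 2 * Q c := by
  linarith [h.par a c, h.le (a - c), h.Q_nonneg (a + c)]

theorem int_R (hκQ : Integrable Q κ) : Integrable R κ :=
  Integrable.mono' hκQ h.mR.aestronglyMeasurable
    (Filter.Eventually.of_forall fun x => by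
      rw [Real.norm_eq_abs, abs_of_nonneg (h.met.nn x)]; exact h.le x)

theorem int_Radd (hκQ : Integrable Q κ) (a : E) : Integrable (fun y => R (a + y)) κ := by
  refine Integrable.mono' ((integrable_const (2 * Q a)).add (hκQ.const_mul 2))
    (h.mR.comp (measurable_const_add a)).aestronglyMeasurable
    (Filter.Eventually.of_forall fun y => ?_)
  rw [Real.norm_eq_abs, abs_of_nonneg (h.met.nn _)]
  exact h.R_add_le a y

theorem int_Rsub (hκQ : Integrable Q κ) (a : E) : Integrable (fun y => R (a - y)) κ := by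
  refine Integrable.mono' ((integrable_const (2 * Q a)).add (hκQ.const_mul 2))
    (h.mR.comp (measurable_const_sub a)).aestronglyMeasurable
    (Filter.Eventually.of_forall fun y => ?_)
  rw [Real.norm_eq_abs, abs_of_nonneg (h.met.nn _)]
  exact h.R_sub_le a y

theorem int_dl (hκQ : Integrable Q κ) (a : E) : Integrable (fun y => dl R a y) κ := by
  unfold dl
  exact (((h.int_Radd hκQ a).add (h.int_Rsub hκQ a)).sub (integrable_const _)).sub
    ((h.int_R hκQ).const_mul 2)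

/-- averaging over a symmetric `y` -/
theorem mean_add (hκQ : Integrable Q κ) (hκ : κ.map (fun y => -y) = κ) (a : E) :
    ∫ y, R (a + y) ∂κ = R a + ∫ y, R y ∂κ + (1 / 2) * ∫ y, dl R a y ∂κ := by
  have h1 : ∫ y, R (a - y) ∂κ = ∫ y, R (a + y) ∂κ := by
    have h2 : ∫ y, R (a + y) ∂(κ.map fun y => -y) = ∫ y, R (a + -y) ∂κ :=
      integral_map measurable_neg.aemeasurable
        (h.mR.comp (measurable_const_add a)).aestronglyMeasurable
    rw [hκ] at h2
    rw [h2]
    simp only [sub_eq_add_neg]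
  have h3 : ∫ y, dl R a y ∂κ = ∫ y, R (a + y) ∂κ + ∫ y, R (a - y) ∂κ - 2 * R a
      - 2 * ∫ y, R y ∂κ := by
    have e : (fun y => dl R a y) = fun y => (R (a + y) + R (a - y)) - (2 * R a + 2 * R y) := by
      funext y
      unfold dl
      ring
    have A : Integrable (fun y => R (a + y) + R (a - y)) κ :=
      (h.int_Radd hκQ a).add (h.int_Rsub hκQ a)
    have B : Integrable (fun y => 2 * R a + 2 * R y) κ :=
      (integrable_const _).add ((h.int_R hκQ).const_mul 2)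
    rw [e, integral_sub A B, integral_add (h.int_Radd hκQ a) (h.int_Rsub hκQ a),
      integral_add (integrable_const _) ((h.int_R hκQ).const_mul 2), integral_const,
      integral_const_mul]
    simp
    ring
  rw [h3, h1]
  ring

/-- size of the mean defect -/
theorem abs_mean_dl_le (hκQ : Integrable Q κ) (a : E) :
    ∫ y, |dl R a y| ∂κ ≤ 2 * Q a + 2 * ∫ y, Q y ∂κ := by
  have h1 : ∫ y, |dl R a y| ∂κ ≤ ∫ y, (2 * Q a + 2 * Q y) ∂κ :=
    integral_mono (h.int_dl hκQ a).abs ((integrable_const _).add (hκQ.const_mul 2))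
      fun y => h.met.abs_dl_crude h.le h.par a y
  rw [integral_add (integrable_const _) (hκQ.const_mul 2), integral_const,
    integral_const_mul] at h1
  simpa using h1

/-- the mean defect at a good point -/
theorem abs_mean_dl_good (hκQ : Integrable Q κ) {C : Set E} (hC : MeasurableSet C) {rc : ℝ}
    (hrc0 : 0 ≤ rc) (hrc : rc ≤ 1) (hCR : ∀ y ∈ C, R y ≤ 1 ∧ TR R y ≤ rc) {a : E} {ra : ℝ}
    (hra0 : 0 ≤ ra) (hra : ra ≤ 1) (haR : R a ≤ 1) (haT : TR R a ≤ ra) :
    ∫ y, |dl R a y| ∂κ ≤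
      20 * (Real.sqrt ra * Real.sqrt rc) + 2 * Q a * κ.real Cᶜ + 2 * ∫ y in Cᶜ, Q y ∂κ := by
  have hta : tn R a ≤ Real.sqrt 2 * Real.sqrt ra := by
    rw [← Real.sqrt_mul (by norm_num)]
    exact Real.le_sqrt_of_sq_le (tn_sq_le hra0 hra haT)
  rw [← integral_add_compl hC (h.int_dl hκQ a).abs]
  have h1 : ∫ y in C, |dl R a y| ∂κ ≤ 20 * (Real.sqrt ra * Real.sqrt rc) := by
    have h2 : ∫ y in C, |dl R a y| ∂κ ≤ ∫ y in C, 20 * (Real.sqrt ra * Real.sqrt rc) ∂κ := by
      refine setIntegral_mono_on (h.int_dl hκQ a).abs.integrableOn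
        (integrable_const _).integrableOn hC fun y hy => ?_
      obtain ⟨hy1, hy2⟩ := hCR y hy
      have htc : tn R y ≤ Real.sqrt 2 * Real.sqrt rc := by
        rw [← Real.sqrt_mul (by norm_num)]
        exact Real.le_sqrt_of_sq_le (tn_sq_le hrc0 hrc hy2)
      refine (h.met.abs_dl_le' haR hy1).trans ?_
      have h3 : tn R a * tn R y ≤
          (Real.sqrt 2 * Real.sqrt ra) * (Real.sqrt 2 * Real.sqrt rc) :=
        mul_le_mul hta htc (tn_nonneg _ _) (by positivity)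
      have h4 : (Real.sqrt 2 * Real.sqrt ra) * (Real.sqrt 2 * Real.sqrt rc) =
          2 * (Real.sqrt ra * Real.sqrt rc) := by
        have : Real.sqrt 2 * Real.sqrt 2 = 2 := Real.mul_self_sqrt (by norm_num)
        linear_combination (Real.sqrt ra * Real.sqrt rc) * this
      linarith
    refine h2.trans ?_
    rw [setIntegral_const, smul_eq_mul]
    have h5 : κ.real C ≤ 1 := measureReal_le_one
    have h6 : 0 ≤ 20 * (Real.sqrt ra * Real.sqrt rc) := by positivity
    nlinarith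
  have h2 : ∫ y in Cᶜ, |dl R a y| ∂κ ≤ 2 * Q a * κ.real Cᶜ + 2 * ∫ y in Cᶜ, Q y ∂κ := by
    have h3 : ∫ y in Cᶜ, |dl R a y| ∂κ ≤ ∫ y in Cᶜ, (2 * Q a + 2 * Q y) ∂κ :=
      setIntegral_mono (h.int_dl hκQ a).abs.integrableOn
        ((integrable_const _).add (hκQ.const_mul 2)).integrableOn
        fun y => h.met.abs_dl_crude h.le h.par a y
    have h4 : ∫ y in Cᶜ, (2 * Q a + 2 * Q y) ∂κ = 2 * Q a * κ.real Cᶜ +
        2 * ∫ y in Cᶜ, Q y ∂κ := by
      rw [integral_add (integrable_const _) (hκQ.const_mul 2).integrableOn, setIntegral_const,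
        smul_eq_mul]
      rw [integral_const_mul 2 Q]
      ring
    linarith
  linarith

end Dom

section core

variable {a : Ω → E} {W : Ω → ℝ}

/-- **the exact formula**: weight of mean zero, independent symmetric shift -/
theorem core_eq (h : Dom R Q) (hκQ : Integrable Q κ) (hκ : κ.map (fun y => -y) = κ)
    (hW0 : ∫ ω, W ω ∂P = 0) (hWi : Integrable W P)
    (hWR : Integrable (fun ω => W ω * ∫ y, dl R (a ω) y ∂κ) P) :
    ∫ ω, W ω * (∫ y, R (a ω + y) ∂κ - R (a ω)) ∂P =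
      (1 / 2) * ∫ ω, W ω * ∫ y, dl R (a ω) y ∂κ ∂P := by
  have h1 : (fun ω => W ω * (∫ y, R (a ω + y) ∂κ - R (a ω))) =
      fun ω => W ω * (∫ y, R y ∂κ) + (1 / 2) * (W ω * ∫ y, dl R (a ω) y ∂κ) := by
    funext ω
    rw [h.mean_add hκQ hκ (a ω)]
    ring
  rw [h1, integral_add (hWi.mul_const _) (hWR.const_mul _), integral_mul_const, hW0, zero_mul,
    zero_add, integral_const_mul]

/-- the right-hand side of the estimate: good parts with `T ≤ ra`, `T ≤ rc`, and the bad sets -/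
noncomputable def rhs (P : Measure Ω) (κ : Measure E) (Q : E → ℝ) (a : Ω → E) (W : Ω → ℝ)
    (A : Set Ω) (C : Set E) (ra rc : ℝ) : ℝ :=
  10 * (Real.sqrt ra * Real.sqrt rc) * ∫ ω, |W ω| ∂P +
    (κ.real Cᶜ * ∫ ω, |W ω| * Q (a ω) ∂P + (∫ y in Cᶜ, Q y ∂κ) * ∫ ω, |W ω| ∂P) +
    (∫ ω in Aᶜ, |W ω| * Q (a ω) ∂P + (∫ y, Q y ∂κ) * ∫ ω in Aᶜ, |W ω| ∂P)

/-- **the estimate**: with good sets `A`, `C`, any weight -/
theorem est_le (h : Dom R Q) (hκQ : Integrable Q κ) (hWi : Integrable W P)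
    (hWQ : Integrable (fun ω => |W ω| * Q (a ω)) P)
    (hWR : Integrable (fun ω => W ω * ∫ y, dl R (a ω) y ∂κ) P)
    {A : Set Ω} (hA : MeasurableSet A) {C : Set E} (hC : MeasurableSet C) {ra rc : ℝ}
    (hra0 : 0 ≤ ra) (hra : ra ≤ 1) (hrc0 : 0 ≤ rc) (hrc : rc ≤ 1)
    (hAR : ∀ ω ∈ A, R (a ω) ≤ 1 ∧ TR R (a ω) ≤ ra) (hCR : ∀ y ∈ C, R y ≤ 1 ∧ TR R y ≤ rc) :
    (1 / 2) * |∫ ω, W ω * ∫ y, dl R (a ω) y ∂κ ∂P| ≤ rhs P κ Q a W A C ra rc := by
  unfold rhs
  set g : Ω → ℝ := fun ω => |W ω| * (20 * (Real.sqrt ra * Real.sqrt rc) +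
    2 * Q (a ω) * κ.real Cᶜ + 2 * ∫ y in Cᶜ, Q y ∂κ) with hg
  set b : Ω → ℝ := fun ω => |W ω| * (2 * Q (a ω) + 2 * ∫ y, Q y ∂κ) with hb
  have hgi : Integrable g P := by
    have : g = fun ω => (20 * (Real.sqrt ra * Real.sqrt rc) + 2 * ∫ y in Cᶜ, Q y ∂κ) * |W ω| +
        (2 * κ.real Cᶜ) * (|W ω| * Q (a ω)) := by
      funext ω
      rw [hg]
      ring
    rw [this]
    exact (hWi.abs.const_mul _).add (hWQ.const_mul _)
  have hbi : Integrable b P := by
    have : b = fun ω => 2 * (|W ω| * Q (a ω)) + (2 * ∫ y, Q y ∂κ) * |W ω| := by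
      funext ω
      rw [hb]
      ring
    rw [this]
    exact (hWQ.const_mul _).add (hWi.abs.const_mul _)
  have h0 : ∀ ω, |W ω * ∫ y, dl R (a ω) y ∂κ| ≤ |W ω| * ∫ y, |dl R (a ω) y| ∂κ := fun ω => by
    rw [abs_mul]
    exact mul_le_mul_of_nonneg_left abs_integral_le_integral_abs (abs_nonneg _)
  have hgood : ∀ ω ∈ A, |W ω * ∫ y, dl R (a ω) y ∂κ| ≤ g ω := fun ω hω =>
    (h0 ω).trans (mul_le_mul_of_nonneg_left (h.abs_mean_dl_good hκQ hC hrc0 hrc hCR hra0 hra
      (hAR ω hω).1 (hAR ω hω).2) (abs_nonneg _))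
  have hbad : ∀ ω, |W ω * ∫ y, dl R (a ω) y ∂κ| ≤ b ω := fun ω =>
    (h0 ω).trans (mul_le_mul_of_nonneg_left (h.abs_mean_dl_le hκQ (a ω)) (abs_nonneg _))
  have hg0 : ∀ ω, 0 ≤ g ω := fun ω => by
    rw [hg]
    refine mul_nonneg (abs_nonneg _) ?_
    have h2 : 0 ≤ ∫ y in Cᶜ, Q y ∂κ := integral_nonneg fun y => h.Q_nonneg y
    have h3 := h.Q_nonneg (a ω)
    positivity
  have h1 : |∫ ω, W ω * ∫ y, dl R (a ω) y ∂κ ∂P| ≤ ∫ ω, g ω ∂P + ∫ ω in Aᶜ, b ω ∂P := by
    refine abs_integral_le_integral_abs.trans ?_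
    rw [← integral_add_compl hA hWR.abs]
    refine add_le_add ?_ ?_
    · refine (setIntegral_mono_on hWR.abs.integrableOn hgi.integrableOn hA hgood).trans ?_
      exact setIntegral_le_integral hgi (Filter.Eventually.of_forall hg0)
    · exact setIntegral_mono hWR.abs.integrableOn hbi.integrableOn hbad
  have h2 : ∫ ω, g ω ∂P = 20 * (Real.sqrt ra * Real.sqrt rc) * ∫ ω, |W ω| ∂P +
      2 * (κ.real Cᶜ * ∫ ω, |W ω| * Q (a ω) ∂P) + 2 * ((∫ y in Cᶜ, Q y ∂κ) * ∫ ω, |W ω| ∂P) := by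
    have : g = fun ω => (20 * (Real.sqrt ra * Real.sqrt rc) + 2 * ∫ y in Cᶜ, Q y ∂κ) * |W ω| +
        (2 * κ.real Cᶜ) * (|W ω| * Q (a ω)) := by
      funext ω
      rw [hg]
      ring
    rw [this, integral_add (hWi.abs.const_mul _) (hWQ.const_mul _), integral_const_mul,
      integral_const_mul]
    ring
  have h3 : ∫ ω in Aᶜ, b ω ∂P = 2 * ∫ ω in Aᶜ, |W ω| * Q (a ω) ∂P +
      2 * ((∫ y, Q y ∂κ) * ∫ ω in Aᶜ, |W ω| ∂P) := by
    have : b = fun ω => 2 * (|W ω| * Q (a ω)) + (2 * ∫ y, Q y ∂κ) * |W ω| := by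
      funext ω
      rw [hb]
      ring
    rw [this, integral_add (hWQ.const_mul _).integrableOn (hWi.abs.const_mul _).integrableOn,
      integral_const_mul, integral_const_mul]
    ring
  rw [h2, h3] at h1
  linarith

/-- joint measurability of `a ↦ ∫ dl R a y` -/
theorem meas_mean_dl (h : Dom R Q) (ha : Measurable a) :
    AEStronglyMeasurable (fun ω => ∫ y, dl R (a ω) y ∂κ) P := by
  have h1 : Measurable (Function.uncurry fun (ω : Ω) (y : E) => dl R (a ω) y) := by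
    unfold dl
    have m1 : Measurable fun p : Ω × E => a p.1 + p.2 := (ha.comp measurable_fst).add measurable_snd
    have m2 : Measurable fun p : Ω × E => a p.1 - p.2 := (ha.comp measurable_fst).sub measurable_snd
    exact (((h.mR.comp m1).add (h.mR.comp m2)).sub
      ((h.mR.comp (ha.comp measurable_fst)).const_mul 2)).sub
      ((h.mR.comp measurable_snd).const_mul 2)
  exact (h1.stronglyMeasurable.integral_prod_right (ν := κ)).aestronglyMeasurable

theorem int_W_dl (h : Dom R Q) (hκQ : Integrable Q κ) (ha : Measurable a) (hWi : Integrable W P)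
    (hWQ : Integrable (fun ω => |W ω| * Q (a ω)) P) :
    Integrable (fun ω => W ω * ∫ y, dl R (a ω) y ∂κ) P := by
  have hbi : Integrable (fun ω => 2 * (|W ω| * Q (a ω)) + (2 * ∫ y, Q y ∂κ) * |W ω|) P :=
    (hWQ.const_mul _).add (hWi.abs.const_mul _)
  refine Integrable.mono' hbi (hWi.aestronglyMeasurable.mul (meas_mean_dl h ha))
    (Filter.Eventually.of_forall fun ω => ?_)
  rw [Real.norm_eq_abs, abs_mul]
  have h1 := mul_le_mul_of_nonneg_left
    (abs_integral_le_integral_abs.trans (h.abs_mean_dl_le hκQ (a ω))) (abs_nonneg (W ω))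
  linarith

/-- **law shift without comparison of laws**: a weight of mean zero, an independent symmetric
shift `y ~ κ` -/
theorem core_le (h : Dom R Q) (hκQ : Integrable Q κ) (hκ : κ.map (fun y => -y) = κ)
    (ha : Measurable a) (hW0 : ∫ ω, W ω ∂P = 0) (hWi : Integrable W P)
    (hWQ : Integrable (fun ω => |W ω| * Q (a ω)) P)
    {A : Set Ω} (hA : MeasurableSet A) {C : Set E} (hC : MeasurableSet C) {ra rc : ℝ}
    (hra0 : 0 ≤ ra) (hra : ra ≤ 1) (hrc0 : 0 ≤ rc) (hrc : rc ≤ 1)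
    (hAR : ∀ ω ∈ A, R (a ω) ≤ 1 ∧ TR R (a ω) ≤ ra) (hCR : ∀ y ∈ C, R y ≤ 1 ∧ TR R y ≤ rc) :
    |∫ ω, W ω * (∫ y, R (a ω + y) ∂κ - R (a ω)) ∂P| ≤ rhs P κ Q a W A C ra rc := by
  have hWR := int_W_dl h hκQ ha hWi hWQ
  rw [core_eq h hκQ hκ hW0 hWi hWR, abs_mul, abs_of_pos (by norm_num : (0 : ℝ) < 1 / 2)]
  exact est_le h hκQ hWi hWQ hWR hA hC hra0 hra hrc0 hrc hAR hCR

end core

end Vale.Agent.P159.H239
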