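import Vale.Agent.P159.H239.Glu1

/-!
P159 / GLUE P_up (helper239), part 2: **STEP_D without the intermediate masses**.

The left half of the saturation identity is replaced by the linear least squares bound
`Π_T - Π_a ≤ 1/g - 1/c̄ + κ/g²`, `κ(k)` = symbol of the nonlinear part of the posterior mean.
-/

namespace Vale.Agent.P159.H239

open Finset Matrix MeasureTheory
open Vale.Agent.P159.H37
open Vale.Agent.P159.TM.H764 (EE)
open Vale.Agent.P159.TM.Spec (V)
open Vale.Agent.P159.H864 (TI sym)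
open Vale.Agent.P159.H447 (K4S SN CN)
open Vale.Agent.P159.H963 (Gnc PinC nwt obsN)
open Vale.Agent.P159.H730 (wN CbNk gN STN bad_torN hs2)
open Vale.Agent.P159.H159

noncomputable section

variable {N l : ℕ} [NeZero N] [NeZero (N / l)] {b T a c : ℝ}

/-- the saturation data with the empty good set always exist -/
theorem stn_triv (hb : 0 < b) (hl : l ∣ N) {s : ℝ} (hs : 0 < s) (h : s ≤ T) :
    STN N l b T s T 0 (1500 * (((N / l : ℕ) : ℝ) ^ 2 / s) ^ 2) (fun _ => ∅) where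
  b0 := hb
  dvd := hl
  pos := hs
  le := h
  le' := le_rfl
  th0 := le_rfl
  e0 := by positivity
  meas σ _ := MeasurableSet.empty
  th σ _ J hJ _ := absurd hJ (Set.notMem_empty J)
  err σ hσ := by
    have h1 := bad_torN (N := N) (l := l) (t := T) hb.le hl hs hσ.1 hσ.2
      (A := (∅ : Set (V N → ℝ))ᶜ) MeasurableSet.empty.compl
    refine h1.trans ?_
    have hμ := H963.em_nMC (N := N) (l := l) (t := T) hb.le hl hs h (0 : V N)
    have h2 : Ech (wN N l b T s) 0 (obsN N l (σ - s))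
        ((∅ : Set (V N → ℝ))ᶜ.indicator fun _ => (1 : ℝ)) = 1 := by
      rw [Set.compl_empty, Set.indicator_univ]
      exact H37.Ech_const hμ 0 _ 1
    rw [h2, Real.sqrt_one, mul_one]

/-- the cell covariance at zero source is below the mean one -/
theorem cb_ge' (hb : 0 < b) (hl : l ∣ N) {s : ℝ} (hs : 0 < s) (h : s ≤ T) {k : V (N / l)}
    (hk : k ≠ 0) : gN N l b T T k ≤ CbNk N l b T s T k :=
  (stn_triv hb hl hs h).cb_ge hk

/-- right half of the saturation identity -/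
theorem star_right (hb : 0 < b) (hl : l ∣ N) {s : ℝ} (hs : 0 < s) (h : s ≤ T) {k : V (N / l)}
    (hk : k ≠ 0) : (gN N l b T T k)⁻¹ - (CbNk N l b T s T k)⁻¹ ≤
      PinC N l b T T k - PinC N l b T s k :=
  ((stn_triv hb hl hs h).star hk).2

/-- the scalar inputs of one step, without intermediate masses -/
structure SE (N l nb m K : ℕ) [NeZero N] [NeZero (N / l)] [NeZero nb] [NeZero m]
    (b T a c a0 a1 cc δ₀ δ₁ δt δf : ℝ) (κ ε : V (N / l) → ℝ) : Prop where
  b0 : 0 < b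
  hl0 : 0 < l
  hl : l ∣ N
  hn : N / l = nb * m
  ha : 0 < a
  hac : a < c
  hc : c ≤ T
  ha0 : 0 ≤ a0
  ha1 : 0 ≤ a1
  hcc : 0 < cc
  /-- linear least squares, prior `a` -/
  lms : ∀ k : V (N / l), k ≠ 0 → PinC N l b T T k - PinC N l b T a k ≤
    (gN N l b T T k)⁻¹ - (CbNk N l b T a T k)⁻¹ + κ k / gN N l b T T k ^ 2
  κ0 : ∀ k, 0 ≤ κ k
  /-- TOP -/
  top : ∀ k : V (N / l), k ≠ 0 → PinC N l b T T k ≤ a0 * T + a1 * (EE k / (l : ℝ) ^ 2)
  /-- domination at the lowest mass -/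
  bot : ∀ k : V (N / l), k ≠ 0 → sym (Gnc N l b T a) k ≤ 1 / (a + cc * (EE k / (l : ℝ) ^ 2))
  /-- near and far control -/
  blk : Blk nb m K (dNm N l b T a c) δ₀ δ₁ δt δf
  fine : Fine N l b T a c ε

variable {nb m K : ℕ} [NeZero nb] [NeZero m] {a0 a1 cc δ₀ δ₁ δt δf : ℝ}
variable {κ ε : V (N / l) → ℝ}

theorem SE.dr (h : SE N l nb m K b T a c a0 a1 cc δ₀ δ₁ δt δf κ ε) :
    Dr (N / l) (Finset.univ.erase 0) ((l : ℝ) ^ 2) T a cc a0 a1 0 (dl1 l nb m K T δ₀ δ₁)
      (dl2 nb K δt δf) (fun k => gN N l b T T k) (fun k => sym (Gnc N l b T a) k)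
      (fun k => CbNk N l b T c T k - gN N l b T T k)
      (fun k => CbNk N l b T a T k - gN N l b T T k)
      (fun k => PinC N l b T T k - PinC N l b T c k)
      (fun k => PinC N l b T c k - PinC N l b T a k)
      (fun k => κ k / gN N l b T T k ^ 2) := by
  have hT : 0 < T := h.ha.trans (h.hac.trans_le h.hc)
  have hl0 : (0 : ℝ) < l := by exact_mod_cast h.hl0
  have hti := ti_dNm (N := N) (l := l) h.b0.le h.hl h.ha h.hac.le h.hc
  have hg : ∀ k : V (N / l), k ≠ 0 → 0 < gN N l b T T k := fun k hk =>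
    H963.sym_Gnc_pos (N := N) (l := l) (t := T) h.b0 h.hl hT le_rfl hk
  have hc0 : 0 < c := h.ha.trans h.hac
  refine ⟨by positivity, h.ha, hT, h.hcc, h.ha0, h.ha1, ?_, by norm_num,
    fun k hk => Finset.ne_of_mem_erase hk, fun k hk => hg k (Finset.ne_of_mem_erase hk),
    fun k hk => ?_, fun k hk => ?_, fun k hk => h.bot k (Finset.ne_of_mem_erase hk),
    fun k hk => ?_, fun k hk => ?_, fun k hk => ?_, fun k hk => ?_, fun k hk => ?_, ?_⟩
  · unfold dl1
    have := h.blk.d0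
    have := h.blk.d1
    positivity
  · have h1 := h.top k (Finset.ne_of_mem_erase hk)
    unfold PinC at h1
    simp only [one_div]
    have h2 : (gN N l b T T k)⁻¹ - T ≤ a0 * T + a1 * (EE k / (l : ℝ) ^ 2) := h1
    linarith
  · exact (H963.sym_Gnc_pos (N := N) (l := l) (t := T) h.b0 h.hl h.ha
      (h.hac.le.trans h.hc) (Finset.ne_of_mem_erase hk)).le
  · exact sub_nonneg.2 (cb_ge' h.b0 h.hl hc0 h.hc (Finset.ne_of_mem_erase hk))
  · have h1 := cb_ge' h.b0 h.hl h.ha (h.hac.le.trans h.hc) (Finset.ne_of_mem_erase hk)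
    have h2 := hg k (Finset.ne_of_mem_erase hk)
    linarith
  · have h1 := star_right h.b0 h.hl hc0 h.hc (Finset.ne_of_mem_erase hk)
    simp only [one_div]
    rw [add_sub_cancel]
    exact h1
  · have h1 := h.lms k (Finset.ne_of_mem_erase hk)
    simp only [one_div]
    rw [add_sub_cancel, sub_zero, one_mul]
    have e1 : PinC N l b T T k - PinC N l b T c k + (PinC N l b T c k - PinC N l b T a k) =
        PinC N l b T T k - PinC N l b T a k := by ring
    rw [e1]
    exact h1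
  · have h1 := h.blk.low h.hn hti row_dNm k
    rw [sym_dNm] at h1
    have e1 : CbNk N l b T a T k - gN N l b T T k - (CbNk N l b T c T k - gN N l b T T k) =
        CbNk N l b T a T k - CbNk N l b T c T k := by ring
    rw [e1]
    unfold dl1
    calc T ^ 2 * |CbNk N l b T a T k - CbNk N l b T c T k|
        ≤ T ^ 2 * ((m : ℝ) ^ 2 * (2 * δ₀ * ((2 * K + 1) ^ 2 * (3 * K ^ 2 + 32))
          + δ₁ * (nb ^ 2 * (3 * nb ^ 2 + 32))) * EE k) :=
          mul_le_mul_of_nonneg_left h1 (sq_nonneg _)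
      _ = _ := by field_simp
  · have h1 := h.blk.tr hti
    refine le_trans ?_ h1
    refine (Finset.sum_le_sum_of_subset_of_nonneg (Finset.erase_subset _ _)
      fun k _ _ => abs_nonneg _).trans (le_of_eq ?_)
    refine Finset.sum_congr rfl fun k _ => ?_
    rw [sym_dNm]
    congr 1
    ring

/-- the weight of a mode -/
lemma SE.ratio (h : SE N l nb m K b T a c a0 a1 cc δ₀ δ₁ δt δf κ ε) {k : V (N / l)}
    (hk : k ≠ 0) : (sym (Gnc N l b T a) k / gN N l b T T k) ^ 2 ≤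
      ((1 + a0) * T / a + a1 / cc) ^ 2 := by
  have hT : 0 < T := h.ha.trans (h.hac.trans_le h.hc)
  have hg : 0 < gN N l b T T k :=
    H963.sym_Gnc_pos (N := N) (l := l) (t := T) h.b0 h.hl hT le_rfl hk
  have hga : 0 < sym (Gnc N l b T a) k := H963.sym_Gnc_pos (N := N) (l := l) (t := T) h.b0 h.hl
    h.ha (h.hac.le.trans h.hc) hk
  have ha := h.ha
  have hcc := h.hcc
  have ha0 := h.ha0
  have ha1 := h.ha1
  have hE : 0 ≤ EE k / (l : ℝ) ^ 2 := div_nonneg (TM.H764.EE_nonneg k) (by positivity)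
  refine pow_le_pow_left₀ (div_nonneg hga.le hg.le) ?_ 2
  have h1 : (gN N l b T T k)⁻¹ ≤ (1 + a0) * T + a1 * (EE k / (l : ℝ) ^ 2) := by
    have h1 := h.top k hk
    have h2 : (gN N l b T T k)⁻¹ - T ≤ a0 * T + a1 * (EE k / (l : ℝ) ^ 2) := h1
    linarith
  rw [div_eq_mul_inv]
  have h2 := h.bot k hk
  set x := EE k / (l : ℝ) ^ 2 with hx
  calc sym (Gnc N l b T a) k * (gN N l b T T k)⁻¹
      ≤ 1 / (a + cc * x) * ((1 + a0) * T + a1 * x) :=
        mul_le_mul h2 h1 (inv_nonneg.2 hg.le) (by positivity)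
    _ = (1 + a0) * T / (a + cc * x) + a1 * x / (a + cc * x) := by
        field_simp
    _ ≤ (1 + a0) * T / a + a1 / cc := by
        refine add_le_add (div_le_div_of_nonneg_left (by positivity) ha (by nlinarith)) ?_
        rw [div_le_div_iff₀ (by positivity) hcc]
        nlinarith [mul_nonneg ha1 ha.le]

/-- **STEP_D, final form**: one posterior mass `T`, two priors `a < c` -/
theorem SE.step (h : SE N l nb m K b T a c a0 a1 cc δ₀ δ₁ δt δf κ ε) :
    ∃ τ ∈ Set.Ioo a c, 1 / 2 * K4S (nwt N b τ 0) (SN N l) (SN N l) ≤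
      4 * (c - a)⁻¹ * (25 * ((1 + a0 + a1) / cc) ^ 2 * dl1 l nb m K T δ₀ δ₁ *
          (((N / l : ℕ) : ℝ) ^ 2 * (l : ℝ) ^ 2) * (1 + Real.log (1 + cc * T / a)) +
        ((1 + a0 + a1) / cc) ^ 2 * dl2 nb K δt δf +
        ((1 + a0) * T / a + a1 / cc) ^ 2 * ∑ k ∈ Finset.univ.erase 0, κ k +
        ∑ k ∈ Finset.univ.erase 0, ε k) := by
  have hT : 0 < T := h.ha.trans (h.hac.trans_le h.hc)
  obtain ⟨τ, hτ, h1⟩ := drec h.b0 h.hl h.ha h.hac h.hc h.dr (fun k _ => rfl) (fun k _ => rfl)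
    h.fine
  refine ⟨τ, hτ, h1.trans ?_⟩
  have hca : 0 < (c - a)⁻¹ := inv_pos.2 (sub_pos.2 h.hac)
  refine mul_le_mul_of_nonneg_left (add_le_add ?_ le_rfl) (by positivity)
  have s2 : ∑ k ∈ Finset.univ.erase 0, sym (Gnc N l b T a) k ^ 2 *
      (κ k / gN N l b T T k ^ 2) ≤ ((1 + a0) * T / a + a1 / cc) ^ 2 *
        ∑ k ∈ Finset.univ.erase 0, κ k := by
    rw [Finset.mul_sum]
    refine Finset.sum_le_sum fun k hk => ?_
    have hr := h.ratio (Finset.ne_of_mem_erase hk)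
    calc sym (Gnc N l b T a) k ^ 2 * (κ k / gN N l b T T k ^ 2)
        = (sym (Gnc N l b T a) k / gN N l b T T k) ^ 2 * κ k := by rw [div_pow]; ring
      _ ≤ _ := mul_le_mul_of_nonneg_right hr (h.κ0 k)
  rw [sub_zero, inv_one, one_mul, zero_mul, zero_add]
  exact add_le_add le_rfl s2

end

end Vale.Agent.P159.H239
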