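import Vale.Agent.P159.H239.Loc1
import Vale.Agent.P159.H692.FB

/-!
P159 / GLUE P_up (helper239): trace bound for the gradient of `R` under the Gaussian reference law.

`E |Xᵀ ∇R(X g)|² ≤ E R(X g) (R(2 X g) - R(X g))`  (integration by parts, `R ≥ 0` convex, tangent).
This is the nonlinear part of the posterior mean: no cell count.
-/

namespace Vale.Agent.P159.H239

open Finset Matrix MeasureTheory ProbabilityTheory
open Vale.Agent.P159.TM.H104 (EM Ex Cv K3 Lg li nh Gr)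
open Vale.Agent.P159.H37
open Vale.Agent.P159.H159
open Vale.Agent.P159.H708
open Vale.Agent.P159.H692 (gR Rs_tangent)

noncomputable section

variable {V : Type*} [Fintype V] {I : Type*} [Fintype I] {μ : (V → ℤ) → ℝ}

lemma egr_gR (hμ : EM μ) (hG : GT μ) (x : V) : EGr fun J => gR μ J x := by
  have h := (c2g_Rs hμ hG).g1 x
  exact h

omit [Fintype I] in
/-- the derivative of `g ↦ R(X g)` in the direction `e_i` -/
lemma gR_col (X : Matrix V I ℝ) (J : V → ℝ) (i : I) :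
    (Xᵀ *ᵥ gR μ J) i = ∑ x, X x i * gR μ J x := rfl

/-- **trace bound** -/
theorem kap_le (hμ : EM μ) (hG : GT μ) (he : Ev μ) (hK : PK μ)
    (hC : ∀ J u, qf (Gm μ) u ≤ qf (Cm μ J) u) (X : Matrix V I ℝ) :
    ∫ g, ∑ i, (Xᵀ *ᵥ gR μ (X *ᵥ g)) i ^ 2 ∂(gau I) ≤
      ∫ g, Rs μ (X *ᵥ g) * (Rs μ ((2 : ℝ) • (X *ᵥ g)) - Rs μ (X *ᵥ g)) ∂(gau I) := by
  classical
  have hc := c2g_Rs hμ hG
  have hR : EGr fun g : I → ℝ => Rs μ (X *ᵥ g) := by
    simpa only [zero_add] using egr_lin (egr_Rs hμ hG) 0 X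
  have hR2 : EGr fun g : I → ℝ => Rs μ ((2 : ℝ) • (X *ᵥ g)) := by
    simpa only [zero_add] using egr_lin (egr_smul (egr_Rs hμ hG) 2) 0 X
  have hgx : ∀ x, EGr fun g : I → ℝ => gR μ (X *ᵥ g) x := fun x => by
    simpa only [zero_add] using egr_lin (egr_gR hμ hG x) 0 X
  have hd : ∀ i, EGr fun g : I → ℝ => (Xᵀ *ᵥ gR μ (X *ᵥ g)) i := fun i => by
    simp only [gR_col]
    exact egr_sum _ fun x _ => (hgx x).cmul _
  have hh : ∀ i, EGr fun g : I → ℝ => qf (Cm μ (X *ᵥ g) - Gm μ) (X *ᵥ Pi.single i 1) := by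
    intro i
    have h1 : EGr fun J : V → ℝ => ∑ x, ∑ y, (X *ᵥ Pi.single i 1) x * (X *ᵥ Pi.single i 1) y *
        (Cm μ J x y - Gm μ x y) := hc.e2 _ _
    simp only [sum_D2, bf_self] at h1
    simpa only [zero_add] using egr_lin h1 0 X
  -- one coordinate
  have key : ∀ i, ∫ g, g i * (Rs μ (X *ᵥ g) * (Xᵀ *ᵥ gR μ (X *ᵥ g)) i) ∂(gau I) =
      ∫ g, (Xᵀ *ᵥ gR μ (X *ᵥ g)) i ^ 2 + Rs μ (X *ᵥ g) *
        qf (Cm μ (X *ᵥ g) - Gm μ) (X *ᵥ Pi.single i 1) ∂(gau I) := by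
    intro i
    have hcol : ∀ x, (X *ᵥ Pi.single i (1 : ℝ)) x = X x i := fun x => by simp
    have hdd1 := hc.dd1 0 X (Pi.single i 1)
    have hdd2 := hc.dd2 0 X (X *ᵥ Pi.single i 1) (Pi.single i 1)
    simp only [zero_add] at hdd1 hdd2
    have hF : EGr fun g : I → ℝ => Rs μ (X *ᵥ g) * (Xᵀ *ᵥ gR μ (X *ᵥ g)) i := hR.mul (hd i)
    have hF' : EGr fun g : I → ℝ => (Xᵀ *ᵥ gR μ (X *ᵥ g)) i ^ 2 + Rs μ (X *ᵥ g) *
        qf (Cm μ (X *ᵥ g) - Gm μ) (X *ᵥ Pi.single i 1) := by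
      have h1 : EGr fun g : I → ℝ => (Xᵀ *ᵥ gR μ (X *ᵥ g)) i ^ 2 := by
        simp only [sq]
        exact (hd i).mul (hd i)
      exact h1.add (hR.mul (hh i))
    have hdir : DirD (fun g : I → ℝ => Rs μ (X *ᵥ g) * (Xᵀ *ᵥ gR μ (X *ᵥ g)) i)
        (fun g => (Xᵀ *ᵥ gR μ (X *ᵥ g)) i ^ 2 + Rs μ (X *ᵥ g) *
          qf (Cm μ (X *ᵥ g) - Gm μ) (X *ᵥ Pi.single i 1)) (Pi.single i 1) := by
      intro g
      have a1 := hdd1 g
      have a2 := hdd2 g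
      simp only [hcol] at a1 a2
      have a2' : HasDerivAt (fun s : ℝ => (Xᵀ *ᵥ gR μ (X *ᵥ (g + s • Pi.single i (1 : ℝ)))) i)
          (∑ x, ∑ y, X x i * X y i * (Cm μ (X *ᵥ g) x y - Gm μ x y)) 0 := a2
      have a3 := a1.mul a2'
      refine a3.congr_deriv ?_
      have e0 : g + (0 : ℝ) • Pi.single i (1 : ℝ) = g := by simp
      rw [e0]
      have e1 : ∑ x, X x i * (mn μ (X *ᵥ g) x - (Gm μ *ᵥ (X *ᵥ g)) x) =
          (Xᵀ *ᵥ gR μ (X *ᵥ g)) i := rfl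
      have e2 : ∑ x, ∑ y, X x i * X y i * (Cm μ (X *ᵥ g) x y - Gm μ x y) =
          qf (Cm μ (X *ᵥ g) - Gm μ) (X *ᵥ Pi.single i 1) := by
        have h := sum_D2 (μ := μ) (X *ᵥ g) (X *ᵥ Pi.single i 1) (X *ᵥ Pi.single i 1)
        rw [bf_self] at h
        rw [← h]
        simp only [hcol]
      rw [e1, e2]
      ring
    have hst := stein hF hF' (Pi.single i 1) hdir
    rw [← hst]
    refine integral_congr_ae (Filter.Eventually.of_forall fun g => ?_)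
    simp only
    congr 1
    rw [Finset.sum_eq_single i]
    · simp
    · intro j _ hj
      simp [Pi.single_eq_of_ne hj]
    · simp
  have i1 : ∀ i, Integrable (fun g : I → ℝ => (Xᵀ *ᵥ gR μ (X *ᵥ g)) i ^ 2) (gau I) := fun i => by
    simp only [sq]
    exact egr_integrable ((hd i).mul (hd i))
  have i2 : ∀ i, Integrable (fun g : I → ℝ => Rs μ (X *ᵥ g) *
      qf (Cm μ (X *ᵥ g) - Gm μ) (X *ᵥ Pi.single i 1)) (gau I) := fun i =>
    egr_integrable (hR.mul (hh i))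
  have i3 : ∀ i, Integrable (fun g : I → ℝ => g i * (Rs μ (X *ᵥ g) *
      (Xᵀ *ᵥ gR μ (X *ᵥ g)) i)) (gau I) := fun i =>
    egr_integrable ((egr_co i).mul (hR.mul (hd i)))
  have hn := fun J => H789.Rs_nonneg hμ he hK J
  have step1 : ∀ i, ∫ g, (Xᵀ *ᵥ gR μ (X *ᵥ g)) i ^ 2 ∂(gau I) ≤
      ∫ g, g i * (Rs μ (X *ᵥ g) * (Xᵀ *ᵥ gR μ (X *ᵥ g)) i) ∂(gau I) := by
    intro i
    rw [key i, integral_add (i1 i) (i2 i)]
    have h0 : 0 ≤ ∫ g, Rs μ (X *ᵥ g) *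
        qf (Cm μ (X *ᵥ g) - Gm μ) (X *ᵥ Pi.single i 1) ∂(gau I) := by
      refine integral_nonneg fun g => mul_nonneg (hn _) ?_
      have h1 := hC (X *ᵥ g) (X *ᵥ Pi.single i 1)
      have h2 : qf (Cm μ (X *ᵥ g) - Gm μ) (X *ᵥ Pi.single i 1) =
          qf (Cm μ (X *ᵥ g)) (X *ᵥ Pi.single i 1) - qf (Gm μ) (X *ᵥ Pi.single i 1) := by
        unfold qf
        rw [← Finset.sum_sub_distrib]
        refine Finset.sum_congr rfl fun x _ => ?_
        rw [← Finset.sum_sub_distrib]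
        refine Finset.sum_congr rfl fun y _ => ?_
        rw [Matrix.sub_apply]
        ring
      rw [h2]
      linarith
    linarith
  rw [integral_finsetSum _ fun i _ => i1 i]
  refine (Finset.sum_le_sum fun i _ => step1 i).trans ?_
  rw [← integral_finsetSum _ fun i _ => i3 i]
  refine integral_mono (integrable_finsetSum _ fun i _ => i3 i)
    (egr_integrable (hR.mul (hR2.sub hR))) fun g => ?_
  simp only
  have e1 : ∑ i, g i * (Rs μ (X *ᵥ g) * (Xᵀ *ᵥ gR μ (X *ᵥ g)) i) =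
      Rs μ (X *ᵥ g) * (gR μ (X *ᵥ g) ⬝ᵥ (X *ᵥ g)) := by
    have h1 : gR μ (X *ᵥ g) ⬝ᵥ (X *ᵥ g) = ∑ i, (Xᵀ *ᵥ gR μ (X *ᵥ g)) i * g i := by
      rw [dotProduct_mulVec, ← mulVec_transpose]
      rfl
    rw [h1, Finset.mul_sum]
    exact Finset.sum_congr rfl fun i _ => by ring
  rw [e1]
  have h2 := Rs_tangent hμ he hK (X *ᵥ g) (X *ᵥ g)
  rw [← two_smul ℝ (X *ᵥ g)] at h2
  exact mul_le_mul_of_nonneg_left (by linarith) (hn _)

/-- **trace bound for the cell gradient**: no cell count -/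
theorem kap_cell {K : Type*} [Fintype K] (hμ : EM μ) (hG : GT μ) (he : Ev μ) (hK : PK μ)
    (hC : ∀ J u, qf (Gm μ) u ≤ qf (Cm μ J) u) {X : Matrix V I ℝ} {C : Matrix K V ℝ} {κ : ℝ}
    (hκ : 0 < κ) (hX : ∀ v : V → ℝ, κ * ∑ k, (C *ᵥ v) k ^ 2 ≤ ∑ i, (Xᵀ *ᵥ v) i ^ 2) :
    ∫ g, ∑ k, (C *ᵥ gR μ (X *ᵥ g)) k ^ 2 ∂(gau I) ≤
      κ⁻¹ * ∫ g, Rs μ (X *ᵥ g) * Rs μ ((2 : ℝ) • (X *ᵥ g)) ∂(gau I) := by
  have hR : EGr fun g : I → ℝ => Rs μ (X *ᵥ g) := by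
    simpa only [zero_add] using egr_lin (egr_Rs hμ hG) 0 X
  have hR2 : EGr fun g : I → ℝ => Rs μ ((2 : ℝ) • (X *ᵥ g)) := by
    simpa only [zero_add] using egr_lin (egr_smul (egr_Rs hμ hG) 2) 0 X
  have hgx : ∀ x, EGr fun g : I → ℝ => gR μ (X *ᵥ g) x := fun x => by
    simpa only [zero_add] using egr_lin (egr_gR hμ hG x) 0 X
  have e1 : EGr fun g : I → ℝ => ∑ k, (C *ᵥ gR μ (X *ᵥ g)) k ^ 2 := by
    refine egr_sum _ fun k _ => ?_
    have h1 : EGr fun g : I → ℝ => (C *ᵥ gR μ (X *ᵥ g)) k := by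
      simp only [mulVec, dotProduct]
      exact egr_sum _ fun x _ => (hgx x).cmul _
    simp only [sq]
    exact h1.mul h1
  have e2 : EGr fun g : I → ℝ => ∑ i, (Xᵀ *ᵥ gR μ (X *ᵥ g)) i ^ 2 := by
    refine egr_sum _ fun i _ => ?_
    have h1 : EGr fun g : I → ℝ => (Xᵀ *ᵥ gR μ (X *ᵥ g)) i := by
      simp only [gR_col]
      exact egr_sum _ fun x _ => (hgx x).cmul _
    simp only [sq]
    exact h1.mul h1
  have hn := fun J => H789.Rs_nonneg hμ he hK J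
  rw [← div_eq_inv_mul, le_div_iff₀ hκ, mul_comm, ← integral_const_mul]
  refine (integral_mono ((egr_integrable e1).const_mul κ) (egr_integrable e2)
    fun g => hX _).trans ((kap_le hμ hG he hK hC X).trans ?_)
  refine integral_mono (egr_integrable (hR.mul (hR2.sub hR)))
    (egr_integrable (hR.mul hR2)) fun g => ?_
  exact mul_le_mul_of_nonneg_left (by linarith [hn (X *ᵥ g)]) (hn _)

end

end Vale.Agent.P159.H239
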