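import Vale.Agent.P159.H708.Bump
import Vale.Agent.P159.H663.ChI
import Vale.Agent.P159.H239.Contr2

/-!
P159 / GLUE P_up (helper239): localisation of the mean posterior covariance.

* `loc_bump` : `E C_F[u,u]` and `E C_{F2}[u,u]`, `F = A g`, `F2 = A2 g` the cut field,
  `u = A v = A2 v`, differ by at most `2 |v|² ε + bad` as soon as the mixed differences of the
  VALUES of `log Z`, `Lg F - Lg (F - η u) - Lg F2 + Lg (F2 - η u)`, `η = <v,g>/|v|²`, are at most
  `ε` on a good set.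
-/

namespace Vale.Agent.P159.H239

open Finset Matrix MeasureTheory ProbabilityTheory
open Vale.Agent.P159.TM.H104 (EM Ex Cv K3 Lg li nh Gr)
open Vale.Agent.P159.H37
open Vale.Agent.P159.H159
open Vale.Agent.P159.H708

noncomputable section

variable {V : Type*} [Fintype V] {I : Type*} [Fintype I] {μ : (V → ℤ) → ℝ}

/-- `Lg` has two derivatives of exponential growth -/
theorem c2g_Lg (hμ : EM μ) (hG : GT μ) : C2G (Lg μ) (fun x J => mn μ J x)
    (fun x y J => Cm μ J x y) := by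
  refine ⟨egr_Lg hμ hG, fun x => egr_mn hμ hG x, fun x y => egr_Cm hμ hG x y, fun u J => ?_,
    fun x u J => ?_⟩
  · have h1 : HasDerivAt (fun s : ℝ => Lg μ (J + s • u)) (Ex μ J (li u)) 0 := by
      have := TM.H104.hasDerivAt_Lg hμ J u 0
      simpa using this
    refine h1.congr_deriv ?_
    rw [Ex_li hμ]
  · have h1 : HasDerivAt (fun s : ℝ => mn μ (J + s • u) x)
        (Cv μ J (fun h => (h x : ℝ)) (li u)) 0 := by
      have := TM.H104.hasDerivAt_Ex hμ (gr_co x) J u 0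
      simpa [mn] using this
    refine h1.congr_deriv ?_
    classical
    have e1 : (fun h : V → ℤ => (h x : ℝ)) = li (Pi.single x (1 : ℝ)) := by
      funext h
      unfold TM.H104.li
      rw [Finset.sum_eq_single x]
      · simp
      · intro y _ hy
        simp [Pi.single_eq_of_ne hy]
      · simp
    rw [e1, ← H114.bf_Cm hμ, bf_eq]
    simp [dotProduct, mulVec, Pi.single_apply, mul_comm]

lemma sum_D2' (M : Matrix V V ℝ) (u w : V → ℝ) :
    ∑ x, ∑ y, u x * w y * M x y = bf M u w := by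
  unfold bf
  exact Finset.sum_congr rfl fun x _ => Finset.sum_congr rfl fun y _ => by ring

/-- bump identity for `Lg` -/
theorem bump_Lg (hμ : EM μ) (hG : GT μ) (a : V → ℝ) (A : Matrix V I ℝ) (v v' : I → ℝ) :
    ∫ g, ((∑ i, v i * g i) * (∑ i, v' i * g i) - ∑ i, v i * v' i) *
        Lg μ (a + A *ᵥ g) ∂(gau I) =
      ∫ g, bf (Cm μ (a + A *ᵥ g)) (A *ᵥ v) (A *ᵥ v') ∂(gau I) := by
  have h := (c2g_Lg hμ hG).bump a A v v'
  simp only [sum_D2'] at h
  exact h

/-- `<v,g> / |v|²` -/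
def cf (v g : I → ℝ) : ℝ := (∑ i, v i * g i) / ∑ i, v i ^ 2

/-- component orthogonal to `v` -/
def perp (v g : I → ℝ) : I → ℝ := g - cf v g • v

/-- the orthogonal projection as a matrix -/
def perpM [DecidableEq I] (v : I → ℝ) : Matrix I I ℝ :=
  1 - Matrix.of fun i j => v i * v j / ∑ i, v i ^ 2

lemma perpM_mulVec [DecidableEq I] (v g : I → ℝ) : perpM v *ᵥ g = perp v g := by
  unfold perpM perp cf
  rw [sub_mulVec, one_mulVec]
  congr 1
  funext i
  simp only [mulVec, dotProduct, of_apply, Pi.smul_apply, smul_eq_mul]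
  rw [Finset.sum_div, Finset.sum_mul]
  exact Finset.sum_congr rfl fun j _ => by ring

lemma perp_shift {v : I → ℝ} (hv : ∑ i, v i ^ 2 ≠ 0) (g : I → ℝ) (s : ℝ) :
    perp v (g + s • v) = perp v g := by
  unfold perp cf
  have h1 : ∑ i, v i * (g + s • v) i = ∑ i, v i * g i + s * ∑ i, v i ^ 2 := by
    simp only [Pi.add_apply, Pi.smul_apply, smul_eq_mul]
    rw [Finset.mul_sum, ← Finset.sum_add_distrib]
    exact Finset.sum_congr rfl fun i _ => by ring
  rw [h1, add_div, mul_div_assoc, div_self hv, mul_one, add_smul]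
  abel

/-- the second order weight kills every function of the orthogonal component -/
lemma weight_perp {Φ : (I → ℝ) → ℝ} (hΦ : EGr Φ) {v : I → ℝ} (hv : ∑ i, v i ^ 2 ≠ 0) :
    ∫ g, ((∑ i, v i * g i) * (∑ i, v i * g i) - ∑ i, v i * v i) * Φ (perp v g) ∂(gau I) = 0 := by
  classical
  have hl : EGr fun g : I → ℝ => ∑ i, v i * g i := egr_sum _ fun i _ => (egr_co i).cmul (v i)
  have hF : EGr fun g : I → ℝ => Φ (perp v g) := by
    have := egr_lin hΦ 0 (perpM v)
    simpa only [zero_add, perpM_mulVec] using this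
  have hd0 : DirD (fun g : I → ℝ => Φ (perp v g)) (fun _ => 0) v := by
    intro g
    simp only [perp_shift hv]
    exact hasDerivAt_const _ _
  have s1 := stein hF (EGr.const 0) v hd0
  have hG1 : EGr fun g : I → ℝ => (∑ i, v i * g i) * Φ (perp v g) := hl.mul hF
  have hG2 : EGr fun g : I → ℝ => (∑ i, v i * v i) * Φ (perp v g) := hF.cmul _
  have hd1 : DirD (fun g : I → ℝ => (∑ i, v i * g i) * Φ (perp v g))
      (fun g => (∑ i, v i * v i) * Φ (perp v g)) v := by
    intro g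
    have a1 : HasDerivAt (fun s : ℝ => ∑ i, v i * (g + s • v) i) (∑ i, v i * v i) 0 := by
      refine HasDerivAt.fun_sum fun i _ => ?_
      have : HasDerivAt (fun s : ℝ => (g + s • v) i) (v i) 0 := by
        simpa using ((hasDerivAt_id (0 : ℝ)).mul_const (v i)).const_add (g i)
      refine (this.const_mul (v i)).congr_deriv ?_
      ring
    have a2 := a1.mul (hd0 g)
    refine a2.congr_deriv ?_
    simp
  have s2 := stein hG1 hG2 v hd1
  have i1 : Integrable (fun g : I → ℝ => (∑ i, v i * g i) *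
      ((∑ i, v i * g i) * Φ (perp v g))) (gau I) := egr_integrable (hl.mul hG1)
  have i2 : Integrable (fun g : I → ℝ => (∑ i, v i * v i) * Φ (perp v g)) (gau I) :=
    egr_integrable hG2
  have e : (fun g : I → ℝ => ((∑ i, v i * g i) * (∑ i, v i * g i) - ∑ i, v i * v i) *
      Φ (perp v g)) = fun g => (∑ i, v i * g i) * ((∑ i, v i * g i) * Φ (perp v g)) -
        (∑ i, v i * v i) * Φ (perp v g) := by
    funext g
    ring
  rw [e, integral_sub i1 i2, s2, sub_self]

/-- the weight -/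
def wgt (v g : I → ℝ) : ℝ := (∑ i, v i * g i) * (∑ i, v i * g i) - ∑ i, v i * v i

lemma egr_wgt (v : I → ℝ) : EGr (wgt v) := by
  have hl : EGr fun g : I → ℝ => ∑ i, v i * g i := egr_sum _ fun i _ => (egr_co i).cmul (v i)
  exact (hl.mul hl).sub (EGr.const _)

/-- `E |W| <= 2 |v|²` -/
lemma int_abs_wgt (v : I → ℝ) : ∫ g, |wgt v g| ∂(gau I) ≤ 2 * ∑ i, v i ^ 2 := by
  have hl : EGr fun g : I → ℝ => ∑ i, v i * g i := egr_sum _ fun i _ => (egr_co i).cmul (v i)
  have h1 : ∫ g, |wgt v g| ∂(gau I) ≤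
      ∫ g, ((∑ i, v i * g i) * (∑ i, v i * g i) + ∑ i, v i * v i) ∂(gau I) := by
    refine integral_mono (egr_integrable (egr_wgt v).abs)
      (egr_integrable ((hl.mul hl).add (EGr.const _))) fun g => ?_
    have h0 : 0 ≤ ∑ i, v i * v i := Finset.sum_nonneg fun i _ => mul_self_nonneg _
    have h2 : 0 ≤ (∑ i, v i * g i) * (∑ i, v i * g i) := mul_self_nonneg _
    simp only [wgt]
    rw [abs_le]
    constructor <;> linarith
  refine h1.trans (le_of_eq ?_)
  rw [integral_add (egr_integrable (hl.mul hl)) (integrable_const _), H663.gau_lin_mul,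
    integral_const, probReal_univ, smul_eq_mul, one_mul]
  have : ∑ i, v i * v i = ∑ i, v i ^ 2 := Finset.sum_congr rfl fun i _ => by ring
  rw [this]
  ring

/-- the mixed difference along the Gaussian field `F = A g`, `u = A v` -/
def mdg (μ : (V → ℤ) → ℝ) (A A2 : Matrix V I ℝ) (v g : I → ℝ) : ℝ :=
  Lg μ (A *ᵥ g) - Lg μ (A *ᵥ g - cf v g • (A *ᵥ v)) - Lg μ (A2 *ᵥ g) +
    Lg μ (A2 *ᵥ g - cf v g • (A *ᵥ v))

/-- **LU, localisation of a bump**: `A2 g` is the field cut to a window, `A2 v = A v` -/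
theorem loc_bump (hμ : EM μ) (hG : GT μ) (A A2 : Matrix V I ℝ) (v : I → ℝ)
    (hL : A2 *ᵥ v = A *ᵥ v) (hv : ∑ i, v i ^ 2 ≠ 0) {Gd : Set (I → ℝ)}
    (hGd : MeasurableSet Gd) {ε : ℝ} (hε0 : 0 ≤ ε) (hε : ∀ g ∈ Gd, |mdg μ A A2 v g| ≤ ε) :
    |∫ g, qf (Cm μ (A *ᵥ g)) (A *ᵥ v) ∂(gau I) -
      ∫ g, qf (Cm μ (A2 *ᵥ g)) (A *ᵥ v) ∂(gau I)| ≤
      2 * (∑ i, v i ^ 2) * ε + ∫ g in Gdᶜ, |wgt v g| * |mdg μ A A2 v g| ∂(gau I) := by
  classical
  have b1 := bump_Lg hμ hG 0 A v v
  have b2 := bump_Lg hμ hG 0 A2 v v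
  rw [hL] at b2
  simp only [zero_add, bf_self] at b1 b2
  have hLg := egr_Lg hμ hG
  have eA : EGr fun g : I → ℝ => Lg μ (A *ᵥ g) := by
    simpa only [zero_add] using egr_lin hLg 0 A
  have eLA : EGr fun g : I → ℝ => Lg μ (A2 *ᵥ g) := by
    simpa only [zero_add] using egr_lin hLg 0 A2
  -- the function of the orthogonal component
  set Φ : (I → ℝ) → ℝ := fun g => Lg μ (A *ᵥ g) - Lg μ (A2 *ᵥ g) with hΦ
  have hΦe : EGr Φ := eA.sub eLA
  have hp := weight_perp hΦe hv
  have hperpA : ∀ g, A *ᵥ perp v g = A *ᵥ g - cf v g • (A *ᵥ v) := by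
    intro g
    unfold perp
    rw [mulVec_sub, mulVec_smul]
  have hperpL : ∀ g, A2 *ᵥ perp v g = A2 *ᵥ g - cf v g • (A *ᵥ v) := by
    intro g
    unfold perp
    rw [mulVec_sub, mulVec_smul, hL]
  have hmd : ∀ g, mdg μ A A2 v g = Φ g - Φ (perp v g) := by
    intro g
    simp only [hΦ, hperpA, hperpL, mdg]
    ring
  have eP : EGr fun g : I → ℝ => Φ (perp v g) := by
    have := egr_lin hΦe 0 (perpM v)
    simpa only [zero_add, perpM_mulVec] using this
  have eM : EGr fun g : I → ℝ => mdg μ A A2 v g := by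
    have : (fun g : I → ℝ => mdg μ A A2 v g) = fun g => Φ g - Φ (perp v g) := funext hmd
    rw [this]
    exact hΦe.sub eP
  have eW := egr_wgt v
  -- the identity
  have hid : ∫ g, qf (Cm μ (A *ᵥ g)) (A *ᵥ v) ∂(gau I) -
      ∫ g, qf (Cm μ (A2 *ᵥ g)) (A *ᵥ v) ∂(gau I) =
      ∫ g, wgt v g * mdg μ A A2 v g ∂(gau I) := by
    have c1 : ∫ g, wgt v g * Lg μ (A *ᵥ g) ∂(gau I) =
      ∫ g, qf (Cm μ (A *ᵥ g)) (A *ᵥ v) ∂(gau I) := b1
    have c2 : ∫ g, wgt v g * Lg μ (A2 *ᵥ g) ∂(gau I) =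
      ∫ g, qf (Cm μ (A2 *ᵥ g)) (A *ᵥ v) ∂(gau I) := b2
    rw [← c1, ← c2, ← integral_sub (egr_integrable (eW.mul eA)) (egr_integrable (eW.mul eLA))]
    have h0 : ∫ g, wgt v g * Φ (perp v g) ∂(gau I) = 0 := hp
    have h1 : ∫ g, wgt v g * mdg μ A A2 v g ∂(gau I) =
        ∫ g, wgt v g * Φ g ∂(gau I) - ∫ g, wgt v g * Φ (perp v g) ∂(gau I) := by
      rw [← integral_sub (egr_integrable (eW.mul hΦe)) (egr_integrable (eW.mul eP))]
      refine integral_congr_ae (Filter.Eventually.of_forall fun g => ?_)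
      simp only
      rw [hmd]
      ring
    rw [h1, h0, sub_zero]
    refine integral_congr_ae (Filter.Eventually.of_forall fun g => ?_)
    simp only [hΦ]
    ring
  rw [hid]
  have i0 : Integrable (fun g : I → ℝ => |wgt v g| * |mdg μ A A2 v g|) (gau I) :=
    egr_integrable (eW.abs.mul eM.abs)
  have i1 : Integrable (fun g : I → ℝ => |wgt v g|) (gau I) := egr_integrable eW.abs
  refine abs_integral_le_integral_abs.trans ?_
  simp only [abs_mul]
  rw [← integral_add_compl hGd i0]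
  refine add_le_add ?_ le_rfl
  have h2 : ∫ g in Gd, |wgt v g| * |mdg μ A A2 v g| ∂(gau I) ≤
      ∫ g in Gd, |wgt v g| * ε ∂(gau I) :=
    setIntegral_mono_on i0.integrableOn (i1.mul_const ε).integrableOn hGd fun g hg =>
      mul_le_mul_of_nonneg_left (hε g hg) (abs_nonneg _)
  refine h2.trans ?_
  rw [integral_mul_const]
  exact mul_le_mul_of_nonneg_right ((setIntegral_le_integral i1
    (Filter.Eventually.of_forall fun g => abs_nonneg _)).trans (int_abs_wgt v)) hε0

end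

end Vale.Agent.P159.H239
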