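import Vale.Agent.P159.H239.Loc1

/-!
P159 / GLUE P_up (helper239): localisation of a trace `∑ᵢ E C_F[z_i, z_i]` by convexity in the
amplitude of the window part `Z g` (LT).
-/

namespace Vale.Agent.P159.H239

open Finset Matrix MeasureTheory ProbabilityTheory
open Vale.Agent.P159.TM.H104 (EM Ex Cv K3 Lg li nh Gr)
open Vale.Agent.P159.H37
open Vale.Agent.P159.H159
open Vale.Agent.P159.H708

noncomputable section

variable {V : Type*} [Fintype V] {I : Type*} [Fintype I] {μ : (V → ℤ) → ℝ}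

/-- mixed difference of the values of `log Z`: `A g → A2 g` and `0 → τ Z g` -/
def mdz (μ : (V → ℤ) → ℝ) (A A2 Z : Matrix V I ℝ) (τ : ℝ) (g : I → ℝ) : ℝ :=
  Lg μ (A *ᵥ g + τ • (Z *ᵥ g)) - Lg μ (A *ᵥ g) - Lg μ (A2 *ᵥ g + τ • (Z *ᵥ g)) +
    Lg μ (A2 *ᵥ g)

lemma egr_mv {F : (V → ℝ) → ℝ} (hF : EGr F) (A : Matrix V I ℝ) :
    EGr fun g : I → ℝ => F (A *ᵥ g) := by
  simpa only [zero_add] using egr_lin hF 0 A

omit [Fintype V] in
/-- covariance of two linear images of the Gaussian field -/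
lemma int_mv_mul (A B : Matrix V I ℝ) (x y : V) :
    ∫ g, (A *ᵥ g) x * (B *ᵥ g) y ∂(gau I) = (A * Bᵀ) x y := by
  have h := H663.gau_lin_mul (fun i => A x i) (fun i => B y i)
  simp only [mulVec, dotProduct, mul_apply, transpose_apply]
  exact h

lemma int_bf (M : Matrix V V ℝ) (A B : Matrix V I ℝ) :
    ∫ g, bf M (A *ᵥ g) (B *ᵥ g) ∂(gau I) = ∑ x, ∑ y, M x y * (A * Bᵀ) x y := by
  have hi : ∀ x y, Integrable (fun g : I → ℝ => (A *ᵥ g) x * M x y * (B *ᵥ g) y) (gau I) := by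
    intro x y
    have h1 : EGr fun g : I → ℝ => (A *ᵥ g) x := egr_mv (egr_coord x) A
    have h2 : EGr fun g : I → ℝ => (B *ᵥ g) y := egr_mv (egr_coord y) B
    have h3 := egr_integrable ((h1.mul h2).cmul (M x y))
    refine h3.congr (Filter.Eventually.of_forall fun g => ?_)
    simp only
    ring
  unfold bf
  rw [integral_finsetSum _ fun x _ => integrable_finsetSum _ fun y _ => hi x y]
  refine Finset.sum_congr rfl fun x _ => ?_
  rw [integral_finsetSum _ fun y _ => hi x y]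
  refine Finset.sum_congr rfl fun y _ => ?_
  rw [← int_mv_mul, ← integral_const_mul]
  refine integral_congr_ae (Filter.Eventually.of_forall fun g => ?_)
  simp only
  ring

/-- no cross term -/
lemma int_bf_zero (M : Matrix V V ℝ) {A Z : Matrix V I ℝ} (hAZ : Z * Aᵀ = 0) :
    ∫ g, bf M (A *ᵥ g) (Z *ᵥ g) ∂(gau I) = 0 := by
  have h1 : A * Zᵀ = 0 := by
    have := congrArg Matrix.transpose hAZ
    simpa using this
  rw [int_bf, h1]
  simp

/-- quadratic part of a ray with independent pieces -/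
lemma int_qf_ray {M : Matrix V V ℝ} (hM : Mᵀ = M) {A Z : Matrix V I ℝ} (hAZ : Z * Aᵀ = 0)
    (τ : ℝ) :
    ∫ g, qf M (A *ᵥ g + τ • (Z *ᵥ g)) ∂(gau I) =
      ∫ g, qf M (A *ᵥ g) ∂(gau I) + τ ^ 2 * ∫ g, qf M (Z *ᵥ g) ∂(gau I) := by
  have e1 : EGr fun g : I → ℝ => qf M (A *ᵥ g) := egr_mv (egr_qf M) A
  have e2 : EGr fun g : I → ℝ => qf M (Z *ᵥ g) := egr_mv (egr_qf M) Z
  have e3 : EGr fun g : I → ℝ => bf M (A *ᵥ g) (Z *ᵥ g) := by
    have h0 : EGr fun g : I → ℝ => qf M ((A + Z) *ᵥ g) := egr_mv (egr_qf M) (A + Z)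
    have h1 : (fun g : I → ℝ => bf M (A *ᵥ g) (Z *ᵥ g)) =
        fun g => (1 / 2) * (qf M ((A + Z) *ᵥ g) - qf M (A *ᵥ g) - qf M (Z *ᵥ g)) := by
      funext g
      rw [add_mulVec, qf_add_vec hM]
      ring
    rw [h1]
    exact ((h0.sub e1).sub e2).cmul _
  have h1 : ∀ g : I → ℝ, qf M (A *ᵥ g + τ • (Z *ᵥ g)) =
      qf M (A *ᵥ g) + τ ^ 2 * qf M (Z *ᵥ g) + (2 * τ) * bf M (A *ᵥ g) (Z *ᵥ g) := by
    intro g
    rw [qf_add_vec hM, bf_smul_right, qf_smul]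
    ring
  simp only [h1]
  rw [integral_add (egr_integrable (e1.add (e2.cmul _))) (egr_integrable (e3.cmul _)),
    integral_add (egr_integrable e1) (egr_integrable (e2.cmul _)), integral_const_mul,
    integral_const_mul, int_bf_zero M hAZ, mul_zero, add_zero]

/-- the ray function of `Rs` -/
def phi (μ : (V → ℤ) → ℝ) (A Z : Matrix V I ℝ) (τ : ℝ) : ℝ :=
  ∫ g, Rs μ (A *ᵥ g + τ • (Z *ᵥ g)) ∂(gau I)

lemma egr_mvs {F : (V → ℝ) → ℝ} (hF : EGr F) (A Z : Matrix V I ℝ) (τ : ℝ) :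
    EGr fun g : I → ℝ => F (A *ᵥ g + τ • (Z *ᵥ g)) := by
  have h := egr_mv hF (A + τ • Z)
  have e : (fun g : I → ℝ => F ((A + τ • Z) *ᵥ g)) =
      fun g : I → ℝ => F (A *ᵥ g + τ • (Z *ᵥ g)) := by
    funext g
    rw [add_mulVec, smul_mulVec]
  rw [e] at h
  exact h

theorem phi_convex (hμ : EM μ) (hG : GT μ) (hcx : ConvexOn ℝ Set.univ (Rs μ))
    (A Z : Matrix V I ℝ) : ConvexOn ℝ Set.univ (phi μ A Z) := by
  refine ⟨convex_univ, fun s _ t _ a b ha hb hab => ?_⟩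
  have hR := egr_Rs hμ hG
  have hi : ∀ τ, Integrable (fun g : I → ℝ => Rs μ (A *ᵥ g + τ • (Z *ᵥ g))) (gau I) :=
    fun τ => egr_integrable (egr_mvs hR A Z τ)
  unfold phi
  simp only [smul_eq_mul]
  rw [← integral_const_mul, ← integral_const_mul,
    ← integral_add ((hi s).const_mul a) ((hi t).const_mul b)]
  refine integral_mono (hi _) (((hi s).const_mul a).add ((hi t).const_mul b)) fun g => ?_
  have h1 := hcx.2 (Set.mem_univ (A *ᵥ g + s • (Z *ᵥ g)))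
    (Set.mem_univ (A *ᵥ g + t • (Z *ᵥ g))) ha hb hab
  have h2 : a • (A *ᵥ g + s • (Z *ᵥ g)) + b • (A *ᵥ g + t • (Z *ᵥ g)) =
      A *ᵥ g + (a * s + b * t) • (Z *ᵥ g) := by
    have h3 : A *ᵥ g = (a + b) • (A *ᵥ g) := by rw [hab, one_smul]
    rw [smul_add, smul_add, smul_smul, smul_smul, add_smul]
    nth_rw 3 [h3]
    rw [add_smul]
    abel
  rw [h2] at h1
  simpa only [smul_eq_mul] using h1

theorem phi_deriv (hμ : EM μ) (hG : GT μ) {A Z : Matrix V I ℝ} (hAZ : Z * Aᵀ = 0) (τ : ℝ) :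
    HasDerivAt (phi μ A Z)
      (τ * ∫ g, ∑ i, qf (Cm μ (A *ᵥ g + τ • (Z *ᵥ g)) - Gm μ) (fun x => Z x i) ∂(gau I)) τ := by
  have h := ray_Rs_ind hμ hG 0 hAZ τ
  simp only [zero_add, add_mulVec, smul_mulVec] at h
  exact h

/-- **LT, localisation of a trace** -/
theorem loc_trace (hμ : EM μ) (hG : GT μ) (hcx : ConvexOn ℝ Set.univ (Rs μ))
    (hGm : (Gm μ)ᵀ = Gm μ) {A A2 Z : Matrix V I ℝ} (hAZ : Z * Aᵀ = 0) (hLA : Z * A2ᵀ = 0)
    {h d S : ℝ} (hh : 0 < h)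
    (hd : ∀ τ : ℝ, τ = 1 ∨ τ = 1 + h ∨ τ = 1 - h → ∫ g, |mdz μ A A2 Z τ g| ∂(gau I) ≤ d)
    (hS : phi μ A Z (1 + h) + phi μ A Z (1 - h) - 2 * phi μ A Z 1 ≤ S) :
    |∫ g, ∑ i, qf (Cm μ (A2 *ᵥ g + Z *ᵥ g) - Gm μ) (fun x => Z x i) ∂(gau I) -
      ∫ g, ∑ i, qf (Cm μ (A *ᵥ g + Z *ᵥ g) - Gm μ) (fun x => Z x i) ∂(gau I)| ≤
      (2 * d + S) / h := by
  have hR := egr_Rs hμ hG
  have hLg := egr_Lg hμ hG
  have hp := phi_deriv hμ hG hAZ 1
  have hq := phi_deriv hμ hG hLA 1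
  simp only [one_mul, one_smul] at hp hq
  -- the difference of the ray functions
  set c0 : ℝ := ∫ g, Rs μ (A2 *ᵥ g) ∂(gau I) - ∫ g, Rs μ (A *ᵥ g) ∂(gau I) with hc0
  have key : ∀ τ : ℝ, phi μ A2 Z τ - phi μ A Z τ - c0 =
      -∫ g, mdz μ A A2 Z τ g ∂(gau I) := by
    intro τ
    have a1 := int_qf_ray hGm hAZ τ
    have a2 := int_qf_ray hGm hLA τ
    have eA : EGr fun g : I → ℝ => Lg μ (A *ᵥ g) := egr_mv hLg A
    have eL : EGr fun g : I → ℝ => Lg μ (A2 *ᵥ g) := egr_mv hLg A2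
    have eAz : EGr fun g : I → ℝ => Lg μ (A *ᵥ g + τ • (Z *ᵥ g)) := egr_mvs hLg A Z τ
    have eLz : EGr fun g : I → ℝ => Lg μ (A2 *ᵥ g + τ • (Z *ᵥ g)) :=
      egr_mvs hLg A2 Z τ
    have q1 : EGr fun g : I → ℝ => qf (Gm μ) (A *ᵥ g) := egr_mv (egr_qf _) A
    have q2 : EGr fun g : I → ℝ => qf (Gm μ) (A2 *ᵥ g) := egr_mv (egr_qf _) A2
    have q3 : EGr fun g : I → ℝ => qf (Gm μ) (A *ᵥ g + τ • (Z *ᵥ g)) := egr_mvs (egr_qf _) A Z τ
    have q4 : EGr fun g : I → ℝ => qf (Gm μ) (A2 *ᵥ g + τ • (Z *ᵥ g)) :=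
      egr_mvs (egr_qf _) A2 Z τ
    have hRs : ∀ {F : (I → ℝ) → V → ℝ}, EGr (fun g => Lg μ (F g)) →
        EGr (fun g => qf (Gm μ) (F g)) → ∫ g, Rs μ (F g) ∂(gau I) =
          ∫ g, Lg μ (F g) ∂(gau I) - Lg μ 0 - (∫ g, qf (Gm μ) (F g) ∂(gau I)) / 2 := by
      intro F h1 h2
      have e : (fun g => Rs μ (F g)) = fun g => (Lg μ (F g) - Lg μ 0) -
          (1 / 2) * qf (Gm μ) (F g) := by
        funext g
        unfold Rs
        ring
      have i1 : Integrable (fun g => Lg μ (F g) - Lg μ 0) (gau I) :=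
        (egr_integrable h1).sub (integrable_const _)
      have i2 : Integrable (fun g => (1 / 2) * qf (Gm μ) (F g)) (gau I) :=
        (egr_integrable h2).const_mul _
      rw [e, integral_sub i1 i2, integral_sub (egr_integrable h1) (integrable_const _),
        integral_const, probReal_univ, integral_const_mul, smul_eq_mul, one_mul]
      ring
    have r1 := hRs eAz q3
    have r2 := hRs eLz q4
    have r3 := hRs eA q1
    have r4 := hRs eL q2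
    have hm : ∫ g, mdz μ A A2 Z τ g ∂(gau I) =
        ∫ g, Lg μ (A *ᵥ g + τ • (Z *ᵥ g)) ∂(gau I) - ∫ g, Lg μ (A *ᵥ g) ∂(gau I) -
          ∫ g, Lg μ (A2 *ᵥ g + τ • (Z *ᵥ g)) ∂(gau I) +
            ∫ g, Lg μ (A2 *ᵥ g) ∂(gau I) := by
      have e : (fun g => mdz μ A A2 Z τ g) = fun g => ((Lg μ (A *ᵥ g + τ • (Z *ᵥ g)) -
          Lg μ (A *ᵥ g)) - Lg μ (A2 *ᵥ g + τ • (Z *ᵥ g))) + Lg μ (A2 *ᵥ g) := by
        funext g
        simp only [mdz]
      rw [e, integral_add (egr_integrable ((eAz.sub eA).sub eLz)) (egr_integrable eL),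
        integral_sub (egr_integrable (eAz.sub eA)) (egr_integrable eLz),
        integral_sub (egr_integrable eAz) (egr_integrable eA)]
    unfold phi
    rw [r1, r2, hc0, r3, r4, hm, a1, a2]
    ring
  have H : ∀ τ : ℝ, τ = 1 ∨ τ = 1 + h ∨ τ = 1 - h →
      |phi μ A2 Z τ - phi μ A Z τ - c0| ≤ d := by
    intro τ hτ
    rw [key, abs_neg]
    exact abs_integral_le_integral_abs.trans (hd τ hτ)
  exact cvx_slope (phi_convex hμ hG hcx A Z) (phi_convex hμ hG hcx A2 Z) hh hp hq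
    (H 1 (Or.inl rfl)) (H (1 + h) (Or.inr (Or.inl rfl))) (H (1 - h) (Or.inr (Or.inr rfl))) hS

end

end Vale.Agent.P159.H239
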