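import Vale.Agent.P159.H239.FamR
import Vale.Agent.P159.H239.FamEv
import Vale.Agent.P159.H801.Master1

/-!
P159 / P_up (helper239): the inputs `PIn` of the master (helper801) as a family, from
`FlatS` (flat profile, from the range), `ApStep`, `D0Step`, `DtrStep`, `Drop'`.
-/

set_option linter.unusedSectionVars false

namespace Vale.Agent.P159.H239

open Filter Topology
open Vale.Agent.P159.H972
open Vale.Agent.P159.H864 (yt)
open Vale.Agent.P159.H801 (Ev PIn)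

noncomputable section

/-- range of the cluster theorems, without the profile of the new level -/
def RngS (P : Par) (b sg : ℝ) (N0 : ℕ) : Prop :=
  ∀ n m ε Y, SI P b N0 n m ε Y → RNGs P b m (en sg ε Y)

/-- flat profile, from the range at the new level -/
def FlatS (P : Par) (b sg : ℝ) (N0 : ℕ) : Prop :=
  ∀ n m ε Y, SI P b N0 n m ε Y → RNGs P b m (en sg ε Y) → ∃ a, FLs P b m (en sg ε Y) a

variable {b b1 b2 pf sg : ℝ}

/-- **the step of the P half from its parts**, range first -/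
theorem stepP_of {P : Par} {N0 : ℕ} (hC : 4 * ⌈P.C0⌉₊ ≤ P.w P.es) (hR : RngS P b sg N0)
    (hF : FlatS P b sg N0) (hA : ApStep P b sg N0) (h0 : D0Step P b sg N0)
    (hD : DtrStep P b sg N0) : StepP' P b sg N0 :=
  StepP'.of hC (fun n m ε Y hS => hF n m ε Y hS (hR n m ε Y hS))
    (fun n m ε Y _ hS _ => hR n m ε Y hS) hA (DStep.of h0 hD)

/-- **RngS** as a family -/
theorem fam_rngS (hb1 : 0 < b1) (hY : helicity b = 2 / Real.pi) (h1 : b1 ≤ b) (h2 : b ≤ b2)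
    {p1 p2 : ℝ} (hp1 : 0 < p1) (hpf2 : p1 < (1 - sg) * pf) (hsg : 0 ≤ sg) (hp2 : p1 < p2)
    (hpf : 1 / 4 < pf) (hD : Fam b1 b2 pf fun P N0 => Drop' P b p2 N0) :
    Fam b1 b2 pf fun P N0 => RngS P b sg N0 := by
  have hb : 0 < b := hb1.trans_le h1
  have hst := fam_stiff hb hY h1 h2 hp1 hpf2 hsg hp2 hD
  have hr : Fam b1 b2 pf fun P N0 => ∀ (n m : ℕ) (ε a Y : ℝ), 0 < ε → ε ≤ P.es → N0 ≤ n →
      n + P.w ε ≤ m → m ≤ n + 4 * P.w ε → 11 / 10 ≤ a → a ≤ 19 / 10 →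
      (∀ r, P.TT n ε r → FL b (tn n) a (17 * ε ^ P.pf) (2 ^ r)) →
      (∀ r, n + P.kE ε ≤ r → yt (2 ^ r) b (tn n) ≤ max Y ε) → Y ^ 2 ≤ ε →
      ∀ e' : ℝ, ε / 2 ≤ e' → e' ≤ P.es → ∀ r, P.TT m e' r ∨ r = m + 3 * P.xE e' →
        RNG P b m r e' ∧ RNG P b (m - 1) r e' := by
    obtain ⟨W0, h⟩ := H37.rng_step' hb1 b2
    refine ⟨W0, fun W hW => ⟨1, one_pos, fun ys hy _ => ⟨0, fun X0 _ => ?_⟩⟩⟩
    refine ⟨1, one_pos, fun x1 hx1 _ => ⟨2, fun Q hQ => ?_⟩⟩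
    refine ⟨1 / 384, by norm_num, fun thp ht1 ht2 => ?_⟩
    refine ⟨min (1 / 32) (3 * x1), by positivity, fun th ht3 ht4 => ⟨0, fun C0 hC _ => ?_⟩⟩
    have e1 : th ≤ 1 / 32 := ht4.trans (min_le_left _ _)
    have e2 : th ≤ 3 * x1 := ht4.trans (min_le_right _ _)
    obtain ⟨es, M0, hes, h⟩ := h W hW th thp x1 ys pf 17 ht3 ht1 (by linarith) e2 hy hpf
      (by norm_num) X0
    refine ⟨es, hes, fun P hP hPe => ⟨M0, fun N0 hN0 => ?_⟩⟩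
    intro n m ε a Y hε hεe hn h3 h4 h5 h6 h7 h8 h9
    exact h P hP.hb1 hP.hb2 hP.hW hP.hys hP.hX0 hP.hth hP.hthp hP.hx1 hP.hpf
      (hQ.trans hP.hQ) hPe b n m ε a Y h1 h2 hε hεe (hN0.trans hn) h3 h4 h5 h6 h7 h8 h9
  refine (hst.and hr).imp fun P N0 hA p1' p2' p3' h => ?_
  obtain ⟨⟨a, -, hfl, ha, -⟩, hr⟩ := h
  intro n m ε Y hS
  have hε := hS.εpos
  have ha' := ha n hS.n0
  have h3 := hr n m ε (a n) Y hε hS.εes hS.n0 hS.lo hS.up ha'.1 ha'.2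
    (fun r hr' => hfl n ε hε hS.εes hS.good ε le_rfl hS.εes r hr')
    (fun r hr' => hS.yb.2.1 ε le_rfl hS.εes r hr') hS.yε
  exact fun e he hes r hr' => h3 e (hS.half he) hes r hr'

/-- **the inputs of the master**, as a family -/
theorem fam_pin (hb1 : 0 < b1) (hY : helicity b = 2 / Real.pi) (h1 : b1 ≤ b) (h2 : b ≤ b2)
    {p1 p2 : ℝ} (hp1 : 0 < p1) (hpf2 : p1 < (1 - sg) * pf) (hsg : 0 ≤ sg) (hp2 : p1 < p2)
    (hpf : 1 / 4 < pf)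
    (hF : Fam b1 b2 pf fun P N0 => FlatS P b sg N0)
    (hA : Fam b1 b2 pf fun P N0 => ApStep P b sg N0)
    (h0 : Fam b1 b2 pf fun P N0 => D0Step P b sg N0)
    (hD : Fam b1 b2 pf fun P N0 => DtrStep P b sg N0)
    (hDr : Fam b1 b2 pf fun P N0 => Drop' P b p2 N0) :
    Fam b1 b2 pf fun P N0 => PIn P b sg p2 N0 := by
  have hb : 0 < b := hb1.trans_le h1
  have hR := fam_rngS hb1 hY h1 h2 hp1 hpf2 hsg hp2 hpf hDr
  refine ((((fam_w.and hR).and (hF.and hA)).and (h0.and hD)).and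
    (hDr.and (fam_start hb hY.ge h1 h2))).imp fun P N0 hAd _ _ _ h => ?_
  obtain ⟨⟨⟨⟨e1, e2⟩, e3, e4⟩, e5, e6⟩, e7, e8⟩ := h
  exact ⟨hY, hAd, e8, stepP_of e1 e2 e3 e4 e5 e6, e7⟩

/-- the same in the order of constants of the master -/
theorem ev_pin (hb1 : 0 < b1) (hY : helicity b = 2 / Real.pi) (h1 : b1 ≤ b) (h2 : b ≤ b2)
    {p1 p2 : ℝ} (hp1 : 0 < p1) (hpf2 : p1 < (1 - sg) * pf) (hsg : 0 ≤ sg) (hp2 : p1 < p2)
    (hpf : 1 / 4 < pf)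
    (hF : Fam b1 b2 pf fun P N0 => FlatS P b sg N0)
    (hA : Fam b1 b2 pf fun P N0 => ApStep P b sg N0)
    (h0 : Fam b1 b2 pf fun P N0 => D0Step P b sg N0)
    (hD : Fam b1 b2 pf fun P N0 => DtrStep P b sg N0)
    (hDr : Fam b1 b2 pf fun P N0 => Drop' P b p2 N0) (Q : ℕ) :
    Ev b1 b2 pf Q fun P _ => ∀ᶠ N0 in atTop, PIn P b sg p2 N0 :=
  (fam_pin hb1 hY h1 h2 hp1 hpf2 hsg hp2 hpf hF hA h0 hD hDr).ev Q

end

end Vale.Agent.P159.H239
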