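import Vale.Agent.P159.H239.PUp
import Vale.Agent.P159.H239.ApS
import Vale.Agent.P159.H846.Fs5
import Vale.Agent.P159.H159.Drp3
import Vale.Agent.P159.H640.Dt19

/-!
P159 / P_up (helper239), assembly: the inputs `PIn` of the master as a family, from three families:
typicality `TypA` (helper730, helper816), the block source bound `BlkT` (helper663, helper276) and
`D0Step` (helper640).  Everything else (START, RNG, FLAT, DROP, DTR, change of size) is plugged in.
-/

set_option linter.unusedSectionVars false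

namespace Vale.Agent.P159.H239

open Filter Topology
open Vale.Agent.P159.H972
open Vale.Agent.P159.H801 (Ev PIn)

noncomputable section

variable {b b1 b2 pf sg : ℝ}

/-- **P_up**: the inputs of the master -/
theorem fam_pinF (hb1 : 0 < b1) (hY : helicity b = 2 / Real.pi) (h1 : b1 ≤ b) (h2 : b ≤ b2)
    {p1 p2 : ℝ} (hp1 : 0 < p1) (hpf2 : p1 < (1 - sg) * pf) (hsg : 0 < sg) (hsg2 : sg ≤ 1 / 2)
    (hp2 : p1 < p2) (hp21 : p2 < 1) (hpf : 1 / 4 < pf) (hpf1 : pf < 1)
    (hT : Fam b1 b2 pf fun P _ => H640.TypA P b)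
    (hB : Fam b1 b2 pf fun P N0 => BlkT P b sg N0)
    (h0 : Fam b1 b2 pf fun P N0 => D0Step P b sg N0) :
    Fam b1 b2 pf fun P N0 => PIn P b sg p2 N0 := by
  have hb : 0 < b := hb1.trans_le h1
  have hpi := Real.pi_pos
  have hpi2 := Real.pi_lt_d2
  have hh : 0 < helicity b := by rw [hY]; positivity
  have hs : 1 / helicity b < 5 / 2 := by
    rw [hY, one_div_div]
    linarith
  have hD : Fam b1 b2 pf fun P N0 => H846.DropS P b ((1 + pf) / 2) N0 :=
    H159.fam_dropS' hb hh hs (by linarith) hT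
  have hDr : Fam b1 b2 pf fun P N0 => Drop' P b p2 N0 := H159.fam_drop'' hb hh hs hp21 hT
  have hF : Fam b1 b2 pf fun P N0 => FlatS P b sg N0 :=
    H846.fam_flat' hb1 h1 hY hpf.le hpf1 (by linarith) hsg (by linarith) hD
  have hDt : Fam b1 b2 pf fun P N0 => DtrStep P b sg N0 :=
    H640.dtrStep_fam hb1 b2 pf b hsg hsg2
  exact fam_pin hb1 hY h1 h2 hp1 hpf2 hsg.le hp2 hpf hF (fam_apS hb1 h1 hB) h0 hDt hDr

end

end Vale.Agent.P159.H239
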