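import Vale.Agent.P159.H239.PUpG
import Vale.Agent.P159.H816.Ty2

/-!
P159 / P_up (helper239), assembly: the inputs `PIn` of the master as a family, from the block source
bound `BlkT` (helper663, helper276) only; typicality is plugged in (helper730, helper816).
-/

set_option linter.unusedSectionVars false

namespace Vale.Agent.P159.H239

open Filter Topology
open Vale.Agent.P159.H972
open Vale.Agent.P159.H801 (Ev PIn)

noncomputable section

variable {b b1 b2 pf sg : ℝ}

/-- **P_up** from the block source bound -/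
theorem fam_pinB (hb1 : 0 < b1) (hY : helicity b = 2 / Real.pi) (h1 : b1 ≤ b) (h2 : b ≤ b2)
    {p1 p2 : ℝ} (hp1 : 0 < p1) (hpf2 : p1 < (1 - sg) * pf) (hsg : 0 < sg) (hsg2 : sg ≤ 1 / 2)
    (hp2 : p1 < p2) (hp21 : p2 < 1) (hpf : 1 / 4 < pf) (hpf1 : pf < 1)
    (hB : Fam b1 b2 pf fun P N0 => BlkT P b sg N0) :
    Fam b1 b2 pf fun P N0 => PIn P b sg p2 N0 :=
  fam_pinH hb1 hY h1 h2 hp1 hpf2 hsg hsg2 hp2 hp21 hpf hpf1
    (H816.fam_typA hb1 h1 (by linarith)) hB

end

end Vale.Agent.P159.H239
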