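import Vale.Agent.P159.H239.PUpH
import Vale.Agent.P159.H239.FamEv
import Vale.Agent.P159.H663.ApG

/-!
P159 / P_up (helper239), end of the assembly: **the inputs `PIn` of the master hold**, without any
open hypothesis, at the critical point `helicity b = 2 / π`, in the order of constants.
-/

set_option linter.unusedSectionVars false

namespace Vale.Agent.P159.H239

open Filter Topology
open Vale.Agent.P159.H972
open Vale.Agent.P159.H801 (Ev PIn)

noncomputable section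

variable {b b1 b2 pf sg : ℝ}

/-- **P_up**: the inputs of the master, as a family -/
theorem fam_PIn (hb1 : 0 < b1) (hY : helicity b = 2 / Real.pi) (h1 : b1 ≤ b) (h2 : b ≤ b2)
    {p1 p2 : ℝ} (hp1 : 0 < p1) (hpf2 : p1 < (1 - sg) * pf) (hsg : 0 < sg) (hsg2 : sg ≤ 1 / 4)
    (hp2 : p1 < p2) (hp21 : p2 < 1) (hpf : 1 / 4 < pf) (hpf1 : pf < 1) :
    Fam b1 b2 pf fun P N0 => PIn P b sg p2 N0 :=
  fam_pinB hb1 hY h1 h2 hp1 hpf2 hsg (by linarith) hp2 hp21 hpf hpf1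
    (H663.fam_blkT (hb1.trans_le h1) hb1 (by linarith) hsg.le hsg2)

/-- **P_up** in the filter form of the master -/
theorem ev_PIn (hb1 : 0 < b1) (hY : helicity b = 2 / Real.pi) (h1 : b1 ≤ b) (h2 : b ≤ b2)
    {p1 p2 : ℝ} (hp1 : 0 < p1) (hpf2 : p1 < (1 - sg) * pf) (hsg : 0 < sg) (hsg2 : sg ≤ 1 / 4)
    (hp2 : p1 < p2) (hp21 : p2 < 1) (hpf : 1 / 4 < pf) (hpf1 : pf < 1) (Q : ℕ) :
    Ev b1 b2 pf Q fun P _ => ∀ᶠ N0 in atTop, PIn P b sg p2 N0 :=
  (fam_PIn hb1 hY h1 h2 hp1 hpf2 hsg hsg2 hp2 hp21 hpf hpf1).ev Q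

/-- **P_up** at the numbers of the final instance: `σ = 1/20, sg = 1/40, p1 = 17/20` -/
theorem ev_PIn_std (hb1 : 0 < b1) (hY : helicity b = 2 / Real.pi) (h1 : b1 ≤ b) (h2 : b ≤ b2)
    (Q : ℕ) : Ev b1 b2 (9 / 10) Q fun P _ => ∀ᶠ N0 in atTop, PIn P b (1 / 40) (9 / 10) N0 :=
  ev_PIn hb1 hY h1 h2 (p1 := 17 / 20) (by norm_num) (by norm_num) (by norm_num) (by norm_num)
    (by norm_num) (by norm_num) (by norm_num) (by norm_num) Q

end

end Vale.Agent.P159.H239
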